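import Vale.Agent.P168.Basic

open MeasureTheory ProbabilityTheory Real Finset

namespace Vale.Agent.P168

variable {N K M : ℕ} {ν η : Measure (ℝ × ℝ)} {ρ : Measure ℝ}

@[fun_prop]
lemma measurable_theta (σ : Fin K → Bool) : Measurable fun c : Clause K => theta c σ := by
  unfold theta
  refine Real.measurable_log.comp ((measurable_fst.comp measurable_fst).mul
    (measurable_const.add ((measurable_snd.comp measurable_fst).mul
      (Finset.measurable_prod _ fun j _ => ?_))))
  unfold fval
  cases σ j <;> simp <;> fun_prop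

lemma measurable_av_logZ [NeZero N] :
    Measurable fun p : (Fin N → ℝ) × (Fin M → Clause K) => av (fun i => logZ p.1 p.2 i) := by
  unfold av
  refine (Finset.measurable_sum _ fun i _ => ?_).div_const _
  unfold logZ
  refine Real.measurable_log.comp (Finset.measurable_sum _ fun σ _ => Real.measurable_exp.comp ?_)
  refine (Finset.measurable_sum _ fun k _ => ?_).add (by fun_prop)
  exact (measurable_theta _).comp ((measurable_pi_apply k).comp measurable_snd)

/-- linear majorant of `|log Z|` -/
noncomputable def crude (h : Fin N → ℝ) (w : Fin M → Clause K) : ℝ :=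
  N * log 2 + ∑ x, |h x| + ∑ k, (|log (w k).1.1| + lam0 (w k).1)

lemma abs_av_logZ [NeZero N] {h : Fin N → ℝ} {w : Fin M → Clause K} (hw : ∀ k, Valid (w k)) :
    |av (fun i => logZ h w i)| ≤ crude h w := by
  refine abs_av_le fun i => ?_
  set T := ∑ x, |h x| + ∑ k, (|log (w k).1.1| + lam0 (w k).1)
  have hb : ∀ σ : Fin N → Bool, |∑ k, theta (w k) (fun j => σ (i k j)) + ∑ x, h x * sg (σ x)| ≤ T := by
    intro σ
    refine (abs_add_le _ _).trans ?_
    have h1 := (abs_sum_le_sum_abs _ _).trans (sum_le_sum (s := univ) fun k (_ : k ∈ univ) =>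
      abs_theta_le (hw k) fun j => σ (i k j))
    have h2 := (abs_sum_le_sum_abs (fun x => h x * sg (σ x)) univ)
    simp only [abs_mul, abs_sg, mul_one] at h2
    linarith
  have hc : log (∑ _σ : Fin N → Bool, exp (0:ℝ)) = N * log 2 := by simp [log_pow]
  have hN : 0 ≤ (N:ℝ) * log 2 := by positivity
  have e : crude h w = N * log 2 + T := add_assoc _ _ _
  rw [e, logZ, abs_le]
  constructor
  · have h' := log_sum_diff (x := fun _ : Fin N → Bool => (0:ℝ))
      (y := fun σ => ∑ k, theta (w k) (fun j => σ (i k j)) + ∑ x, h x * sg (σ x)) (c := T)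
      fun σ => by linarith [(abs_le.1 (hb σ)).1]
    rw [hc] at h'; linarith
  · have h' := log_sum_diff (y := fun _ : Fin N → Bool => (0:ℝ))
      (x := fun σ => ∑ k, theta (w k) (fun j => σ (i k j)) + ∑ x, h x * sg (σ x)) (c := T)
      fun σ => by linarith [(abs_le.1 (hb σ)).2]
    rw [hc] at h'; linarith

lemma integrable_crude (d : Disorder ν η ρ) (h : Fin N → ℝ) :
    Integrable (crude (K := K) (M := M) h) (Measure.pi fun _ => clauseLaw ν η K) ∧
      ∫ w : Fin M → Clause K, crude h w ∂Measure.pi (fun _ => clauseLaw ν η K) =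
        N * log 2 + ∑ x, |h x| + M * ∫ c, (|log c.1| + lam0 c) ∂ν := by
  have := d.pν; have := d.pη
  have hb := d.base (K := K) (d.hla.abs.add d.hlb)
  have hs := integral_sum_eval (clauseLaw ν η K) hb.1 M
  simp only [Pi.add_apply] at hb hs
  refine ⟨(integrable_const _).add hs.1, ?_⟩
  unfold crude
  rw [integral_add (integrable_const _) hs.1, hs.2, hb.2]
  simp

/-- A lower bound on the expected log-partition function for each number of clauses gives one on
the pressure. -/
lemma pressure_ge [NeZero N] (d : Disorder ν η ρ) {lam A B C : ℝ} (hlam : 0 ≤ lam)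
    (H : ∀ M : ℕ, ∃ P : (Fin N → ℝ) → (Fin M → Clause K) → ℝ,
      (∀ h, ∀ w, (∀ k, Valid (w k)) → P h w ≤ av (fun i => logZ h w i)) ∧
      Integrable (fun p : (Fin N → ℝ) × (Fin M → Clause K) => P p.1 p.2)
        ((Measure.pi fun _ => ρ).prod (Measure.pi fun _ => clauseLaw ν η K)) ∧
      A * M + B - C * ((M:ℝ) - lam * N) ^ 2 ≤
        ∫ p, P p.1 p.2 ∂((Measure.pi fun _ : Fin N => ρ).prod (Measure.pi fun _ : Fin M => clauseLaw ν η K))) :
    A * lam + (B - C * (lam * N)) / N ≤ pressure ν η ρ lam K N := by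
  have := d.pν; have := d.pη; have := d.pρ
  have hN : (0:ℝ) < N := by exact_mod_cast NeZero.pos N
  set r := lam * (N:ℝ)
  have hr : 0 ≤ r := by positivity
  set G := fun M : ℕ => ∫ h : Fin N → ℝ, ∫ w : Fin M → Clause K, av (fun i => logZ h w i)
      ∂Measure.pi (fun _ => clauseLaw ν η K) ∂Measure.pi (fun _ => ρ)
  have hI : ∀ M : ℕ, Integrable (fun p : (Fin N → ℝ) × (Fin M → Clause K) => av (fun i => logZ p.1 p.2 i))
      ((Measure.pi fun _ => ρ).prod (Measure.pi fun _ => clauseLaw ν η K)) ∧
      |G M| ≤ (∫ c, (|log c.1| + lam0 c) ∂ν) * M + (N * log 2 + N * ∫ y, |y| ∂ρ) := by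
    intro M
    have hcl : Integrable (fun p : (Fin N → ℝ) × (Fin M → Clause K) => crude p.1 p.2)
        ((Measure.pi fun _ => ρ).prod (Measure.pi fun _ => clauseLaw ν η K)) := by
      have h1 := (integral_sum_eval ρ (d.hh.abs : Integrable (fun y => |y|) ρ) N).1.comp_fst
        (Measure.pi fun _ : Fin M => clauseLaw ν η K)
      have h2 := ((integral_sum_eval (clauseLaw ν η K) (d.base (K := K) (d.hla.abs.add d.hlb)).1 M).1).comp_snd
        (Measure.pi fun _ : Fin N => ρ)
      refine (((integrable_const ((N:ℝ) * log 2)).add h1).add h2).congr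
        (Filter.Eventually.of_forall fun p => ?_)
      simp [crude]
    have hv : ∀ᵐ p ∂((Measure.pi fun _ : Fin N => ρ).prod (Measure.pi fun _ : Fin M => clauseLaw ν η K)),
        |av (fun i => logZ p.1 p.2 i)| ≤ crude p.1 p.2 :=
      (Measure.quasiMeasurePreserving_snd.ae (d.valid_pi M)).mono fun p hp => abs_av_logZ hp
    have hi : Integrable (fun p : (Fin N → ℝ) × (Fin M → Clause K) => av (fun i => logZ p.1 p.2 i))
        ((Measure.pi fun _ => ρ).prod (Measure.pi fun _ => clauseLaw ν η K)) :=
      hcl.mono' measurable_av_logZ.aestronglyMeasurable hv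
    refine ⟨hi, ?_⟩
    have e : G M = ∫ p, av (fun i => logZ p.1 p.2 i)
        ∂((Measure.pi fun _ : Fin N => ρ).prod (Measure.pi fun _ : Fin M => clauseLaw ν η K)) :=
      (integral_prod _ hi).symm
    rw [e, ← Real.norm_eq_abs]
    refine (norm_integral_le_of_norm_le hcl hv).trans (le_of_eq ?_)
    rw [integral_prod _ hcl]
    simp only [(integrable_crude d _).2]
    have hs := integral_sum_eval ρ (d.hh.abs : Integrable (fun y => |y|) ρ) N
    simp only [id_eq] at hs
    rw [integral_add (f := fun x : Fin N → ℝ => (N:ℝ) * log 2 + ∑ y, |x y|)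
        ((integrable_const _).add hs.1) (integrable_const _),
      integral_add (integrable_const _) hs.1, hs.2]
    simp; ring
  have hG : ∀ M : ℕ, A * M + B - C * ((M:ℝ) - r) ^ 2 ≤ G M := by
    intro M
    obtain ⟨P, hP, hPi, hPl⟩ := H M
    refine hPl.trans ((integral_mono_ae hPi (hI M).1 ?_).trans (le_of_eq (integral_prod _ (hI M).1)))
    exact (Measure.quasiMeasurePreserving_snd.ae (d.valid_pi M)).mono fun p hp => hP p.1 p.2 hp
  have hsum := summable_pois_mul hr (G := G) fun M => (hI M).2
  have hle := (hasSum_pois_quad r A B C).summable.tsum_le_tsum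
    (fun M => mul_le_mul_of_nonneg_left (hG M) (pois_nonneg hr M)) hsum
  rw [(hasSum_pois_quad r A B C).tsum_eq] at hle
  have := mul_le_mul_of_nonneg_left hle (show 0 ≤ 1 / (N:ℝ) by positivity)
  unfold pressure
  refine le_trans (le_of_eq ?_) this
  simp only [r]; field_simp; ring

end Vale.Agent.P168
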