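import Vale.Agent.P168.Core

open Real Finset

namespace Vale.Agent.P168

lemma exp_le_quad (x : ℝ) : exp x ≤ 1 + x + x ^ 2 * exp |x| := by
  rcases le_or_gt 0 x with h | h
  · rw [abs_of_nonneg h]
    have h1 : exp x - 1 ≤ x * exp x := by
      have := mul_le_mul_of_nonneg_right (add_one_le_exp (-x)) (exp_pos x).le
      rw [← exp_add, neg_add_cancel, exp_zero] at this
      linarith
    have h2 := mul_le_mul_of_nonneg_left h1 h
    linarith
  · rw [abs_of_neg h]
    have h1 : exp x * (1 - x) ≤ 1 := by
      have := mul_le_mul_of_nonneg_left (add_one_le_exp (-x)) (exp_pos x).le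
      rw [← exp_add, add_neg_cancel, exp_zero] at this
      linarith
    have h2 : -x * (1 - exp x) ≤ -x * -x := mul_le_mul_of_nonneg_left (by linarith [add_one_le_exp x]) (by linarith)
    have h3 : x ^ 2 ≤ x ^ 2 * exp (-x) := le_mul_of_one_le_right (sq_nonneg x) (one_le_exp (by linarith))
    linarith

lemma av_succ {β : Type*} [Fintype β] {m : ℕ} (F : (Fin (m + 1) → β) → ℝ) :
    av F = av (fun r : Fin m → β => av fun b => F (Fin.cons b r)) := by
  classical
  have h : ∑ a, F a = ∑ p : β × (Fin m → β), F (Fin.cons p.1 p.2) :=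
    (Fintype.sum_equiv (Fin.consEquiv fun _ => β) (fun p => F (Fin.cons p.1 p.2)) F fun p => rfl).symm
  simp only [av, h, Fintype.sum_prod_type, Fintype.card_fun, Fintype.card_fin, pow_succ, ← Finset.sum_div,
    div_div, Nat.cast_mul, Nat.cast_pow]
  rw [sum_comm, mul_comm]

lemma av_exp_bdd_diff {β : Type*} [Fintype β] [Nonempty β] {c l : ℝ} (hl : 0 ≤ l) :
    ∀ (m : ℕ) (F : (Fin m → β) → ℝ),
      (∀ r r' : Fin m → β, ∀ k, (∀ j ≠ k, r j = r' j) → |F r - F r'| ≤ c) →
      av (fun r => exp (l * F r)) ≤ exp (l * av F + m * (l ^ 2 * c ^ 2 * exp (l * c))) := by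
  intro m
  induction m with
  | zero =>
    intro F _
    have e : ∀ r : Fin 0 → β, F r = F (fun j => j.elim0) := fun r => congrArg F (Subsingleton.elim _ _)
    simp only [av, Finset.sum_congr rfl fun r _ => e r, Finset.sum_congr rfl fun r _ => show exp (l * F r) =
      exp (l * F (fun j => j.elim0)) by rw [e r]]
    simp
  | succ m ih =>
    intro F hd
    set G := fun r : Fin m → β => av fun b => F (Fin.cons b r) with hG
    have hGd : ∀ r r' : Fin m → β, ∀ k, (∀ j ≠ k, r j = r' j) → |G r - G r'| ≤ c := by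
      intro r r' k hk
      have e : G r - G r' = av fun b => F (Fin.cons b r) - F (Fin.cons b r') := by
        simp only [hG, av, Finset.sum_sub_distrib, sub_div]
      rw [e]
      refine abs_av_le fun b => hd _ _ k.succ fun j hj => ?_
      refine Fin.cases ?_ (fun i hi => ?_) j hj
      · intro _; simp
      · simp only [Fin.cons_succ]; exact hk i fun h => hi (by rw [h])
    have inner : ∀ r, av (fun b => exp (l * F (Fin.cons b r))) ≤ exp (l * G r + l ^ 2 * c ^ 2 * exp (l * c)) := by
      intro r
      have hdev : ∀ b, |F (Fin.cons b r) - G r| ≤ c := by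
        intro b
        have e : F (Fin.cons b r) - G r = av fun b' => F (Fin.cons b r) - F (Fin.cons b' r) := by
          simp only [hG, av, Finset.sum_sub_distrib, sub_div]
          simp
        rw [e]
        refine abs_av_le fun b' => hd _ _ 0 fun j hj => ?_
        obtain ⟨i, rfl⟩ := Fin.exists_succ_eq.2 hj
        simp
      have hp : ∀ b, exp (l * F (Fin.cons b r)) ≤ exp (l * G r) *
          (1 + l * (F (Fin.cons b r) - G r) + l ^ 2 * c ^ 2 * exp (l * c)) := by
        intro b
        rw [show l * F (Fin.cons b r) = l * G r + l * (F (Fin.cons b r) - G r) by ring, exp_add]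
        refine mul_le_mul_of_nonneg_left ((exp_le_quad _).trans (add_le_add le_rfl ?_)) (exp_pos _).le
        have ha : |l * (F (Fin.cons b r) - G r)| ≤ l * c := by
          rw [abs_mul, abs_of_nonneg hl]; exact mul_le_mul_of_nonneg_left (hdev b) hl
        refine mul_le_mul ?_ (exp_le_exp.2 ha) (exp_pos _).le (by positivity)
        rw [← sq_abs, ← mul_pow]; exact pow_le_pow_left₀ (abs_nonneg _) ha 2
      refine (av_mono hp).trans ?_
      rw [av_const_mul, av_add, av_add, av_const, av_const, av_const_mul, exp_add]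
      refine mul_le_mul_of_nonneg_left ?_ (exp_pos _).le
      have z : av (fun b => F (Fin.cons b r) - G r) = 0 := by
        simp only [sub_eq_add_neg]; rw [av_add, av_const]; simp [hG]
      rw [z]
      linarith [add_one_le_exp (l ^ 2 * c ^ 2 * exp (l * c))]
    rw [av_succ]
    refine (av_mono inner).trans ?_
    simp only [exp_add]
    rw [av_mul_const]
    refine (mul_le_mul_of_nonneg_right (ih G hGd) (exp_pos _).le).trans (le_of_eq ?_)
    rw [← exp_add, ← exp_add, av_succ F]
    simp only [hG]; push_cast; ring_nf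

variable {N K M : ℕ} [NeZero N]

lemma log_sum_diff {ι : Type*} [Fintype ι] [Nonempty ι] {x y : ι → ℝ} {c : ℝ} (h : ∀ a, x a ≤ y a + c) :
    log (∑ a, exp (x a)) ≤ log (∑ a, exp (y a)) + c := by
  have hy : 0 < ∑ a, exp (y a) := sum_pos (fun a _ => exp_pos _) univ_nonempty
  have hle : ∑ a, exp (x a) ≤ exp c * ∑ a, exp (y a) := by
    rw [mul_sum]
    exact sum_le_sum fun a _ => by rw [← exp_add]; exact exp_le_exp.2 (by linarith [h a])
  have := log_le_log (sum_pos (fun a _ => exp_pos _) univ_nonempty) hle
  rw [log_mul (exp_pos _).ne' hy.ne', log_exp] at this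
  linarith

/-- averaged log-partition function of the parity model -/
noncomputable def logPart (g : Fin M → ℝ) (S : Fin M → Fin K → Bool) (h : Fin N → ℝ)
    (i : Fin M → Fin K → Fin N) : ℝ :=
  log (∑ σ : Fin N → Bool, exp (ham g S h σ i))

theorem windowed_lower {g : Fin M → ℝ} {S : Fin M → Fin K → Bool} {h : Fin N → ℝ} {t ε L D : ℝ}
    (w : Window g S h t ε L D) {l : ℝ} (hl : 0 < l) (hl1 : l ≤ 1) :
    ann g h t + (1 - t) * (ener g h t - D) - exp (2 * L) * ∑ k, slack ε (S k) - log 4
      - (5 * (exp (2 * L) * ∑ k, slack ε (S k)) + log 48) / l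
      - M * l * ((2 * L) ^ 2 * exp (2 * L))
      ≤ av (logPart g S h) := by
  have hL : 0 ≤ L := (abs_nonneg _).trans (w.hh ⟨0, NeZero.pos N⟩)
  set a := ann g h t
  set u := ener g h t
  set η := ∑ k, slack ε (S k)
  set e := exp (2 * L) * η
  have hη : 0 ≤ η := sum_nonneg fun k _ => slack_nonneg w.hε1 _
  have hηe : η ≤ e := le_mul_of_one_le_left hη (one_le_exp (by linarith))
  set W := win g S h t ε D
  have hW0 : ∀ i, 0 ≤ W i := fun i => sum_nonneg fun σ _ => by split <;> positivity
  set B := (1 - t) * (u - D) + a - e - log 4 with hB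
  have hX := weight_bound hW0 (by positivity) (win_first w) (win_second w)
  have hX' : exp (-(5 * e)) / 48 ≤ av fun i => if exp (a - e) / 2 / 2 ≤ W i then (1:ℝ) else 0 := by
    refine le_trans ?_ hX
    rw [div_pow, ← exp_nat_mul, div_div, le_div_iff₀ (by positivity)]
    rw [show exp (-(5 * e)) / 48 * (2 ^ 2 * (4 * (3 * exp (2 * a + 3 * η)))) = exp (-(5 * e)) * exp (2 * a + 3 * η) by ring,
      ← exp_add]
    refine exp_le_exp.2 ?_
    push_cast; linarith
  have hev : ∀ i, (if exp (a - e) / 2 / 2 ≤ W i then (1:ℝ) else 0) * exp (l * B) ≤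
      exp (l * logPart g S h i) := by
    intro i
    split_ifs with hi
    swap
    · rw [zero_mul]; positivity
    rw [one_mul]
    refine exp_le_exp.2 (mul_le_mul_of_nonneg_left ?_ hl.le)
    have hpos : 0 < ∑ σ : Fin N → Bool, exp (ham g S h σ i) :=
      sum_pos (fun σ _ => exp_pos _) univ_nonempty
    have hge : exp ((1 - t) * (u - D)) * W i ≤ ∑ σ : Fin N → Bool, exp (ham g S h σ i) := by
      simp only [W, win]
      rw [mul_sum]
      refine (sum_le_sum fun σ _ => ?_).trans (sum_le_sum_of_subset_of_nonneg (subset_univ _) fun σ _ _ => (exp_pos _).le)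
      split_ifs with hd
      · rw [← exp_add]
        refine exp_le_exp.2 ?_
        have := mul_le_mul_of_nonneg_left (show u - D ≤ ham g S h σ i by linarith [(abs_le.1 hd).1])
          (show 0 ≤ 1 - t by linarith [w.ht1])
        linarith
      · rw [mul_zero]; positivity
    have h4 : exp B ≤ exp ((1 - t) * (u - D)) * W i := by
      refine le_trans (le_of_eq ?_) (mul_le_mul_of_nonneg_left hi (exp_pos _).le)
      rw [hB, exp_sub, exp_log (by norm_num : (0:ℝ) < 4), add_sub_assoc, exp_add]
      ring
    have := log_le_log (exp_pos _) (h4.trans hge)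
    rwa [log_exp] at this
  have hd : ∀ r r' : Fin M → Fin K → Fin N, ∀ k, (∀ j ≠ k, r j = r' j) →
      |logPart g S h r - logPart g S h r'| ≤ 2 * L := by
    intro r r' k hk
    have one : ∀ r r' : Fin M → Fin K → Fin N, (∀ j ≠ k, r j = r' j) →
        logPart g S h r ≤ logPart g S h r' + 2 * L := by
      intro r r' hk
      refine log_sum_diff fun σ => ?_
      simp only [ham]
      rw [← add_sum_erase _ _ (mem_univ k), ← add_sum_erase _ _ (mem_univ k),
        sum_congr rfl fun j hj => by rw [hk j (ne_of_mem_erase hj)]]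
      have b : ∀ x, |g k * par (S k) σ x| ≤ L := fun x => by
        rcases par_pm (S k) σ x with e | e <;> simp [e, w.hg k]
      linarith [(abs_le.1 (b (r k))).2, (abs_le.1 (b (r' k))).1]
    rw [abs_le]
    exact ⟨by linarith [one r' r fun j hj => (hk j hj).symm], by linarith [one r r' hk]⟩
  have hmgf := av_exp_bdd_diff hl.le M (logPart g S h) hd
  have hlow : exp (-(5 * e)) / 48 * exp (l * B) ≤ av (fun i => exp (l * logPart g S h i)) := by
    refine (mul_le_mul_of_nonneg_right hX' (exp_pos _).le).trans ?_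
    rw [← av_mul_const]; exact av_mono hev
  have h5 := log_le_log (by positivity) (hlow.trans hmgf)
  rw [log_mul (by positivity) (exp_pos _).ne', log_div (exp_pos _).ne' (by norm_num), log_exp, log_exp, log_exp] at h5
  have hexp : l ^ 2 * (2 * L) ^ 2 * exp (l * (2 * L)) ≤ l ^ 2 * (2 * L) ^ 2 * exp (2 * L) :=
    mul_le_mul_of_nonneg_left (exp_le_exp.2 (mul_le_of_le_one_left (by linarith) hl1)) (by positivity)
  have h6 := mul_le_mul_of_nonneg_left hexp (Nat.cast_nonneg (α := ℝ) M)
  have key : l * (B - (5 * e + log 48) / l - M * l * ((2 * L) ^ 2 * exp (2 * L))) ≤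
      l * av (logPart g S h) := by
    have e3 : l * (B - (5 * e + log 48) / l - M * l * ((2 * L) ^ 2 * exp (2 * L))) =
        l * B - (5 * e + log 48) - M * (l ^ 2 * (2 * L) ^ 2 * exp (2 * L)) := by field_simp
    rw [e3]; linarith
  have := le_of_mul_le_mul_left key hl
  rw [hB] at this
  linarith

end Vale.Agent.P168
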