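import Vale.Agent.P168.Defs
import Vale.Agent.P168.LogLower

open MeasureTheory ProbabilityTheory Real Finset

namespace Vale.Agent.P168

variable {K N M n : ℕ}

/-! ### Poisson sums -/

lemma pois_nonneg {r : ℝ} (hr : 0 ≤ r) (n : ℕ) : 0 ≤ pois r n := by unfold pois; positivity

lemma hasSum_pois (r : ℝ) : HasSum (pois r) 1 := by
  have h := (NormedSpace.expSeries_div_hasSum_exp r).mul_left (exp (-r))
  rw [← exp_eq_exp_ℝ, ← exp_add, neg_add_cancel, exp_zero] at h
  exact h.congr_fun fun n => by unfold pois; ring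

lemma pois_succ (r : ℝ) (n : ℕ) : ((n:ℝ) + 1) * pois r (n + 1) = r * pois r n := by
  simp only [pois, pow_succ, Nat.factorial_succ, Nat.cast_mul, Nat.cast_add_one]
  field_simp

lemma hasSum_pois_id (r : ℝ) : HasSum (fun n : ℕ => pois r n * n) r := by
  rw [← hasSum_nat_add_iff' 1]
  simp only [range_one, sum_singleton, Nat.cast_zero, mul_zero, sub_zero]
  have h := (hasSum_pois r).mul_left r
  rw [mul_one] at h
  refine h.congr_fun fun k => ?_
  rw [← pois_succ]; push_cast; ring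

lemma hasSum_pois_sq (r : ℝ) : HasSum (fun n : ℕ => pois r n * (n:ℝ) ^ 2) (r ^ 2 + r) := by
  rw [← hasSum_nat_add_iff' 1]
  simp only [range_one, sum_singleton, Nat.cast_zero, zero_pow two_ne_zero, mul_zero, sub_zero]
  have h := ((hasSum_pois_id r).add (hasSum_pois r)).mul_left r
  rw [show r * (r + 1) = r ^ 2 + r by ring] at h
  refine h.congr_fun fun k => ?_
  have := pois_succ r k
  push_cast
  linear_combination ((k:ℝ) + 1) * this

lemma hasSum_pois_affine (r A B : ℝ) : HasSum (fun n : ℕ => pois r n * (A * n + B)) (A * r + B) := by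
  have h := ((hasSum_pois_id r).mul_left A).add ((hasSum_pois r).mul_left B)
  rw [mul_one] at h
  exact h.congr_fun fun n => by ring

lemma hasSum_pois_quad (r A B C : ℝ) :
    HasSum (fun n : ℕ => pois r n * (A * n + B - C * ((n:ℝ) - r) ^ 2)) (A * r + B - C * r) := by
  have h := ((hasSum_pois_sq r).mul_left (-C)).add (hasSum_pois_affine r (A + 2 * C * r) (B - C * r ^ 2))
  rw [show -C * (r ^ 2 + r) + ((A + 2 * C * r) * r + (B - C * r ^ 2)) = A * r + B - C * r by ring] at h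
  exact h.congr_fun fun n => by ring

lemma summable_pois_mul {r : ℝ} (hr : 0 ≤ r) {G : ℕ → ℝ} {A B : ℝ} (h : ∀ n, |G n| ≤ A * n + B) :
    Summable fun n => pois r n * G n := by
  refine Summable.of_norm_bounded (hasSum_pois_affine r A B).summable fun n => ?_
  rw [Real.norm_eq_abs, abs_mul, abs_of_nonneg (pois_nonneg hr n)]
  exact mul_le_mul_of_nonneg_left (h n) (pois_nonneg hr n)

/-! ### pointwise facts -/

/-- the integrable majorant `-log (1 - |b|)` -/
noncomputable def lam0 (c : ℝ × ℝ) : ℝ := -log (1 - |c.2|)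

/-- pointwise validity of a clause -/
def Valid (c : Clause K) : Prop := 0 < c.1.1 ∧ |c.1.2| < 1 ∧ ∀ j, |(c.2 j).1| ≤ 1 ∧ |(c.2 j).2| ≤ 1

lemma log_one_add_mem {b y : ℝ} (hb : |b| < 1) (hy : |y| ≤ 1) :
    |log (1 + b * y)| ≤ -log (1 - |b|) * |y| := by
  have h1 : 0 < 1 - |b| := by linarith
  have hb0 : |b| ≤ -log (1 - |b|) := by linarith [log_le_sub_one_of_pos h1]
  have hby : |b * y| ≤ |b| * |y| := (abs_mul b y).le
  have hpos : 1 - |b| ≤ 1 + b * y := by
    have := mul_le_of_le_one_right (abs_nonneg b) hy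
    linarith [(abs_le.1 hby).1]
  rw [abs_le]
  constructor
  · -- concavity of the logarithm
    have hc := strictConcaveOn_log_Ioi.concaveOn.2 (Set.mem_Ioi.2 h1) (Set.mem_Ioi.2 one_pos)
      (abs_nonneg y) (show 0 ≤ 1 - |y| by linarith) (by ring)
    simp only [smul_eq_mul, log_one, mul_zero, add_zero] at hc
    have hle : |y| * (1 - |b|) + (1 - |y|) * 1 ≤ 1 + b * y := by linarith [(abs_le.1 hby).1]
    have hpos2 : 0 < |y| * (1 - |b|) + (1 - |y|) * 1 := by
      have := mul_le_of_le_one_right (abs_nonneg b) hy; linarith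
    linarith [log_le_log hpos2 hle]
  · have := log_le_sub_one_of_pos (lt_of_lt_of_le h1 hpos)
    linarith [(abs_le.1 hby).2, mul_le_mul_of_nonneg_right hb0 (abs_nonneg y)]

lemma abs_fval_le {p : ℝ × ℝ} (h : |p.1| ≤ 1 ∧ |p.2| ≤ 1) (s : Bool) : |fval p s| ≤ 1 := by
  cases s <;> simp [fval, h.1, h.2]

lemma abs_prod_fval_le {c : Clause K} (hc : Valid c) (σ : Fin K → Bool) :
    |∏ j, fval (c.2 j) (σ j)| ≤ 1 := by
  rw [abs_prod]; exact prod_le_one (fun j _ => abs_nonneg _) fun j _ => abs_fval_le (hc.2.2 j) _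

lemma lam0_nonneg {c : ℝ × ℝ} (h : |c.2| < 1) : 0 ≤ lam0 c := by
  have := log_nonpos (show 0 ≤ 1 - |c.2| by linarith) (by linarith [abs_nonneg c.2])
  unfold lam0; linarith

lemma theta_sub_le {c : Clause K} (hc : Valid c) (σ : Fin K → Bool) :
    |theta c σ - log c.1.1| ≤ lam0 c.1 * |∏ j, fval (c.2 j) (σ j)| := by
  have hy := abs_prod_fval_le hc σ
  have hpos : 0 < 1 + c.1.2 * ∏ j, fval (c.2 j) (σ j) := by
    have h := abs_mul c.1.2 (∏ j, fval (c.2 j) (σ j))
    have h2 := mul_le_of_le_one_right (abs_nonneg c.1.2) hy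
    linarith [neg_abs_le (c.1.2 * ∏ j, fval (c.2 j) (σ j)), hc.2.1]
  rw [theta, log_mul hc.1.ne' hpos.ne', add_sub_cancel_left]
  exact log_one_add_mem hc.2.1 hy

lemma abs_theta_le {c : Clause K} (hc : Valid c) (σ : Fin K → Bool) :
    |theta c σ| ≤ |log c.1.1| + lam0 c.1 := by
  have := (theta_sub_le hc σ).trans (mul_le_of_le_one_right (lam0_nonneg hc.2.1) (abs_prod_fval_le hc σ))
  have := abs_add_le (theta c σ - log c.1.1) (log c.1.1)
  rw [sub_add_cancel] at this
  linarith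

lemma exp_theta {c : Clause K} (hc : Valid c) (σ : Fin K → Bool) :
    exp (theta c σ) = c.1.1 * (1 + c.1.2 * ∏ j, fval (c.2 j) (σ j)) := by
  refine exp_log (mul_pos hc.1 ?_)
  have h := abs_mul c.1.2 (∏ j, fval (c.2 j) (σ j))
  have h2 := mul_le_of_le_one_right (abs_nonneg c.1.2) (abs_prod_fval_le hc σ)
  linarith [neg_abs_le (c.1.2 * ∏ j, fval (c.2 j) (σ j)), hc.2.1]

/-- clipping to `[-L, L]` -/
def clip (L x : ℝ) : ℝ := max (-L) (min x L)

lemma abs_clip_le {L : ℝ} (hL : 0 ≤ L) (x : ℝ) : |clip L x| ≤ L := by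
  rw [abs_le]; exact ⟨le_max_left _ _, max_le (by linarith) (min_le_right _ _)⟩

lemma clip_neg {L : ℝ} (hL : 0 ≤ L) (x : ℝ) : clip L (-x) = -clip L x := by
  unfold clip
  rcases le_total x L with h | h <;> rcases le_total (-L) x with h' | h' <;>
    simp only [max_def, min_def] <;> split_ifs <;> linarith

lemma clip_of_le {L x : ℝ} (h : |x| ≤ L) : clip L x = x := by
  rw [abs_le] at h; rw [clip, min_eq_left h.2, max_eq_right h.1]

lemma abs_clip_le_abs {L : ℝ} (hL : 0 ≤ L) (x : ℝ) : |clip L x| ≤ |x| := by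
  rcases le_or_gt |x| L with h | h
  · rw [clip_of_le h]
  · exact (abs_clip_le hL x).trans h.le

@[fun_prop]
lemma continuous_tanh' : Continuous Real.tanh := by
  simp only [show Real.tanh = fun x => Real.sinh x / Real.cosh x from funext Real.tanh_eq_sinh_div_cosh]
  exact Real.continuous_sinh.div Real.continuous_cosh fun x => (Real.cosh_pos x).ne'

@[fun_prop]
lemma measurable_tanh' : Measurable Real.tanh := continuous_tanh'.measurable

@[fun_prop]
lemma continuous_clip (L : ℝ) : Continuous (clip L) := by unfold clip; fun_prop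

/-! ### i.i.d. arrays -/

section iid
variable {α : Type*} [MeasurableSpace α] (μ : Measure α) [IsProbabilityMeasure μ]

lemma integral_sum_eval {e : α → ℝ} (he : Integrable e μ) (m : ℕ) :
    Integrable (fun w : Fin m → α => ∑ k, e (w k)) (Measure.pi fun _ => μ) ∧
    ∫ w : Fin m → α, ∑ k, e (w k) ∂Measure.pi (fun _ => μ) = m * ∫ a, e a ∂μ := by
  have hi : ∀ k : Fin m, Integrable (fun w : Fin m → α => e (w k)) (Measure.pi fun _ => μ) :=
    fun k => integrable_comp_eval he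
  refine ⟨integrable_finsetSum _ fun k _ => hi k, ?_⟩
  rw [integral_finsetSum _ fun k _ => hi k]
  rw [sum_congr rfl fun k _ => integral_comp_eval (μ := fun _ : Fin m => μ) (i := k) he.1]
  simp

lemma integral_sum_sq {e : α → ℝ} (hm : Measurable e) {C : ℝ} (hb : ∀ a, |e a| ≤ C) (m : ℕ) :
    ∫ w : Fin m → α, (∑ k, e (w k) - m * ∫ a, e a ∂μ) ^ 2 ∂Measure.pi (fun _ => μ) ≤ m * C ^ 2 := by
  have h2 : MemLp e 2 μ := MemLp.of_bound hm.aestronglyMeasurable C (Filter.Eventually.of_forall fun a => by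
    simpa [Real.norm_eq_abs] using hb a)
  have h := variance_sum_pi (μ := fun _ : Fin m => μ) (X := fun _ => e) (fun _ => h2)
  rw [variance_eq_integral (by fun_prop)] at h
  simp only [Finset.sum_apply] at h
  rw [(integral_sum_eval μ (h2.integrable one_le_two) m).2] at h
  rw [h, sum_const, card_univ, Fintype.card_fin, nsmul_eq_mul]
  refine mul_le_mul_of_nonneg_left ?_ (Nat.cast_nonneg _)
  refine (variance_le_expectation_sq hm.aestronglyMeasurable).trans ?_
  have hi : Integrable (fun a => e a ^ 2) μ := h2.integrable_sq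
  refine (integral_mono hi (integrable_const (C ^ 2)) fun a => ?_).trans (by simp)
  rw [← sq_abs]; exact pow_le_pow_left₀ (abs_nonneg _) (hb a) 2

end iid

/-! ### uniform variables -/

instance : IsProbabilityMeasure unif01 := ⟨by simp [unif01]⟩

instance (n K : ℕ) : IsProbabilityMeasure (msgLaw n K) := by unfold msgLaw; infer_instance

instance (ν η : Measure (ℝ × ℝ)) [IsProbabilityMeasure ν] [IsProbabilityMeasure η] (K : ℕ) :
    IsProbabilityMeasure (clauseLaw ν η K) := by unfold clauseLaw; infer_instance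

lemma integral_msg_prod (F : Fin n → (Fin K → ℝ) → ℝ) :
    ∫ ω, ∏ k, F k (ω k) ∂msgLaw n K = ∏ k, ∫ y, F k y ∂Measure.pi (fun _ => unif01) := by
  unfold msgLaw
  exact integral_fintype_prod_eq_prod F

/-- hypotheses on the disorder -/
structure Disorder (ν η : Measure (ℝ × ℝ)) (ρ : Measure ℝ) : Prop where
  pν : IsProbabilityMeasure ν
  pη : IsProbabilityMeasure η
  pρ : IsProbabilityMeasure ρ
  hab : ∀ᵐ c ∂ν, 0 < c.1 ∧ |c.2| < 1
  hf : ∀ᵐ p ∂η, |p.1| ≤ 1 ∧ |p.2| ≤ 1
  hh : Integrable id ρ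
  hla : Integrable (fun c => log c.1) ν
  hlb : Integrable lam0 ν

variable {ν η : Measure (ℝ × ℝ)} {ρ : Measure ℝ}

lemma Disorder.valid (d : Disorder ν η ρ) : ∀ᵐ c ∂clauseLaw ν η K, Valid c := by
  have := d.pν; have := d.pη
  have h1 : ∀ᵐ c ∂clauseLaw ν η K, 0 < c.1.1 ∧ |c.1.2| < 1 :=
    Measure.quasiMeasurePreserving_fst.ae d.hab
  have h2 : ∀ᵐ c ∂clauseLaw ν η K, ∀ j, |(c.2 j).1| ≤ 1 ∧ |(c.2 j).2| ≤ 1 :=
    Measure.quasiMeasurePreserving_snd.ae (ae_all_iff.2 fun j =>
      (Measure.tendsto_eval_ae_ae (μ := fun _ : Fin K => η) (i := j)).eventually d.hf)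
  filter_upwards [h1, h2] with c a b using ⟨a.1, a.2, b⟩

lemma Disorder.valid_pi (d : Disorder ν η ρ) (n : ℕ) :
    ∀ᵐ w ∂Measure.pi (fun _ : Fin n => clauseLaw ν η K), ∀ k, Valid (w k) := by
  have := d.pν; have := d.pη
  exact ae_all_iff.2 fun k =>
    (Measure.tendsto_eval_ae_ae (μ := fun _ : Fin n => clauseLaw ν η K) (i := k)).eventually d.valid

lemma Disorder.base (d : Disorder ν η ρ) {e : ℝ × ℝ → ℝ} (he : Integrable e ν) :
    Integrable (fun c : Clause K => e c.1) (clauseLaw ν η K) ∧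
      ∫ c, e c.1 ∂clauseLaw ν η K = ∫ c, e c ∂ν := by
  have := d.pν; have := d.pη
  refine ⟨he.comp_fst _, ?_⟩
  unfold clauseLaw
  rw [integral_fun_fst (fun c => e c)]; simp

lemma Disorder.slots (d : Disorder ν η ρ) (e : ℝ × ℝ → ℝ) :
    ∫ c : Clause K, ∏ j, e (c.2 j) ∂clauseLaw ν η K = (∫ p, e p ∂η) ^ K := by
  have := d.pν; have := d.pη
  unfold clauseLaw
  rw [integral_fun_snd (fun f : Fin K → ℝ × ℝ => ∏ j, e (f j))]
  simp [integral_fintype_prod_eq_pow]

lemma Disorder.mixed (d : Disorder ν η ρ) (u : ℝ × ℝ → ℝ) (e : Fin K → ℝ × ℝ → ℝ) :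
    ∫ c : Clause K, u c.1 * ∏ j, e j (c.2 j) ∂clauseLaw ν η K = (∫ c, u c ∂ν) * ∏ j, ∫ p, e j p ∂η := by
  have := d.pν; have := d.pη
  unfold clauseLaw
  rw [integral_prod_mul u (fun f : Fin K → ℝ × ℝ => ∏ j, e j (f j)), integral_fintype_prod_eq_prod]

end Vale.Agent.P168
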