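import Mathlib

open Real Finset

namespace Vale.Agent.P168

/-- uniform average over a finite type -/
noncomputable def av {α : Type*} [Fintype α] (f : α → ℝ) : ℝ := (∑ a, f a) / Fintype.card α

section av
variable {α : Type*} [Fintype α]

lemma av_add (f g : α → ℝ) : av (fun a => f a + g a) = av f + av g := by
  simp [av, sum_add_distrib, add_div]

lemma av_const_mul (c : ℝ) (f : α → ℝ) : av (fun a => c * f a) = c * av f := by
  simp only [av, ← mul_sum]; ring

lemma av_mul_const (c : ℝ) (f : α → ℝ) : av (fun a => f a * c) = av f * c := by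
  simp [av, sum_mul, mul_div_assoc, div_mul_eq_mul_div]

lemma av_mono {f g : α → ℝ} (h : ∀ a, f a ≤ g a) : av f ≤ av g :=
  div_le_div_of_nonneg_right (sum_le_sum fun a _ => h a) (Nat.cast_nonneg _)

lemma av_nonneg {f : α → ℝ} (h : ∀ a, 0 ≤ f a) : 0 ≤ av f :=
  div_nonneg (sum_nonneg fun a _ => h a) (Nat.cast_nonneg _)

lemma av_const [Nonempty α] (c : ℝ) : av (fun _ : α => c) = c := by
  simp [av]

lemma av_sum {ι : Type*} (s : Finset ι) (f : ι → α → ℝ) :
    av (fun a => ∑ x ∈ s, f x a) = ∑ x ∈ s, av (f x) := by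
  simp only [av]
  rw [sum_comm, Finset.sum_div]

lemma abs_av_le [Nonempty α] {f : α → ℝ} {C : ℝ} (h : ∀ a, |f a| ≤ C) : |av f| ≤ C := by
  rw [abs_le]
  refine ⟨?_, ?_⟩
  · simpa [av_const] using av_mono (f := fun _ => -C) fun a => (abs_le.1 (h a)).1
  · simpa [av_const] using av_mono (g := fun _ => C) fun a => (abs_le.1 (h a)).2

lemma av_pi {m : ℕ} (F : Fin m → α → ℝ) :
    av (fun i : Fin m → α => ∏ k, F k (i k)) = ∏ k, av (F k) := by
  classical
  simp only [av, Finset.prod_div_distrib, Finset.prod_const, Fintype.prod_sum, Fintype.card_fun,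
    Fintype.card_fin, Finset.card_univ, Nat.cast_pow]

end av

/-- the spin value -/
def sg (s : Bool) : ℝ := if s then 1 else -1

@[simp] lemma abs_sg (s : Bool) : |sg s| = 1 := by cases s <;> simp [sg]

lemma sg_beq (a b : Bool) : sg (a == b) = sg a * sg b := by cases a <;> cases b <;> simp [sg]

lemma sum_sg (c : ℝ) : ∑ s : Bool, exp (c * sg s) = 2 * cosh c := by
  simp [sg, Real.cosh_eq]; ring

lemma exp_mul_pm {P : ℝ} (hP : P = 1 ∨ P = -1) (x : ℝ) : exp (x * P) = cosh x + P * sinh x := by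
  rcases hP with rfl | rfl <;> simp [Real.cosh_eq, Real.sinh_eq] <;> ring

variable {N K M : ℕ}

/-- parity of the active slots -/
def par (S : Fin K → Bool) (σ : Fin N → Bool) (i : Fin K → Fin N) : ℝ :=
  ∏ j, if S j then sg (σ (i j)) else 1

lemma par_pm (S : Fin K → Bool) (σ : Fin N → Bool) (i : Fin K → Fin N) :
    par S σ i = 1 ∨ par S σ i = -1 := by
  refine (abs_eq (zero_le_one (α := ℝ))).1 ?_
  rw [par, Finset.abs_prod]
  refine Finset.prod_eq_one fun j _ => ?_
  split <;> simp

lemma par_mul (S : Fin K → Bool) (σ τ : Fin N → Bool) (i : Fin K → Fin N) :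
    par S σ i * par S τ i = par S (fun x => σ x == τ x) i := by
  rw [par, par, par, ← Finset.prod_mul_distrib]
  refine Finset.prod_congr rfl fun j _ => ?_
  split <;> simp [sg_beq]

/-- magnetisation -/
noncomputable def mag (σ : Fin N → Bool) : ℝ := av fun x => sg (σ x)

lemma av_par [NeZero N] (S : Fin K → Bool) (σ : Fin N → Bool) :
    av (fun i => par S σ i) = ∏ j, if S j then mag σ else 1 := by
  unfold par
  rw [av_pi (fun j x => if S j then sg (σ x) else 1)]
  refine Finset.prod_congr rfl fun j _ => ?_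
  split
  · rfl
  · exact av_const 1

/-- how much the parity can be biased away from the corners -/
def slack (ε : ℝ) (S : Fin K → Bool) : ℝ := ∏ j, if S j then 1 - ε else 1

lemma slack_nonneg {ε : ℝ} (hε : ε ≤ 1) (S : Fin K → Bool) : 0 ≤ slack ε S :=
  Finset.prod_nonneg fun j _ => by split <;> linarith

lemma slack_le_one {ε : ℝ} (hε0 : 0 ≤ ε) (hε : ε ≤ 1) (S : Fin K → Bool) : slack ε S ≤ 1 :=
  Finset.prod_le_one (fun j _ => by split <;> linarith) fun j _ => by split <;> linarith

lemma abs_av_par [NeZero N] {ε : ℝ} (S : Fin K → Bool) (σ : Fin N → Bool) (h : |mag σ| ≤ 1 - ε) :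
    |av (fun i => par S σ i)| ≤ slack ε S := by
  rw [av_par, Finset.abs_prod]
  refine Finset.prod_le_prod (fun j _ => abs_nonneg _) fun j _ => ?_
  split
  · exact h
  · simp

lemma card_corner_le [NeZero N] {ε : ℝ} (hε : 0 < ε) :
    (((univ : Finset (Fin N → Bool)).filter fun σ => 1 - ε < |mag σ|).card : ℝ) ≤
      2 * exp (N * (2 * √ε)) := by
  set l := (√ε)⁻¹
  have hs : 0 < √ε := sqrt_pos.2 hε
  have hl : 0 < l := inv_pos.2 hs
  have hN : (0:ℝ) < N := by exact_mod_cast NeZero.pos N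
  have hm : ∀ σ : Fin N → Bool, mag σ * N = ∑ x, sg (σ x) := fun σ => by
    simp only [mag, av, Fintype.card_fin]; field_simp
  have key : ∀ σ : Fin N → Bool, (if 1 - ε < |mag σ| then (1:ℝ) else 0) ≤
      exp (-(l * ((1 - ε) * N))) * (∏ x, exp (l * sg (σ x)) + ∏ x, exp (-l * sg (σ x))) := by
    intro σ
    split_ifs with h
    swap
    · positivity
    rw [← Real.exp_sum, ← Real.exp_sum, ← Finset.mul_sum, ← Finset.mul_sum, ← hm σ]
    have h2 : exp (l * (|mag σ| * N)) ≤ exp (l * (mag σ * N)) + exp (-l * (mag σ * N)) := by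
      rcases abs_choice (mag σ) with e | e <;> rw [e]
      · linarith [exp_pos (-l * (mag σ * N))]
      · rw [show l * (-mag σ * N) = -l * (mag σ * N) by ring]; linarith [exp_pos (l * (mag σ * N))]
    refine le_trans ?_ (mul_le_mul_of_nonneg_left h2 (exp_pos _).le)
    rw [← exp_add]
    refine one_le_exp ?_
    have := mul_le_mul_of_nonneg_left (mul_le_mul_of_nonneg_right h.le hN.le) hl.le
    linarith
  have hsum : ∀ c : ℝ, ∑ σ : Fin N → Bool, ∏ x, exp (c * sg (σ x)) = (2 * cosh c) ^ N := fun c => by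
    rw [← Fintype.prod_sum (fun _ s => exp (c * sg s))]; simp only [sum_sg, prod_const, card_univ, Fintype.card_fin]
  calc _ = ∑ σ : Fin N → Bool, (if 1 - ε < |mag σ| then (1:ℝ) else 0) := by simp [Finset.sum_boole]
    _ ≤ ∑ σ : Fin N → Bool, exp (-(l * ((1 - ε) * N))) * (∏ x, exp (l * sg (σ x)) + ∏ x, exp (-l * sg (σ x))) :=
        sum_le_sum fun σ _ => key σ
    _ = exp (-(l * ((1 - ε) * N))) * (2 * (2 * cosh l) ^ N) := by
        rw [← mul_sum, sum_add_distrib, hsum, hsum, cosh_neg]; ring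
    _ ≤ _ := by
        have e : exp (-(l * ((1 - ε) * N))) = exp (-(l * (1 - ε))) ^ N := by rw [← exp_nat_mul]; ring_nf
        rw [e, mul_left_comm, ← mul_pow, exp_nat_mul]
        refine mul_le_mul_of_nonneg_left (pow_le_pow_left₀ (by positivity) ?_ N) (by norm_num)
        have h1 : exp (-(l * (1 - ε))) * (2 * cosh l) = exp (l * ε) * (1 + exp (-(2 * l))) := by
          rw [Real.cosh_eq, mul_add, mul_one, ← exp_add]
          have : exp (-(l * (1 - ε))) * (2 * ((exp l + exp (-l)) / 2)) =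
              exp (-(l * (1 - ε))) * exp l + exp (-(l * (1 - ε))) * exp (-l) := by ring
          rw [this, ← exp_add, ← exp_add]; ring_nf
        rw [h1]
        have h2 : 1 + exp (-(2 * l)) ≤ exp (√ε) := by
          have h3 : exp (-(2 * l)) ≤ √ε := by
            rw [exp_neg]
            refine inv_le_of_inv_le₀ hs ?_
            have := add_one_le_exp (2 * l)
            show l ≤ _
            linarith
          linarith [add_one_le_exp (√ε)]
        refine (mul_le_mul_of_nonneg_left h2 (exp_pos _).le).trans (le_of_eq ?_)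
        rw [← exp_add]; congr 1
        simp only [l]; field_simp; rw [sq_sqrt hε.le]; ring

/-- field part -/
def fieldSum (h : Fin N → ℝ) (σ : Fin N → Bool) : ℝ := ∑ x, h x * sg (σ x)

lemma sum_exp_field (h : Fin N → ℝ) :
    ∑ σ : Fin N → Bool, exp (fieldSum h σ) = ∏ x, (2 * cosh (h x)) := by
  simp only [fieldSum, exp_sum]
  rw [← Fintype.prod_sum (fun x s => exp (h x * sg s))]
  simp only [sum_sg]

/-- the configurations away from the two corners -/
noncomputable def mid (ε : ℝ) : Finset (Fin N → Bool) := univ.filter fun σ => |mag σ| ≤ 1 - ε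

lemma log_two_cosh_sub_ge {x L : ℝ} (hx : |x| ≤ L) :
    log (1 + exp (-2 * L)) ≤ log (2 * cosh x) - |x| := by
  have e : 2 * cosh x = exp |x| * (1 + exp (-2 * |x|)) := by
    rw [← cosh_abs, Real.cosh_eq, mul_add, mul_one, ← exp_add]; ring_nf
  rw [e, log_mul (exp_pos _).ne' (by positivity), log_exp, add_sub_cancel_left]
  exact log_le_log (by positivity) (by gcongr 1 + ?_; exact exp_le_exp.2 (by linarith))

lemma corner_field_le [NeZero N] {ε : ℝ} (hε : 0 < ε) {L : ℝ} {h : Fin N → ℝ} (hh : ∀ x, |h x| ≤ L) :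
    ∑ σ ∈ (univ : Finset (Fin N → Bool)) \ mid ε, exp (fieldSum h σ) ≤
      (∏ x, (2 * cosh (h x))) * (2 * exp (N * (2 * √ε) - N * log (1 + exp (-2 * L)))) := by
  have hset : (univ : Finset (Fin N → Bool)) \ mid ε = univ.filter fun σ => 1 - ε < |mag σ| := by
    ext σ; simp [mid]
  rw [hset]
  have hb : ∀ σ : Fin N → Bool, exp (fieldSum h σ) ≤
      (∏ x, (2 * cosh (h x))) * exp (-(N * log (1 + exp (-2 * L)))) := by
    intro σ
    have e : ∏ x, (2 * cosh (h x)) = exp (∑ x, log (2 * cosh (h x))) := by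
      rw [exp_sum]; exact prod_congr rfl fun x _ => (exp_log (by positivity)).symm
    rw [e, ← exp_add]
    refine exp_le_exp.2 ?_
    have h1 : fieldSum h σ ≤ ∑ x, |h x| := by
      refine sum_le_sum fun x _ => (le_abs_self _).trans ?_
      rw [abs_mul, abs_sg, mul_one]
    have h2 := sum_le_sum (s := univ) fun x (_ : x ∈ univ) => log_two_cosh_sub_ge (hh x)
    simp only [sum_const, card_univ, Fintype.card_fin, nsmul_eq_mul, sum_sub_distrib] at h2
    linarith
  refine (sum_le_sum fun σ _ => hb σ).trans ?_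
  rw [sum_const, nsmul_eq_mul]
  refine (mul_le_mul_of_nonneg_right (card_corner_le hε) (by positivity)).trans (le_of_eq ?_)
  rw [sub_eq_add_neg, exp_add]; ring

/-- Hamiltonian with parity interactions -/
def ham (g : Fin M → ℝ) (S : Fin M → Fin K → Bool) (h : Fin N → ℝ) (σ : Fin N → Bool)
    (i : Fin M → Fin K → Fin N) : ℝ :=
  ∑ k, g k * par (S k) σ (i k) + fieldSum h σ

/-- annealed value at parameter `t` -/
noncomputable def ann (g : Fin M → ℝ) (h : Fin N → ℝ) (t : ℝ) : ℝ :=
  ∑ k, log (cosh (t * g k)) + ∑ x, log (2 * cosh (t * h x))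

/-- energy at parameter `t` -/
noncomputable def ener (g : Fin M → ℝ) (h : Fin N → ℝ) (t : ℝ) : ℝ :=
  ∑ k, g k * tanh (t * g k) + ∑ x, h x * tanh (t * h x)

lemma exp_ann (g : Fin M → ℝ) (h : Fin N → ℝ) (t : ℝ) :
    exp (ann g h t) = (∏ k, cosh (t * g k)) * ∏ x, (2 * cosh (t * h x)) := by
  rw [ann, exp_add, exp_sum, exp_sum]
  congr 1 <;> exact prod_congr rfl fun x _ => exp_log (by positivity)

lemma log_cosh_add_le (x : ℝ) {y : ℝ} (hy : |y| ≤ 1) :
    log (cosh (x + y)) ≤ log (cosh x) + y * tanh x + y ^ 2 := by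
  have e : cosh (x + y) = cosh x * (cosh y + tanh x * sinh y) := by
    rw [cosh_add, tanh_eq_sinh_div_cosh]; field_simp
  have hpos : 0 < cosh y + tanh x * sinh y := by
    have := cosh_pos (x + y); rw [e] at this; exact (mul_pos_iff_of_pos_left (cosh_pos x)).1 this
  have hle : cosh y + tanh x * sinh y ≤ exp (y * tanh x + y ^ 2) := by
    refine le_trans ?_ (add_one_le_exp _)
    have h1 := (abs_le.1 (abs_exp_sub_one_sub_id_le hy)).2
    have h2 := (abs_le.1 (abs_exp_sub_one_sub_id_le (x := -y) (by rwa [abs_neg]))).2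
    rw [neg_sq] at h2
    rw [Real.cosh_eq, Real.sinh_eq]
    have a1 := mul_le_mul_of_nonneg_left h1 (show 0 ≤ 1 + tanh x by linarith [neg_one_lt_tanh x])
    have a2 := mul_le_mul_of_nonneg_left h2 (show 0 ≤ 1 - tanh x by linarith [tanh_lt_one x])
    linarith
  rw [e, log_mul (cosh_pos x).ne' hpos.ne', add_assoc]
  exact add_le_add le_rfl ((log_le_iff_le_exp hpos).2 hle)

lemma ann_shift_le {g : Fin M → ℝ} {h : Fin N → ℝ} {L t r : ℝ} (hg : ∀ k, |g k| ≤ L)
    (hh : ∀ x, |h x| ≤ L) (hr : |r| * L ≤ 1) :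
    ann g h (t + r) ≤ ann g h t + r * ener g h t + r ^ 2 * L ^ 2 * (M + N) := by
  have key : ∀ x : ℝ, |x| ≤ L → log (cosh ((t + r) * x)) ≤
      log (cosh (t * x)) + r * (x * tanh (t * x)) + r ^ 2 * L ^ 2 := by
    intro x hx
    rw [add_mul]
    refine (log_cosh_add_le (t * x) (y := r * x) ?_).trans ?_
    · rw [abs_mul]; exact (mul_le_mul_of_nonneg_left hx (abs_nonneg r)).trans hr
    · have : x ^ 2 ≤ L ^ 2 := by rw [← sq_abs]; exact pow_le_pow_left₀ (abs_nonneg x) hx 2
      rw [mul_pow]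
      nlinarith [mul_le_mul_of_nonneg_left this (sq_nonneg r)]
  have hl : ∀ x : ℝ, log (2 * cosh x) = log 2 + log (cosh x) := fun x =>
    log_mul two_ne_zero (cosh_pos x).ne'
  have h1 := sum_le_sum (s := univ) fun k (_ : k ∈ univ) => key (g k) (hg k)
  have h2 := sum_le_sum (s := univ) fun x (_ : x ∈ univ) => key (h x) (hh x)
  simp only [sum_add_distrib, sum_const, card_univ, Fintype.card_fin, nsmul_eq_mul, ← mul_sum] at h1 h2
  simp only [ann, ener, hl, sum_add_distrib]
  linarith

variable [NeZero N]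

lemma av_exp_ham (g : Fin M → ℝ) (S : Fin M → Fin K → Bool) (h : Fin N → ℝ) (σ : Fin N → Bool) (t : ℝ) :
    av (fun i => exp (t * ham g S h σ i)) =
      (∏ k, av fun i => exp (t * g k * par (S k) σ i)) * exp (fieldSum (fun x => t * h x) σ) := by
  have e : ∀ i, exp (t * ham g S h σ i) =
      (∏ k, exp (t * g k * par (S k) σ (i k))) * exp (fieldSum (fun x => t * h x) σ) := fun i => by
    simp only [ham, fieldSum, mul_add, mul_sum, exp_add, exp_sum, mul_assoc]
  simp only [e]
  rw [av_mul_const, av_pi (fun k i => exp (t * g k * par (S k) σ i))]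

lemma av_exp_par (S : Fin K → Bool) (σ : Fin N → Bool) (x : ℝ) :
    av (fun i => exp (x * par S σ i)) = cosh x * (1 + tanh x * av fun i => par S σ i) := by
  simp only [exp_mul_pm (par_pm S σ _)]
  rw [av_add, av_const, av_mul_const, tanh_eq_sinh_div_cosh]
  field_simp

lemma av_exp_par_le {ε : ℝ} (hε0 : 0 ≤ ε) (hε : ε ≤ 1) (S : Fin K → Bool) {σ : Fin N → Bool}
    (hσ : |mag σ| ≤ 1 - ε) (x : ℝ) :
    av (fun i => exp (x * par S σ i)) ≤ cosh x * exp (slack ε S) := by
  rw [av_exp_par]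
  refine mul_le_mul_of_nonneg_left ?_ (cosh_pos x).le
  have h1 : tanh x * av (fun i => par S σ i) ≤ slack ε S := by
    refine (le_abs_self _).trans ?_
    rw [abs_mul]
    exact (mul_le_of_le_one_left (abs_nonneg _) (abs_tanh_lt_one x).le).trans (abs_av_par S σ hσ)
  linarith [add_one_le_exp (slack ε S)]

lemma le_av_exp_par {ε L : ℝ} (hε0 : 0 ≤ ε) (hε : ε ≤ 1) (S : Fin K → Bool) {σ : Fin N → Bool}
    (hσ : |mag σ| ≤ 1 - ε) {x : ℝ} (hx : |x| ≤ L) :
    cosh x * exp (-(exp (2 * L) * slack ε S)) ≤ av (fun i => exp (x * par S σ i)) := by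
  rw [av_exp_par]
  refine mul_le_mul_of_nonneg_left ?_ (cosh_pos x).le
  set c := exp (2 * L)
  set η := slack ε S
  have hη0 : 0 ≤ η := slack_nonneg hε S
  have hη1 : η ≤ 1 := slack_le_one hε0 hε S
  have hL : 0 ≤ L := (abs_nonneg x).trans hx
  have hc : 1 ≤ c := one_le_exp (by linarith)
  have hT : |tanh x| ≤ 1 - 1 / c := by
    have e : |tanh x| = (exp (2 * |x|) - 1) / (exp (2 * |x|) + 1) := by
      have h1 : |tanh x| = tanh |x| := by
        rcases abs_choice x with h | h
        · rw [h, abs_of_nonneg]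
          rw [tanh_eq_sinh_div_cosh]
          exact div_nonneg (sinh_nonneg_iff.2 (by linarith [abs_nonneg x])) (cosh_pos x).le
        · rw [h, tanh_neg, abs_of_nonpos]
          rw [tanh_eq_sinh_div_cosh]
          exact div_nonpos_of_nonpos_of_nonneg (sinh_nonpos_iff.2 (by linarith [abs_nonneg x])) (cosh_pos x).le
      rw [h1, tanh_eq_sinh_div_cosh, sinh_eq, cosh_eq, exp_neg,
        show exp (2 * |x|) = exp |x| * exp |x| by rw [← exp_add]; ring_nf]
      field_simp
    rw [e]
    have h2 : exp (2 * |x|) ≤ c := exp_le_exp.2 (by linarith)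
    have hu : 0 < exp (2 * |x|) + 1 := by positivity
    rw [div_le_iff₀ hu, show (1 - 1 / c) * (exp (2 * |x|) + 1) =
      exp (2 * |x|) + 1 - (exp (2 * |x|) + 1) / c by ring]
    have h3 : (exp (2 * |x|) + 1) / c ≤ 2 := by
      rw [div_le_iff₀ (by linarith)]; linarith
    linarith
  set y := |tanh x| * η
  have hy : y ≤ 1 - 1 / c := (mul_le_of_le_one_right (abs_nonneg _) hη1).trans hT
  have h1 : 1 - y ≤ 1 + tanh x * av (fun i => par S σ i) := by
    have := neg_abs_le (tanh x * av (fun i => par S σ i))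
    rw [abs_mul] at this
    linarith [mul_le_mul_of_nonneg_left (abs_av_par S σ hσ) (abs_nonneg (tanh x))]
  refine le_trans ?_ h1
  have hy1 : 0 < 1 - y := by have := one_div_pos.2 (show 0 < c by linarith); linarith
  have h4 : y / (1 - y) ≤ c * η := by
    rw [div_le_iff₀ hy1]
    have h5 : 1 ≤ c * (1 - y) := by
      have := mul_le_mul_of_nonneg_left (show 1 / c ≤ 1 - y by linarith) (show 0 ≤ c by linarith)
      rwa [mul_one_div_cancel (by linarith)] at this
    calc y ≤ η * 1 := by rw [mul_one]; exact mul_le_of_le_one_left hη0 (abs_tanh_lt_one x).le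
      _ ≤ η * (c * (1 - y)) := mul_le_mul_of_nonneg_left h5 hη0
      _ = _ := by ring
  calc exp (-(c * η)) ≤ exp (-(y / (1 - y))) := exp_le_exp.2 (neg_le_neg h4)
    _ ≤ 1 - y := by
      rw [exp_neg]
      refine inv_le_of_inv_le₀ hy1 ?_
      refine le_trans (le_of_eq ?_) (add_one_le_exp _)
      field_simp
      ring

lemma av_exp_pair_le {ε : ℝ} (hε : ε ≤ 1) (S : Fin K → Bool) {σ τ : Fin N → Bool}
    (hσ : |mag σ| ≤ 1 - ε) (hτ : |mag τ| ≤ 1 - ε) (hστ : |mag (fun x => σ x == τ x)| ≤ 1 - ε) (x : ℝ) :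
    av (fun i => exp (x * par S σ i) * exp (x * par S τ i)) ≤ cosh x ^ 2 * exp (3 * slack ε S) := by
  have e : ∀ i, exp (x * par S σ i) * exp (x * par S τ i) =
      cosh x ^ 2 * (1 + (tanh x * par S σ i + (tanh x * par S τ i +
        tanh x ^ 2 * par S (fun z => σ z == τ z) i))) := fun i => by
    rw [exp_mul_pm (par_pm S σ i), exp_mul_pm (par_pm S τ i), ← par_mul, tanh_eq_sinh_div_cosh]
    field_simp; ring
  simp only [e]
  rw [av_const_mul, av_add, av_add, av_add, av_const, av_const_mul, av_const_mul, av_const_mul]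
  refine mul_le_mul_of_nonneg_left ?_ (sq_nonneg _)
  have hη : 0 ≤ slack ε S := slack_nonneg hε S
  have hT := (abs_tanh_lt_one x).le
  have hT2 : tanh x ^ 2 ≤ 1 := (sq_le_one_iff_abs_le_one _).2 hT
  have b : ∀ c : ℝ, |c| ≤ 1 → ∀ ρ : Fin N → Bool, |mag ρ| ≤ 1 - ε →
      c * av (fun i => par S ρ i) ≤ slack ε S := fun c hc ρ hρ => by
    refine (le_abs_self _).trans ?_
    rw [abs_mul]
    exact (mul_le_of_le_one_left (abs_nonneg _) hc).trans (abs_av_par S ρ hρ)
  linarith [b _ hT σ hσ, b _ hT τ hτ, b (tanh x ^ 2) (by rwa [abs_of_nonneg (sq_nonneg _)]) _ hστ,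
    add_one_le_exp (3 * slack ε S)]

/-- parameters and numerical conditions of the windowed second moment -/
structure Window (g : Fin M → ℝ) (S : Fin M → Fin K → Bool) (h : Fin N → ℝ) (t ε L D : ℝ) : Prop where
  hg : ∀ k, |g k| ≤ L
  hh : ∀ x, |h x| ≤ L
  ht0 : 0 ≤ t
  ht1 : t ≤ 1
  hε0 : 0 < ε
  hε1 : ε ≤ 1
  hD : 0 ≤ D
  corner : exp (2 * L) * ∑ k, slack ε (S k) + 3 ≤ N * log (1 + exp (-2 * L)) - N * (2 * √ε)
  window : ∃ r, 0 < r ∧ r * L ≤ 1 ∧
    2 * (exp (2 * L) * ∑ k, slack ε (S k)) + r ^ 2 * L ^ 2 * (M + N) + 3 ≤ r * D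
  entropy : N * (2 * √ε) + t * (ener g h t + D) ≤ ann g h t

lemma weight_bound {ι : Type*} [Fintype ι] [Nonempty ι] {W : ι → ℝ} {m₁ m₂ : ℝ} (hW : ∀ i, 0 ≤ W i)
    (hm : 0 < m₁) (h1 : m₁ ≤ av W) (h2 : av (fun i => W i ^ 2) ≤ m₂) :
    m₁ ^ 2 / (4 * m₂) ≤ av fun i => if m₁ / 2 ≤ W i then (1:ℝ) else 0 := by
  set X := av fun i => if m₁ / 2 ≤ W i then (1:ℝ) else 0
  have hcs : ∀ c : ℝ, 0 < c → av W ≤ m₁ / 2 + (c * m₂ + X / c) / 2 := by
    intro c hc
    have hp : ∀ i, W i ≤ m₁ / 2 + (c / 2 * W i ^ 2 + 1 / (2 * c) * if m₁ / 2 ≤ W i then (1:ℝ) else 0) := by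
      intro i
      split_ifs with h
      · have e : c / 2 * W i ^ 2 + 1 / (2 * c) * 1 = W i + (c * W i - 1) ^ 2 / (2 * c) := by
          field_simp; ring
        rw [e]
        have : 0 ≤ (c * W i - 1) ^ 2 / (2 * c) := by positivity
        linarith
      · have : 0 ≤ c / 2 * W i ^ 2 := by positivity
        linarith
    refine (av_mono hp).trans ?_
    rw [av_add, av_add, av_const, av_const_mul, av_const_mul]
    have := mul_le_mul_of_nonneg_left h2 (show 0 ≤ c / 2 by positivity)
    have e : 1 / (2 * c) * X = X / c / 2 := by ring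
    linarith
  have hm2 : 0 < m₂ := by
    rcases lt_or_ge 0 m₂ with h | h
    · exact h
    · exfalso
      have h0 : av (fun i => W i ^ 2) = 0 := le_antisymm (h2.trans h) (av_nonneg fun i => sq_nonneg _)
      simp only [av, div_eq_zero_iff, Nat.cast_eq_zero, Fintype.card_ne_zero, or_false] at h0
      have hz : ∀ i, W i = 0 := fun i =>
        pow_eq_zero_iff two_ne_zero |>.1 ((sum_eq_zero_iff_of_nonneg fun i _ => sq_nonneg _).1 h0 i (mem_univ i))
      simp [av, hz] at h1
      linarith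
  have := (h1.trans (hcs (m₁ / (2 * m₂)) (by positivity)))
  have e : m₁ / (2 * m₂) * m₂ = m₁ / 2 := by field_simp
  have e2 : X / (m₁ / (2 * m₂)) = X * (2 * m₂) / m₁ := by field_simp
  rw [e, e2] at this
  rw [div_le_iff₀ (by positivity)]
  have h3 : m₁ / 2 ≤ X * (2 * m₂) / m₁ := by linarith
  rw [le_div_iff₀ hm] at h3
  linarith

/-- the windowed weight -/
noncomputable def win (g : Fin M → ℝ) (S : Fin M → Fin K → Bool) (h : Fin N → ℝ) (t ε D : ℝ)
    (i : Fin M → Fin K → Fin N) : ℝ :=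
  ∑ σ ∈ mid ε, if |ham g S h σ i - ener g h t| ≤ D then exp (t * ham g S h σ i) else 0

variable {g : Fin M → ℝ} {S : Fin M → Fin K → Bool} {h : Fin N → ℝ} {t ε L D : ℝ}

lemma av_mid_le (hε0 : 0 ≤ ε) (hε : ε ≤ 1) (τ : ℝ) :
    ∑ σ ∈ mid ε, av (fun i => exp (τ * ham g S h σ i)) ≤ exp (ann g h τ + ∑ k, slack ε (S k)) := by
  have hb : ∀ σ ∈ mid (N := N) ε, av (fun i => exp (τ * ham g S h σ i)) ≤
      (∏ k, cosh (τ * g k)) * exp (∑ k, slack ε (S k)) * exp (fieldSum (fun x => τ * h x) σ) := by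
    intro σ hσ
    rw [av_exp_ham, exp_sum, ← prod_mul_distrib]
    refine mul_le_mul_of_nonneg_right (prod_le_prod (fun k _ => av_nonneg fun i => (exp_pos _).le)
      fun k _ => ?_) (exp_pos _).le
    exact av_exp_par_le hε0 hε (S k) (mem_filter.1 hσ).2 _
  refine (sum_le_sum hb).trans ?_
  rw [← mul_sum]
  refine (mul_le_mul_of_nonneg_left (sum_le_sum_of_subset_of_nonneg (subset_univ _)
    fun σ _ _ => (exp_pos _).le) (by positivity)).trans (le_of_eq ?_)
  rw [sum_exp_field, exp_add, exp_ann]; ring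

lemma win_first (w : Window g S h t ε L D) :
    exp (ann g h t - exp (2 * L) * ∑ k, slack ε (S k)) / 2 ≤ av (win g S h t ε D) := by
  obtain ⟨r, hr, hrL, hwin⟩ := w.window
  have hL : 0 ≤ L := by
    rcases Nat.eq_zero_or_pos N with h0 | h0
    · exact absurd h0 (NeZero.ne N)
    · exact (abs_nonneg _).trans (w.hh ⟨0, h0⟩)
  set a := ann g h t
  set u := ener g h t
  set e1 := exp (2 * L) * ∑ k, slack ε (S k)
  have hη : 0 ≤ ∑ k, slack ε (S k) := sum_nonneg fun k _ => slack_nonneg w.hε1 _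
  have hce : ∑ k, slack ε (S k) ≤ e1 := le_mul_of_one_le_left hη (one_le_exp (by linarith))
  -- lower bound on the unrestricted weight
  have hlow : exp (a - e1) * (1 - 2 * exp (N * (2 * √ε) - N * log (1 + exp (-2 * L)))) ≤
      ∑ σ ∈ mid ε, av (fun i => exp (t * ham g S h σ i)) := by
    have hb : ∀ σ ∈ mid (N := N) ε, (∏ k, cosh (t * g k)) * exp (-e1) * exp (fieldSum (fun x => t * h x) σ) ≤
        av (fun i => exp (t * ham g S h σ i)) := by
      intro σ hσ
      rw [av_exp_ham]
      refine mul_le_mul_of_nonneg_right ?_ (exp_pos _).le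
      simp only [e1, mul_sum, ← sum_neg_distrib]
      rw [exp_sum, ← prod_mul_distrib]
      refine prod_le_prod (fun k _ => by positivity) fun k _ => ?_
      refine le_av_exp_par w.hε0.le w.hε1 (S k) (mem_filter.1 hσ).2 ?_
      rw [abs_mul, abs_of_nonneg w.ht0]
      exact (mul_le_of_le_one_left (abs_nonneg _) w.ht1).trans (w.hg k)
    refine le_trans ?_ (sum_le_sum hb)
    rw [← mul_sum]
    have hc := corner_field_le (N := N) w.hε0 (h := fun x => t * h x) (L := L) fun x => by
      rw [abs_mul, abs_of_nonneg w.ht0]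
      exact (mul_le_of_le_one_left (abs_nonneg _) w.ht1).trans (w.hh x)
    have hs := sum_sdiff (subset_univ (mid (N := N) ε)) (f := fun σ => exp (fieldSum (fun x => t * h x) σ))
    rw [sum_exp_field] at hs
    have e : exp (a - e1) = (∏ k, cosh (t * g k)) * exp (-e1) * ∏ x, (2 * cosh (t * h x)) := by
      rw [sub_eq_add_neg, exp_add, exp_ann]; ring
    rw [e, mul_assoc]
    refine mul_le_mul_of_nonneg_left ?_ (by positivity)
    linarith
  -- tails
  have htail : ∀ s : ℝ, |s| = 1 → ∑ σ ∈ mid ε, av (fun i => exp (t * ham g S h σ i) *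
      exp (r * (s * (ham g S h σ i - u) - D))) ≤ exp (a - e1) * exp (-3) := by
    intro s hs
    have hs2 : s ^ 2 = 1 := by rw [← sq_abs, hs]; norm_num
    have e : ∀ σ i, exp (t * ham g S h σ i) * exp (r * (s * (ham g S h σ i - u) - D)) =
        exp (-(r * s * u) - r * D) * exp ((t + r * s) * ham g S h σ i) := fun σ i => by
      rw [← exp_add, ← exp_add]; ring_nf
    simp only [e, av_const_mul, ← mul_sum]
    refine (mul_le_mul_of_nonneg_left (av_mid_le w.hε0.le w.hε1 _) (exp_pos _).le).trans ?_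
    rw [← exp_add, ← exp_add]
    refine exp_le_exp.2 ?_
    have hsh := ann_shift_le (t := t) (r := r * s) w.hg w.hh (by rw [abs_mul, hs, mul_one, abs_of_pos hr]; exact hrL)
    rw [mul_pow, hs2, mul_one] at hsh
    linarith
  have hpt : ∀ σ i, exp (t * ham g S h σ i) ≤ (if |ham g S h σ i - u| ≤ D then exp (t * ham g S h σ i) else 0) +
      (exp (t * ham g S h σ i) * exp (r * (1 * (ham g S h σ i - u) - D)) +
       exp (t * ham g S h σ i) * exp (r * (-1 * (ham g S h σ i - u) - D))) := by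
    intro σ i
    have p1 := mul_pos (exp_pos (t * ham g S h σ i)) (exp_pos (r * (1 * (ham g S h σ i - u) - D)))
    have p2 := mul_pos (exp_pos (t * ham g S h σ i)) (exp_pos (r * (-1 * (ham g S h σ i - u) - D)))
    split_ifs with hd
    · linarith
    · push Not at hd
      rcases lt_abs.1 hd with h1 | h1
      · have := le_mul_of_one_le_right (exp_pos (t * ham g S h σ i)).le
          (one_le_exp (show 0 ≤ r * (1 * (ham g S h σ i - u) - D) from mul_nonneg hr.le (by linarith)))
        linarith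
      · have := le_mul_of_one_le_right (exp_pos (t * ham g S h σ i)).le
          (one_le_exp (show 0 ≤ r * (-1 * (ham g S h σ i - u) - D) from mul_nonneg hr.le (by linarith)))
        linarith
  have hsum := sum_le_sum (s := mid (N := N) ε) fun σ _ => av_mono (hpt σ)
  simp only [av_add, sum_add_distrib] at hsum
  have hwin_eq : av (win g S h t ε D) =
      ∑ σ ∈ mid ε, av (fun i => if |ham g S h σ i - u| ≤ D then exp (t * ham g S h σ i) else 0) := by
    unfold win; exact av_sum _ _
  rw [hwin_eq]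
  have h3 : exp (-3 : ℝ) ≤ 1/8 := by
    rw [exp_neg, inv_le_comm₀ (exp_pos _) (by norm_num)]
    have := quadratic_le_exp_of_nonneg (show (0:ℝ) ≤ 3 by norm_num)
    norm_num at this ⊢; linarith
  have hc : exp (N * (2 * √ε) - N * log (1 + exp (-2 * L))) ≤ 1/8 := by
    refine le_trans (exp_le_exp.2 ?_) h3
    have := w.corner
    nlinarith [exp_pos (2 * L)]
  have := htail 1 abs_one
  have := htail (-1) (by norm_num)
  have := mul_le_mul_of_nonneg_left h3 (exp_pos (a - e1)).le
  have := mul_le_mul_of_nonneg_left hc (exp_pos (a - e1)).le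
  linarith

lemma win_second (w : Window g S h t ε L D) :
    av (fun i => win g S h t ε D i ^ 2) ≤ 3 * exp (2 * ann g h t + 3 * ∑ k, slack ε (S k)) := by
  set a := ann g h t
  set u := ener g h t
  set η := ∑ k, slack ε (S k)
  have hη0 : 0 ≤ η := sum_nonneg fun k _ => slack_nonneg w.hε1 _
  set X : (Fin N → Bool) → (Fin M → Fin K → Fin N) → ℝ := fun σ i =>
    if |ham g S h σ i - u| ≤ D then exp (t * ham g S h σ i) else 0 with hX
  have hX0 : ∀ σ i, 0 ≤ X σ i ∧ X σ i ≤ exp (t * ham g S h σ i) ∧ X σ i ≤ exp (t * (u + D)) := by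
    intro σ i; simp only [hX]
    split_ifs with hd
    · exact ⟨(exp_pos _).le, le_rfl, exp_le_exp.2 (mul_le_mul_of_nonneg_left (by linarith [(abs_le.1 hd).2]) w.ht0)⟩
    · exact ⟨le_rfl, (exp_pos _).le, (exp_pos _).le⟩
  have e : ∀ i, win g S h t ε D i ^ 2 = ∑ σ ∈ mid ε, ∑ τ ∈ mid ε, X σ i * X τ i := fun i => by
    rw [sq, win, sum_mul_sum]
  simp only [e, av_sum]
  set A := fun σ τ : Fin N → Bool => (∏ k, cosh (t * g k)) ^ 2 * exp (3 * η) *
    (exp (fieldSum (fun x => t * h x) σ) * exp (fieldSum (fun x => t * h x) τ))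
  set Near := fun σ τ : Fin N → Bool => if 1 - ε < |mag (fun x => σ x == τ x)| then (1:ℝ) else 0
  have hb : ∀ σ ∈ mid (N := N) ε, ∀ τ ∈ mid (N := N) ε, av (fun i => X σ i * X τ i) ≤
      A σ τ + Near σ τ * (exp (t * (u + D)) * av (fun i => exp (t * ham g S h σ i))) := by
    intro σ hσ τ hτ
    have hA : 0 ≤ A σ τ := by positivity
    by_cases hq : 1 - ε < |mag (fun x => σ x == τ x)|
    · simp only [Near, if_pos hq, one_mul]
      have := av_mono (f := fun i => X σ i * X τ i) (g := fun i => exp (t * (u + D)) * exp (t * ham g S h σ i))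
        fun i => (mul_le_mul (hX0 σ i).2.1 (hX0 τ i).2.2 (hX0 τ i).1 (exp_pos _).le).trans_eq (mul_comm _ _)
      rw [av_const_mul] at this
      linarith
    · simp only [Near, if_neg hq, zero_mul, add_zero]
      push Not at hq
      refine (av_mono (g := fun i => exp (t * ham g S h σ i) * exp (t * ham g S h τ i)) fun i =>
        mul_le_mul (hX0 σ i).2.1 (hX0 τ i).2.1 (hX0 τ i).1 (exp_pos _).le).trans ?_
      have e2 : ∀ i, exp (t * ham g S h σ i) * exp (t * ham g S h τ i) =
          (∏ k, (exp (t * g k * par (S k) σ (i k)) * exp (t * g k * par (S k) τ (i k)))) *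
          (exp (fieldSum (fun x => t * h x) σ) * exp (fieldSum (fun x => t * h x) τ)) := fun i => by
        simp only [ham, fieldSum, mul_add, mul_sum, exp_add, exp_sum, prod_mul_distrib, mul_assoc]
        ring
      simp only [e2]
      rw [av_mul_const, av_pi (fun k i => exp (t * g k * par (S k) σ i) * exp (t * g k * par (S k) τ i))]
      refine mul_le_mul_of_nonneg_right ?_ (by positivity)
      simp only [η, mul_sum]
      rw [exp_sum, ← prod_pow, ← prod_mul_distrib]
      exact prod_le_prod (fun k _ => av_nonneg fun i => by positivity) fun k _ =>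
        av_exp_pair_le w.hε1 (S k) (mem_filter.1 hσ).2 (mem_filter.1 hτ).2 hq _
  refine (sum_le_sum fun σ hσ => sum_le_sum fun τ hτ => hb σ hσ τ hτ).trans ?_
  simp only [sum_add_distrib]
  have h1 : ∑ σ ∈ mid (N := N) ε, ∑ τ ∈ mid (N := N) ε, A σ τ ≤ exp (2 * a + 3 * η) := by
    simp only [A, ← mul_sum]
    rw [← sum_mul]
    rw [exp_add, two_mul a, exp_add, exp_ann]
    have := sum_le_sum_of_subset_of_nonneg (subset_univ (mid (N := N) ε))
      (f := fun σ => exp (fieldSum (fun x => t * h x) σ)) fun σ _ _ => (exp_pos _).le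
    rw [sum_exp_field] at this
    refine (mul_le_mul_of_nonneg_left (mul_le_mul this this (sum_nonneg fun σ _ => (exp_pos _).le)
      (by positivity)) (by positivity)).trans (le_of_eq ?_)
    ring
  have hcount : ∀ σ : Fin N → Bool, ∑ τ ∈ mid (N := N) ε, Near σ τ ≤ 2 * exp (N * (2 * √ε)) := by
    intro σ
    refine (sum_le_sum_of_subset_of_nonneg (subset_univ _) fun τ _ _ => by simp only [Near]; split <;> norm_num).trans ?_
    have hbij : Function.Bijective fun (τ : Fin N → Bool) x => σ x == τ x :=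
      Function.Involutive.bijective fun τ => by funext x; cases h1 : σ x <;> cases h2 : τ x <;> simp [h1, h2]
    rw [Fintype.sum_bijective _ hbij (fun τ => Near σ τ) (fun ρ => if 1 - ε < |mag ρ| then (1:ℝ) else 0) fun τ => rfl,
      sum_boole]
    exact card_corner_le w.hε0
  have h2 : ∑ σ ∈ mid (N := N) ε, ∑ τ ∈ mid (N := N) ε,
      Near σ τ * (exp (t * (u + D)) * av (fun i => exp (t * ham g S h σ i))) ≤ 2 * exp (2 * a + 3 * η) := by
    simp only [← sum_mul]
    refine (sum_le_sum fun σ _ => mul_le_mul_of_nonneg_right (hcount σ)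
      (mul_nonneg (exp_pos _).le (av_nonneg fun i => (exp_pos _).le))).trans ?_
    rw [← mul_sum, ← mul_sum]
    refine (mul_le_mul_of_nonneg_left (mul_le_mul_of_nonneg_left (av_mid_le w.hε0.le w.hε1 t)
      (exp_pos _).le) (by positivity)).trans ?_
    rw [mul_assoc, ← exp_add, ← exp_add]
    refine mul_le_mul_of_nonneg_left (exp_le_exp.2 ?_) (by norm_num)
    have := w.entropy
    linarith
  linarith

end Vale.Agent.P168
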