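import Vale.Agent.P168.Core

open MeasureTheory Real

namespace Vale.Agent.P168

/-- A clause: `((a, b), f)` with `f j = (f_j(+1), f_j(-1))`. -/
abbrev Clause (K : ℕ) := (ℝ × ℝ) × (Fin K → ℝ × ℝ)

/-- Law of a clause: `(a,b)` with law `ν`, independent i.i.d. `f_j` with law `η`. -/
noncomputable def clauseLaw (ν η : Measure (ℝ × ℝ)) (K : ℕ) : Measure (Clause K) :=
  ν.prod (Measure.pi fun _ => η)

/-- Value of a function on spins; `true` is the spin `+1` and `false` is `-1`. -/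
def fval (p : ℝ × ℝ) (s : Bool) : ℝ := if s then p.1 else p.2

/-- The interaction `θ = log (a (1 + b f_1(σ_1) ⋯ f_K(σ_K)))`. -/
noncomputable def theta {K : ℕ} (c : Clause K) (σ : Fin K → Bool) : ℝ :=
  log (c.1.1 * (1 + c.1.2 * ∏ j, fval (c.2 j) (σ j)))

/-- Poisson weights. -/
noncomputable def pois (r : ℝ) (n : ℕ) : ℝ := exp (-r) * r ^ n / n.factorial

/-- `log ∑_σ exp H_N(σ)` for given clauses, fields and positions. -/
noncomputable def logZ {N K M : ℕ} (h : Fin N → ℝ) (w : Fin M → Clause K)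
    (i : Fin M → Fin K → Fin N) : ℝ :=
  log (∑ σ : Fin N → Bool,
    exp (∑ k, theta (w k) (fun j => σ (i k j)) + ∑ x, h x * sg (σ x)))

/-- The pressure `F_N` (`av` is the average over uniform positions). -/
noncomputable def pressure (ν η : Measure (ℝ × ℝ)) (ρ : Measure ℝ) (lam : ℝ) (K N : ℕ) : ℝ :=
  (1 / (N : ℝ)) * ∑' M : ℕ, pois (lam * N) M *
    ∫ h : Fin N → ℝ, ∫ w : Fin M → Clause K, av (fun i => logZ h w i)
      ∂Measure.pi (fun _ => clauseLaw ν η K) ∂Measure.pi (fun _ => ρ)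

/-- Weight of a spin under a message. -/
noncomputable def msgWeight (x : ℝ) (s : Bool) : ℝ := (1 + x * sg s) / 2

/-- The variable `U`. -/
noncomputable def cavU {K n : ℕ} (h₀ : ℝ) (w : Fin n → Clause K) (ℓ : Fin n → Fin K)
    (xs : Fin n → Fin K → ℝ) : ℝ :=
  ∑ s : Bool, exp (h₀ * sg s) * ∏ k,
    ∑ σ : Fin K → Bool, if σ (ℓ k) = s then
      exp (theta (w k) σ) * ∏ j ∈ Finset.univ.erase (ℓ k), msgWeight (xs k j) (σ j) else 0

/-- The variable `V`. -/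
noncomputable def cavV {K n : ℕ} (w : Fin n → Clause K) (xs : Fin n → Fin K → ℝ) : ℝ :=
  ∏ k, ∑ σ : Fin K → Bool, exp (theta (w k) σ) * ∏ j, msgWeight (xs k j) (σ j)

/-- Uniform law on `[0,1]`. -/
noncomputable def unif01 : Measure ℝ := volume.restrict (Set.Icc 0 1)

/-- Independent uniform variables, one per message. -/
noncomputable def msgLaw (n K : ℕ) : Measure (Fin n → Fin K → ℝ) :=
  Measure.pi fun _ => Measure.pi fun _ => unif01

/-- `𝔼 log Y₀` at depth one, for given outer randomness: `Y₀ = (𝔼_1 Y^m)^{1/m}`. -/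
noncomputable def levelOne {K n : ℕ} (m : ℝ) (x : ℝ → ℝ → ℝ)
    (Y : (Fin n → Fin K → ℝ) → ℝ) : ℝ :=
  ∫ ω₀, log ((∫ ω₁, Y (fun k j => x (ω₀ k j) (ω₁ k j)) ^ m ∂msgLaw n K) ^ (1 / m)) ∂msgLaw n K

/-- `𝒯U` at depth one. -/
noncomputable def funU (ν η : Measure (ℝ × ℝ)) (ρ : Measure ℝ) (lam : ℝ) (K : ℕ) (m : ℝ)
    (x : ℝ → ℝ → ℝ) : ℝ :=
  ∑' n : ℕ, pois (K * lam) n *
    ∫ h₀, ∫ w : Fin n → Clause K, av (fun ℓ : Fin n → Fin K => levelOne m x (cavU h₀ w ℓ))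
      ∂Measure.pi (fun _ => clauseLaw ν η K) ∂ρ

/-- `𝒯V` at depth one. -/
noncomputable def funV (ν η : Measure (ℝ × ℝ)) (lam : ℝ) (K : ℕ) (m : ℝ) (x : ℝ → ℝ → ℝ) : ℝ :=
  ∑' n : ℕ, pois (((K : ℝ) - 1) * lam) n *
    ∫ w : Fin n → Clause K, levelOne m x (cavV w) ∂Measure.pi (fun _ => clauseLaw ν η K)

/-- The depth-one trial value `𝒯U - 𝒯V`. -/
noncomputable def depthOne (ν η : Measure (ℝ × ℝ)) (ρ : Measure ℝ) (lam : ℝ) (K : ℕ) (m : ℝ)
    (x : ℝ → ℝ → ℝ) : ℝ :=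
  funU ν η ρ lam K m x - funV ν η lam K m x

end Vale.Agent.P168
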