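import Vale.Agent.P168.Pressure

open MeasureTheory ProbabilityTheory Real Finset

namespace Vale.Agent.P168

variable {N K M : ℕ} {ν η : Measure (ℝ × ℝ)} {ρ : Measure ℝ}

/-- per-slot bound on the mean of `|f|` at magnetisation away from the corners -/
noncomputable def slotW (ε : ℝ) (p : ℝ × ℝ) : ℝ := 1 - ε / 2 * (2 - |p.1| - |p.2|)

lemma av_fval_le [NeZero N] {ε : ℝ} {p : ℝ × ℝ} (hp : |p.1| ≤ 1 ∧ |p.2| ≤ 1) {σ : Fin N → Bool}
    (hσ : |mag σ| ≤ 1 - ε) : av (fun x => |fval p (σ x)|) ≤ slotW ε p := by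
  have e : ∀ x, |fval p (σ x)| = (|p.1| + |p.2|) / 2 + (|p.1| - |p.2|) / 2 * sg (σ x) := fun x => by
    cases σ x <;> simp [fval, sg] <;> ring
  simp only [e]
  rw [av_add, av_const, av_const_mul]
  show _ + _ * mag σ ≤ _
  have hm := abs_le.1 hσ
  unfold slotW
  have h1 : 0 ≤ 1 - ε := (abs_nonneg _).trans hσ
  have q1 := mul_le_mul_of_nonneg_right hp.1 h1
  have q2 := mul_le_mul_of_nonneg_right hp.2 h1
  rcases le_total |p.2| |p.1| with h | h
  · have := mul_le_mul_of_nonneg_left hm.2 (show 0 ≤ (|p.1| - |p.2|) / 2 by linarith)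
    linarith
  · have := mul_le_mul_of_nonneg_left (show -(mag σ) ≤ 1 - ε by linarith) (show 0 ≤ (|p.2| - |p.1|) / 2 by linarith)
    linarith

/-- Jensen for a weighted log-sum-exp -/
lemma log_sum_jensen {ι : Type*} [Fintype ι] [Nonempty ι] (F X : ι → ℝ) :
    log (∑ a, exp (F a)) + (∑ a, exp (F a) * X a) / ∑ a, exp (F a) ≤ log (∑ a, exp (F a + X a)) := by
  set Z := ∑ a, exp (F a)
  have hZ : 0 < Z := sum_pos (fun a _ => exp_pos _) univ_nonempty
  set m := (∑ a, exp (F a) * X a) / Z with hm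
  have hmZ : ∑ a, exp (F a) * X a = m * Z := by rw [hm]; field_simp
  have h : exp m * Z ≤ ∑ a, exp (F a + X a) := by
    have hp : ∀ a, exp (F a) * (exp m * (1 + (X a - m))) ≤ exp (F a + X a) := fun a => by
      rw [exp_add, show exp (X a) = exp m * exp (X a - m) by rw [← exp_add]; ring_nf]
      exact mul_le_mul_of_nonneg_left (mul_le_mul_of_nonneg_left (by linarith [add_one_le_exp (X a - m)])
        (exp_pos _).le) (exp_pos _).le
    refine le_trans (le_of_eq ?_) (sum_le_sum fun a _ => hp a)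
    have e : ∀ a, exp (F a) * (exp m * (1 + (X a - m))) =
        exp m * (exp (F a) * (1 - m)) + exp m * (exp (F a) * X a) := fun a => by ring
    rw [sum_congr rfl fun a _ => e a, sum_add_distrib, ← mul_sum, ← mul_sum, hmZ, ← sum_mul]
    ring
  have := log_le_log (mul_pos (exp_pos _) hZ) h
  rw [log_mul (exp_pos _).ne' hZ.ne', log_exp] at this
  linarith

lemma flat_pointwise [NeZero N] {ε L : ℝ} (hε : 0 < ε) (hε1 : ε ≤ 1) (hL : 0 ≤ L) (h : Fin N → ℝ)
    {w : Fin M → Clause K} (hw : ∀ k, Valid (w k)) :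
    ∑ x, log (2 * cosh (clip L (h x))) - ∑ x, |h x - clip L (h x)|
      + ∑ k, (log (w k).1.1 - lam0 (w k).1 *
          ((∏ j, slotW ε ((w k).2 j)) + 2 * exp (N * (2 * √ε) - N * log (1 + exp (-2 * L)))))
      ≤ av (fun i => logZ h w i) := by
  set hc := fun x => clip L (h x)
  set F := fun σ : Fin N → Bool => fieldSum hc σ
  set Z := ∑ σ, exp (F σ) with hZdef
  have hZ : Z = ∏ x, (2 * cosh (hc x)) := sum_exp_field hc
  have hZ0 : 0 < Z := sum_pos (fun a _ => exp_pos _) univ_nonempty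
  set d := ∑ x, |h x - hc x|
  set T := fun (σ : Fin N → Bool) (i : Fin M → Fin K → Fin N) => ∑ k, theta (w k) (fun j => σ (i k j))
  have hj : ∀ i, log Z + (∑ σ, exp (F σ) * (T σ i - d)) / Z ≤ logZ h w i := by
    intro i
    refine (log_sum_jensen F fun σ => T σ i - d).trans (le_trans (log_sum_diff (c := 0) fun σ => ?_) (le_of_eq (add_zero _)))
    have : F σ - d ≤ ∑ x, h x * sg (σ x) := by
      simp only [F, fieldSum, d, ← sum_sub_distrib]
      refine sum_le_sum fun x _ => ?_
      have hb := le_abs_self ((hc x - h x) * sg (σ x))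
      rw [abs_mul, abs_sg, mul_one, abs_sub_comm] at hb
      linarith
    simp only [T]; linarith
  refine le_trans ?_ (av_mono hj)
  rw [av_add, av_const]
  have hlog : log Z = ∑ x, log (2 * cosh (hc x)) := by
    rw [hZ, log_prod fun x _ => by positivity]
  rw [hlog]
  rw [show (fun i => (∑ σ, exp (F σ) * (T σ i - d)) / Z) = fun i => Z⁻¹ * ∑ σ, exp (F σ) * (T σ i - d) from
    funext fun i => by ring, av_const_mul, av_sum]
  set κ := 2 * exp (N * (2 * √ε) - N * log (1 + exp (-2 * L))) with hκ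
  set S := fun σ : Fin N → Bool => ∑ k, (log (w k).1.1 - lam0 (w k).1 *
    (if |mag σ| ≤ 1 - ε then ∏ j, slotW ε ((w k).2 j) else 1))
  have hσ : ∀ σ, exp (F σ) * (S σ - d) ≤ av (fun i => exp (F σ) * (T σ i - d)) := by
    intro σ
    rw [av_const_mul]
    refine mul_le_mul_of_nonneg_left ?_ (exp_pos _).le
    simp only [sub_eq_add_neg (a := T σ _), sub_eq_add_neg (a := S σ)]
    rw [av_add, av_const]
    refine add_le_add ?_ le_rfl
    simp only [S, T]
    rw [av_sum]
    refine sum_le_sum fun k _ => ?_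
    have hk := hw k
    have e : av (fun i : Fin M → Fin K → Fin N => theta (w k) (fun j => σ (i k j))) ≥
        log (w k).1.1 - lam0 (w k).1 * av (fun i : Fin M → Fin K → Fin N => ∏ j, |fval ((w k).2 j) (σ (i k j))|) := by
      have := av_mono (g := fun i : Fin M → Fin K → Fin N => theta (w k) (fun j => σ (i k j)))
        (f := fun i => log (w k).1.1 + (-lam0 (w k).1) * ∏ j, |fval ((w k).2 j) (σ (i k j))|) fun i => by
          have h' := (abs_le.1 (theta_sub_le hk fun j => σ (i k j))).1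
          rw [abs_prod] at h'; linarith
      rw [av_add, av_const, av_const_mul] at this
      linarith
    refine le_trans ?_ e
    refine sub_le_sub_left (mul_le_mul_of_nonneg_left ?_ (lam0_nonneg hk.2.1)) _
    have hprod : av (fun i : Fin M → Fin K → Fin N => ∏ j, |fval ((w k).2 j) (σ (i k j))|) =
        ∏ j, av (fun x => |fval ((w k).2 j) (σ x)|) := by
      have e2 : ∀ i : Fin M → Fin K → Fin N, ∏ j, |fval ((w k).2 j) (σ (i k j))| =
          ∏ l, if l = k then ∏ j, |fval ((w k).2 j) (σ (i l j))| else 1 := fun i => by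
        rw [prod_ite_eq' univ k (fun l => ∏ j, |fval ((w k).2 j) (σ (i l j))|)]; simp
      simp only [e2]
      rw [av_pi (fun l (y : Fin K → Fin N) => if l = k then ∏ j, |fval ((w k).2 j) (σ (y j))| else 1)]
      rw [prod_eq_single k (fun l _ hl => by simp only [if_neg hl]; exact av_const 1) (by simp)]
      simp only [if_pos rfl]
      exact av_pi (fun j x => |fval ((w k).2 j) (σ x)|)
    rw [hprod]
    split_ifs with hm
    · exact prod_le_prod (fun j _ => av_nonneg fun x => abs_nonneg _) fun j _ => av_fval_le (hk.2.2 j) hm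
    · exact prod_le_one (fun j _ => av_nonneg fun x => abs_nonneg _) fun j _ =>
        (le_abs_self _).trans (abs_av_le fun x => by rw [abs_abs]; exact abs_fval_le (hk.2.2 j) _)
  refine le_trans ?_ (add_le_add le_rfl (mul_le_mul_of_nonneg_left (sum_le_sum fun σ _ => hσ σ) (inv_nonneg.2 hZ0.le)))
  have hc2 : ∑ σ : Fin N → Bool, exp (F σ) * (if |mag σ| ≤ 1 - ε then (0:ℝ) else 1) ≤ Z * κ := by
    have hcf := corner_field_le (N := N) hε (h := hc) (L := L) fun x => abs_clip_le hL _
    refine le_trans (le_of_eq ?_) (hcf.trans (le_of_eq (by rw [hZ])))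
    simp only [mul_ite, mul_zero, mul_one]
    rw [sum_ite, sum_const_zero, zero_add]
    exact sum_congr (by ext σ; simp [mid]) fun σ _ => rfl
  have hS : ∀ σ, ∑ k, (log (w k).1.1 - lam0 (w k).1 * ∏ j, slotW ε ((w k).2 j)) -
      (∑ k, lam0 (w k).1 * 1) * (if |mag σ| ≤ 1 - ε then (0:ℝ) else 1) ≤ S σ := by
    intro σ
    simp only [S]
    split_ifs with hm
    · simp
    · rw [mul_one, ← sum_sub_distrib]
      refine sum_le_sum fun k _ => ?_
      have hW : 0 ≤ lam0 (w k).1 * ∏ j, slotW ε ((w k).2 j) := mul_nonneg (lam0_nonneg (hw k).2.1)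
        (prod_nonneg fun j _ => by
          unfold slotW
          have : ε / 2 * (2 - |((w k).2 j).1| - |((w k).2 j).2|) ≤ ε / 2 * 2 :=
            mul_le_mul_of_nonneg_left (by linarith [abs_nonneg ((w k).2 j).1, abs_nonneg ((w k).2 j).2]) (by linarith)
          linarith)
      linarith
  set a0 := ∑ k, (log (w k).1.1 - lam0 (w k).1 * ∏ j, slotW ε ((w k).2 j))
  set b0 := ∑ k, lam0 (w k).1 * 1 with hb0
  have hb0' : 0 ≤ b0 := sum_nonneg fun k _ => by rw [mul_one]; exact lam0_nonneg (hw k).2.1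
  have h2 : Z * (a0 - d) - b0 * (Z * κ) ≤ ∑ σ, exp (F σ) * (S σ - d) := by
    refine le_trans ?_ (sum_le_sum fun σ _ => mul_le_mul_of_nonneg_left (sub_le_sub_right (hS σ) d) (exp_pos _).le)
    have e : ∀ σ, exp (F σ) * (a0 - b0 * (if |mag σ| ≤ 1 - ε then (0:ℝ) else 1) - d) =
        exp (F σ) * (a0 - d) - b0 * (exp (F σ) * (if |mag σ| ≤ 1 - ε then (0:ℝ) else 1)) := fun σ => by ring
    simp only [e]
    rw [sum_sub_distrib, ← sum_mul, ← mul_sum]
    have := mul_le_mul_of_nonneg_left hc2 hb0'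
    linarith
  have h3 := mul_le_mul_of_nonneg_left h2 (inv_nonneg.2 hZ0.le)
  have e3 : Z⁻¹ * (Z * (a0 - d) - b0 * (Z * κ)) = a0 - d - b0 * κ := by field_simp
  rw [e3] at h3
  have e4 : ∑ k, (log (w k).1.1 - lam0 (w k).1 * ((∏ j, slotW ε ((w k).2 j)) + κ)) = a0 - b0 * κ := by
    simp only [a0, b0, sum_mul, ← sum_sub_distrib]
    exact sum_congr rfl fun k _ => by ring
  rw [e4]
  linarith

lemma flat_lower [NeZero N] (d : Disorder ν η ρ) {lam ε L : ℝ} (hlam : 0 ≤ lam) (hε : 0 < ε) (hε1 : ε ≤ 1) (hL : 0 ≤ L) :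
    lam * (∫ c, log c.1 ∂ν - (∫ c, lam0 c ∂ν) *
        ((∫ p, slotW ε p ∂η) ^ K + 2 * exp (N * (2 * √ε) - N * log (1 + exp (-2 * L)))))
      + ∫ y, log (2 * cosh (clip L y)) ∂ρ - ∫ y, |y - clip L y| ∂ρ
      ≤ pressure ν η ρ lam K N := by
  have := d.pν; have := d.pη; have := d.pρ
  set κ := 2 * exp (N * (2 * √ε) - N * log (1 + exp (-2 * L)))
  set A := ∫ c, log c.1 ∂ν - (∫ c, lam0 c ∂ν) * ((∫ p, slotW ε p ∂η) ^ K + κ)
  set B1 := ∫ y, log (2 * cosh (clip L y)) ∂ρ
  set B2 := ∫ y, |y - clip L y| ∂ρ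
  have hN : (0:ℝ) < N := by exact_mod_cast NeZero.pos N
  have main := pressure_ge (N := N) (K := K) d (lam := lam) (A := A) (B := N * (B1 - B2)) (C := 0) hlam ?_
  · refine le_trans (le_of_eq ?_) main
    field_simp; ring
  intro M
  set φ := fun c : Clause K => log c.1.1 - lam0 c.1 * ((∏ j, slotW ε (c.2 j)) + κ)
  set ψ := fun y : ℝ => log (2 * cosh (clip L y)) - |y - clip L y|
  refine ⟨fun h w => ∑ x, ψ (h x) + ∑ k, φ (w k), fun h w hw => ?_, ?_⟩
  · simp only [ψ, φ, sum_sub_distrib (s := univ) (f := fun x => log (2 * cosh (clip L (h x))))]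
    exact flat_pointwise hε hε1 hL h hw
  have i1 : Integrable (fun y => log (2 * cosh (clip L y))) ρ := by
    refine Integrable.of_bound (Real.measurable_log.comp (by fun_prop)).aestronglyMeasurable (log 2 + log (cosh L)) (Filter.Eventually.of_forall fun y => ?_)
    rw [Real.norm_eq_abs, log_mul two_ne_zero (cosh_pos _).ne']
    have h1 : 0 ≤ log (cosh (clip L y)) := log_nonneg (one_le_cosh _)
    rw [abs_of_nonneg (by positivity)]
    refine add_le_add le_rfl (log_le_log (cosh_pos _) ?_)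
    rw [cosh_le_cosh, abs_of_nonneg hL]; exact abs_clip_le hL y
  have i2 : Integrable (fun y => |y - clip L y|) ρ :=
    (d.hh.abs.const_mul 2).mono' (by fun_prop) (Filter.Eventually.of_forall fun y => by
      simp only [id_eq, Real.norm_eq_abs, abs_abs]
      linarith [abs_sub y (clip L y), abs_clip_le_abs hL y])
  have iw : Integrable (slotW ε) η := by
    refine Integrable.of_bound (by unfold slotW; fun_prop) (1 + 2 * ε) ?_
    filter_upwards [d.hf] with p hp
    rw [Real.norm_eq_abs, abs_le]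
    have u1 : ε / 2 * (2 - |p.1| - |p.2|) ≤ ε / 2 * 2 :=
      mul_le_mul_of_nonneg_left (by linarith [abs_nonneg p.1, abs_nonneg p.2]) (by linarith)
    have u2 : 0 ≤ ε / 2 * (2 - |p.1| - |p.2|) := mul_nonneg (by linarith) (by linarith [hp.1, hp.2])
    unfold slotW; constructor <;> linarith
  have iP : Integrable (fun f : Fin K → ℝ × ℝ => ∏ j, slotW ε (f j)) (Measure.pi fun _ => η) :=
    Integrable.fintype_prod fun _ => iw
  have iφ : Integrable φ (clauseLaw ν η K) ∧ ∫ c, φ c ∂clauseLaw ν η K = A := by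
    have j1 := d.base (K := K) d.hla
    have j3 : Integrable (fun c : Clause K => lam0 c.1 * ∏ j, slotW ε (c.2 j)) (clauseLaw ν η K) :=
      d.hlb.mul_prod iP
    have j4 := d.base (K := K) d.hlb
    have e : φ = fun c : Clause K => log c.1.1 - (lam0 c.1 * ∏ j, slotW ε (c.2 j) + κ * lam0 c.1) := by
      funext c; simp only [φ]; ring
    rw [e]
    refine ⟨j1.1.sub (j3.add (j4.1.const_mul κ)), ?_⟩
    rw [integral_sub (f := fun c : Clause K => log c.1.1)
      (g := fun c : Clause K => lam0 c.1 * ∏ j, slotW ε (c.2 j) + κ * lam0 c.1) j1.1 (j3.add (j4.1.const_mul κ))]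
    rw [integral_add j3 (j4.1.const_mul κ), integral_const_mul, j1.2, j4.2, d.mixed lam0 fun _ => slotW ε]
    simp only [A, prod_const, card_univ, Fintype.card_fin]; ring
  have hs1 := integral_sum_eval ρ (i1.sub i2) N
  have hs2 := integral_sum_eval (clauseLaw ν η K) iφ.1 M
  simp only [Pi.sub_apply] at hs1
  refine ⟨(hs1.1.comp_fst _).add (hs2.1.comp_snd _), le_of_eq ?_⟩
  rw [integral_add (hs1.1.comp_fst _) (hs2.1.comp_snd _), integral_fun_fst (fun h : Fin N → ℝ => ∑ x, ψ (h x)),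
    integral_fun_snd (fun w : Fin M → Clause K => ∑ k, φ (w k))]
  rw [hs1.2, hs2.2, iφ.2, integral_sub i1 i2]
  simp only [probReal_univ, one_smul]
  ring

end Vale.Agent.P168
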