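import Vale.Agent.P168.Parity

open MeasureTheory ProbabilityTheory Real Finset Filter
open scoped Topology

namespace Vale.Agent.P168

variable {N K M : ℕ} {ν η : Measure (ℝ × ℝ)} {ρ : Measure ℝ}

/-- mean entropy at parameter `t` -/
noncomputable def entMean (ν : Measure (ℝ × ℝ)) (ρ : Measure ℝ) (lam t L : ℝ) : ℝ :=
  lam * ∫ c, gEnt t L (gb c.2) ∂ν + ∫ y, hEnt t L y ∂ρ

/-- the value reached from parameter `t` -/
noncomputable def winValue (ν : Measure (ℝ × ℝ)) (ρ : Measure ℝ) (lam t L : ℝ) : ℝ :=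
  lam * ∫ c, (ub c + gVal t L (gb c.2)) ∂ν + ∫ y, hVal t L y ∂ρ

lemma abs_gVal_le {L t : ℝ} (hL : 0 ≤ L) (ht0 : 0 ≤ t) (ht1 : t ≤ 1) (x : ℝ) :
    |gVal t L x| ≤ 2 * L + 1 + 2 * |x| ∧ |hVal t L x| ≤ 2 * L + 1 + 2 * |x| := by
  obtain ⟨a, b, c⟩ := logcosh_bound (abs_le.2 ⟨by linarith, ht1⟩) (abs_clip_le hL x)
  have c' : |(1 - t) * (clip L x * tanh (t * clip L x))| ≤ L := by
    rw [abs_mul, abs_of_nonneg (by linarith : (0:ℝ) ≤ 1 - t)]
    exact (mul_le_of_le_one_left (abs_nonneg _) (by linarith)).trans c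
  have := abs_le.1 c'
  have h2 : |x - clip L x| ≤ 2 * |x| := by linarith [abs_sub x (clip L x), abs_clip_le_abs hL x]
  have l2 := log_le_sub_one_of_pos (two_pos : (0:ℝ) < 2)
  have l0 := log_nonneg (one_le_two : (1:ℝ) ≤ 2)
  have h0 := abs_nonneg (x - clip L x)
  unfold gVal hVal
  rw [log_mul two_ne_zero (cosh_pos _).ne']
  constructor <;> rw [abs_le] <;> constructor <;> linarith

lemma integrable_value (d : Disorder ν η ρ) {L t : ℝ} (hL : 0 ≤ L) (ht0 : 0 ≤ t) (ht1 : t ≤ 1) :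
    Integrable (fun c : ℝ × ℝ => ub c + gVal t L (gb c.2)) ν ∧ Integrable (hVal t L) ρ := by
  have := d.pν; have := d.pρ
  refine ⟨(((d.hla.abs).add (d.hlb.const_mul 3)).add (integrable_const (2 * L + 1))).mono' (by fun_prop) ?_,
    ((d.hh.abs.const_mul 2).add (integrable_const (2 * L + 1))).mono' (by fun_prop) ?_⟩
  · filter_upwards [d.hab] with c hc
    simp only [Pi.add_apply, Real.norm_eq_abs]
    linarith [abs_add_le (ub c) (gVal t L (gb c.2)), abs_ub_le hc.2, (abs_gVal_le hL ht0 ht1 (gb c.2)).1,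
      abs_gb_le hc.2]
  · refine Filter.Eventually.of_forall fun y => ?_
    simp only [Pi.add_apply, Real.norm_eq_abs, id_eq]
    linarith [(abs_gVal_le hL ht0 ht1 y).2]

lemma two_sums_sq {Ω Ω' : Type*} [MeasurableSpace Ω] [MeasurableSpace Ω'] (P : Measure Ω) (Q : Measure Ω')
    [IsProbabilityMeasure P] [IsProbabilityMeasure Q] {e : Ω → ℝ} {f : Ω' → ℝ} (he : Measurable e)
    (hf : Measurable f) {C : ℝ} (heb : ∀ a, |e a| ≤ C) (hfb : ∀ a, |f a| ≤ C) (m k : ℕ) :
    Integrable (fun p : (Fin m → Ω) × (Fin k → Ω') =>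
        (∑ x, e (p.1 x) + ∑ y, f (p.2 y) - (m * ∫ a, e a ∂P + k * ∫ a, f a ∂Q)) ^ 2)
      ((Measure.pi fun _ => P).prod (Measure.pi fun _ => Q)) ∧
    ∫ p, (∑ x, e (p.1 x) + ∑ y, f (p.2 y) - (m * ∫ a, e a ∂P + k * ∫ a, f a ∂Q)) ^ 2
      ∂((Measure.pi fun _ : Fin m => P).prod (Measure.pi fun _ : Fin k => Q)) ≤ 2 * (m + k) * C ^ 2 := by
  set a := fun h : Fin m → Ω => (∑ x, e (h x) - m * ∫ a, e a ∂P) ^ 2
  set b := fun w : Fin k → Ω' => (∑ y, f (w y) - k * ∫ a, f a ∂Q) ^ 2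
  have hia : Integrable a (Measure.pi fun _ => P) := by
    refine Integrable.of_bound (by fun_prop) ((m * C + |(m:ℝ) * ∫ a, e a ∂P|) ^ 2)
      (Filter.Eventually.of_forall fun h => ?_)
    rw [Real.norm_eq_abs, abs_pow]
    refine pow_le_pow_left₀ (abs_nonneg _) ((abs_sub _ _).trans (add_le_add ?_ le_rfl)) 2
    exact (abs_sum_le_sum_abs _ _).trans ((sum_le_sum fun x _ => heb _).trans (by simp))
  have hib : Integrable b (Measure.pi fun _ => Q) := by
    refine Integrable.of_bound (by fun_prop) ((k * C + |(k:ℝ) * ∫ a, f a ∂Q|) ^ 2)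
      (Filter.Eventually.of_forall fun h => ?_)
    rw [Real.norm_eq_abs, abs_pow]
    refine pow_le_pow_left₀ (abs_nonneg _) ((abs_sub _ _).trans (add_le_add ?_ le_rfl)) 2
    exact (abs_sum_le_sum_abs _ _).trans ((sum_le_sum fun x _ => hfb _).trans (by simp))
  have hdom : Integrable (fun p : (Fin m → Ω) × (Fin k → Ω') => 2 * a p.1 + 2 * b p.2)
      ((Measure.pi fun _ => P).prod (Measure.pi fun _ => Q)) :=
    ((hia.comp_fst _).const_mul 2).add ((hib.comp_snd _).const_mul 2)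
  have hpt : ∀ p : (Fin m → Ω) × (Fin k → Ω'),
      (∑ x, e (p.1 x) + ∑ y, f (p.2 y) - (m * ∫ a, e a ∂P + k * ∫ a, f a ∂Q)) ^ 2 ≤ 2 * a p.1 + 2 * b p.2 := by
    intro p
    simp only [a, b]
    linarith [sq_nonneg ((∑ x, e (p.1 x) - m * ∫ a, e a ∂P) - (∑ y, f (p.2 y) - k * ∫ a, f a ∂Q))]
  have hi : Integrable (fun p : (Fin m → Ω) × (Fin k → Ω') =>
        (∑ x, e (p.1 x) + ∑ y, f (p.2 y) - (m * ∫ a, e a ∂P + k * ∫ a, f a ∂Q)) ^ 2)
      ((Measure.pi fun _ => P).prod (Measure.pi fun _ => Q)) :=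
    hdom.mono' (by fun_prop) (Filter.Eventually.of_forall fun p => by
      rw [Real.norm_eq_abs, abs_of_nonneg (sq_nonneg _)]; exact hpt p)
  refine ⟨hi, (integral_mono hi hdom hpt).trans ?_⟩
  rw [integral_add ((hia.comp_fst _).const_mul 2) ((hib.comp_snd _).const_mul 2), integral_const_mul,
    integral_const_mul, integral_fun_fst a, integral_fun_snd b]
  simp only [probReal_univ, one_smul]
  have h1 := integral_sum_sq P he heb m
  have h2 := integral_sum_sq Q hf hfb k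
  linarith

lemma tail_linear {N M lam δ : ℝ} (hN : 0 < N) (hδ : 0 < δ) (hlam : 0 ≤ lam)
    (h : δ * N < |M - lam * N|) : M + N ≤ (M - lam * N) ^ 2 / N * (1 / δ + (lam + 1) / δ ^ 2) := by
  set x := M - lam * N
  have hx : δ * N ≤ |x| := h.le
  have h1 : |x| ≤ x ^ 2 / N * (1 / δ) := by
    rw [← sq_abs x, div_mul_div_comm, mul_one, le_div_iff₀ (by positivity)]
    have := mul_le_mul_of_nonneg_left hx (abs_nonneg x)
    linarith
  have h2 : (lam + 1) * N ≤ x ^ 2 / N * ((lam + 1) / δ ^ 2) := by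
    rw [← sq_abs x, div_mul_div_comm, le_div_iff₀ (by positivity)]
    have := mul_le_mul_of_nonneg_left (mul_le_mul hx hx (by positivity) (abs_nonneg _)) (show 0 ≤ lam + 1 by linarith)
    linarith
  have : x ≤ |x| := le_abs_self x
  simp only [x] at *
  linarith

/-- the good event gives the window conditions -/
lemma window_of_good [NeZero N] {t L ε s δ δ' r0 q lam E1 E2 : ℝ} (h : Fin N → ℝ) {w : Fin M → Clause K}
    (hp : ∀ k, PM (w k)) (hL : 1 ≤ L) (ht0 : 0 ≤ t) (ht1 : t ≤ 1) (hε : 0 < ε) (hε1 : ε ≤ 1) (hs : 0 < s)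
    (hs' : s ≤ lam * E1 + E2) (hδ : 0 < δ) (hδs : δ + 2 * √ε ≤ s / 4)
    (hεL : 2 * √ε ≤ log (1 + exp (-2 * L)) / 2) (hr0 : 0 < r0) (hrL : r0 * L ≤ 1)
    (hr2 : r0 * (2 * L ^ 2 * (lam + 2)) ≤ δ) (hEb : |E1| ≤ 2 * L + 1)
    (hδ's : δ' * (4 * (2 * L + 1)) ≤ s) (hwin : |(M:ℝ) - lam * N| ≤ δ' * N) (hMN : (M:ℝ) + N ≤ (lam + 2) * N)
    (hqζ : exp (2 * L) * q ≤ log (1 + exp (-2 * L)) / 4) (hqr : exp (2 * L) * q ≤ r0 * δ / 8)
    (hNζ : 24 ≤ log (1 + exp (-2 * L)) * N) (hNr : 24 ≤ r0 * δ * N)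
    (hH : ∑ k, ∏ j, slotS ε ((w k).2 j) ≤ q * N)
    (hD : |∑ x, hEnt t L (h x) + ∑ k, gEnt t L (gb (w k).1.2) - ((N:ℝ) * E2 + M * E1)| ≤ s / 4 * N) :
    Window (fun k => clip L (cpl (w k))) (fun k => act (w k)) (fun x => clip L (h x)) t ε L (δ * N) := by
  have hN' : (0:ℝ) < N := by exact_mod_cast NeZero.pos N
  set Hs := fun w : Fin M → Clause K => ∑ k, ∏ j, slotS ε ((w k).2 j)
  set cL := exp (2 * L)
  set ζ := log (1 + exp (-2 * L))
  have hcL : 1 ≤ cL := one_le_exp (by linarith)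
  have hent : s / 2 * N ≤ ∑ x, hEnt t L (h x) + ∑ k, gEnt t L (gb (w k).1.2) := by
    have h1 : -((2 * L + 1) * (δ' * N)) ≤ ((M:ℝ) - lam * N) * E1 := by
      refine (neg_le_neg ?_).trans (neg_abs_le _)
      rw [abs_mul, mul_comm (2 * L + 1)]
      exact mul_le_mul hwin hEb (abs_nonneg _) ((abs_nonneg _).trans hwin)
    have h2 := mul_le_mul_of_nonneg_right hs' hN'.le
    have h3 := mul_le_mul_of_nonneg_right hδ's hN'.le
    have := (abs_le.1 hD).1
    linarith
  have hsl : ∑ k, slack ε (act (w k)) = Hs w := sum_congr rfl fun k _ => slack_act ε (w k)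
  refine ⟨fun k => abs_clip_le (by linarith) _, fun x => abs_clip_le (by linarith) _, ht0, ht1, hε, hε1,
    by positivity, ?_, ⟨r0, hr0, hrL, ?_⟩, ?_⟩
  · rw [hsl]
    have t1 := mul_le_mul_of_nonneg_left hH (show 0 ≤ cL by linarith)
    have t2 := mul_le_mul_of_nonneg_right hqζ hN'.le
    have t3 := mul_le_mul_of_nonneg_right hεL hN'.le
    linarith
  · rw [hsl]
    have t1 := mul_le_mul_of_nonneg_left hH (show 0 ≤ cL by linarith)
    have t2 := mul_le_mul_of_nonneg_right hqr hN'.le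
    have t3 : r0 ^ 2 * L ^ 2 * (M + N) ≤ r0 / 2 * δ * N := by
      have t4 := mul_le_mul_of_nonneg_left hMN (show 0 ≤ r0 ^ 2 * L ^ 2 by positivity)
      have t5 := mul_le_mul_of_nonneg_left hr2 (show 0 ≤ r0 / 2 * N by positivity)
      linarith
    linarith
  · have e : ann (fun k => clip L (cpl (w k))) (fun x => clip L (h x)) t -
        t * ener (fun k => clip L (cpl (w k))) (fun x => clip L (h x)) t =
        ∑ x, hEnt t L (h x) + ∑ k, gEnt t L (gb (w k).1.2) := by
      simp only [ann, ener, hEnt, gEnt, sum_sub_distrib, ← mul_sum,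
        (even_tests (by linarith : (0:ℝ) ≤ L) (hp _)).1, (even_tests (by linarith : (0:ℝ) ≤ L) (hp _)).2]
      ring
    have t1 : t * (δ * N) ≤ δ * N := mul_le_of_le_one_left (by positivity) ht1
    have t2 := mul_le_mul_of_nonneg_right hδs hN'.le
    have t3 : 0 ≤ s * N := by positivity
    linarith

lemma affine_integral {Ω Ω' : Type*} [MeasurableSpace Ω] [MeasurableSpace Ω'] (P : Measure Ω)
    (Q : Measure Ω') [IsProbabilityMeasure P] [IsProbabilityMeasure Q] {X : Ω × Ω' → ℝ} {H : Ω' → ℝ}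
    (iX : Integrable X (P.prod Q)) (iH : Integrable H Q) (c1 c2 c3 c4 a : ℝ) :
    ∫ p, (X p - c1 - c2 - c3 - c4 - a * H p.2) ∂(P.prod Q) =
      (∫ p, X p ∂(P.prod Q)) - c1 - c2 - c3 - c4 - a * ∫ y, H y ∂Q := by
  have iA : Integrable (fun p => X p - (c1 + c2 + c3 + c4)) (P.prod Q) := iX.sub (integrable_const _)
  have e : (fun p : Ω × Ω' => X p - c1 - c2 - c3 - c4 - a * H p.2) =
      fun p => (X p - (c1 + c2 + c3 + c4)) - a * H p.2 := by funext p; ring
  rw [e, integral_sub iA ((iH.comp_snd _).const_mul a), integral_sub iX (integrable_const _),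
    integral_const_mul, integral_fun_snd H]
  simp; ring

/-- windowed lower bound on the pressure for parity disorder -/
lemma window_lower (d : Disorder ν η ρ) (hpm : ∀ᵐ p ∂η, |p.1| = 1 ∧ |p.2| = 1) {lam t L ε s δ : ℝ}
    (hlam : 0 ≤ lam) (ht0 : 0 ≤ t) (ht1 : t ≤ 1) (hL : 1 ≤ L) (hε : 0 < ε) (hε1 : ε ≤ 1) (hs : 0 < s)
    (hs' : s ≤ entMean ν ρ lam t L) (hδ : 0 < δ) (hδs : δ + 2 * √ε ≤ s / 4)
    (hεL : 2 * √ε ≤ log (1 + exp (-2 * L)) / 2) :
    ∃ C θ₀ : ℝ, 0 < θ₀ ∧ ∀ K : ℕ, ∀ θ : ℝ, 0 < θ → θ ≤ θ₀ → (∫ p, slotS ε p ∂η) ^ K ≤ θ →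
      ∀ᶠ N : ℕ in atTop, winValue ν ρ lam t L - 2 * δ - C * √θ ≤ pressure ν η ρ lam K N := by
  have := d.pν; have := d.pη; have := d.pρ
  set ζ := log (1 + exp (-2 * L))
  have hζ : 0 < ζ := log_pos (by linarith [exp_pos (-2 * L)])
  set δ' := min 1 (s / (4 * (2 * L + 1)))
  have hδ' : 0 < δ' := lt_min one_pos (by positivity)
  have hδ'1 : δ' ≤ 1 := min_le_left _ _
  have hδ's : δ' * (4 * (2 * L + 1)) ≤ s := (le_div_iff₀ (by positivity)).1 (min_le_right _ _)
  set r0 := min (1 / L) (δ / (2 * L ^ 2 * (lam + 2)))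
  have hr0 : 0 < r0 := lt_min (by positivity) (by positivity)
  have hrL : r0 * L ≤ 1 := (le_div_iff₀ (by linarith)).1 (min_le_left _ _)
  have hr2 : r0 * (2 * L ^ 2 * (lam + 2)) ≤ δ := (le_div_iff₀ (by positivity)).1 (min_le_right _ _)
  set cL := exp (2 * L)
  have hcL : 1 ≤ cL := one_le_exp (by linarith)
  set C2 := (lam + 2) * (3 * L + 1)
  set C1 := (2 * L) ^ 2 * exp (2 * L)
  set θ' := min 1 (min (ζ / (4 * cL)) (r0 * δ / (8 * cL)))
  have hθ' : 0 < θ' := lt_min one_pos (lt_min (by positivity) (by positivity))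
  set C := (lam + 1) * (6 * cL + C2) + (lam + 1) * C1
  refine ⟨C, θ' ^ 2, by positivity, fun K θ hθ0 hθ1 hθK => ?_⟩
  set q := √θ
  have hq0 : 0 < q := Real.sqrt_pos.2 hθ0
  have hqq : q * q = θ := Real.mul_self_sqrt hθ0.le
  have hqθ : q ≤ θ' := by
    have := Real.sqrt_le_sqrt hθ1
    rwa [Real.sqrt_sq hθ'.le] at this
  have hq1 : q ≤ 1 := hqθ.trans (min_le_left _ _)
  have hqζ : cL * q ≤ ζ / 4 := by
    have := (le_div_iff₀ (by positivity)).1 (hqθ.trans ((min_le_right _ _).trans (min_le_left _ _)))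
    linarith
  have hqr : cL * q ≤ r0 * δ / 8 := by
    have := (le_div_iff₀ (by positivity)).1 (hqθ.trans ((min_le_right _ _).trans (min_le_right _ _)))
    linarith
  set E1 := ∫ c, gEnt t L (gb c.2) ∂ν
  set E2 := ∫ y, hEnt t L y ∂ρ
  have hEb : |E1| ≤ 2 * L + 1 := by
    have h := norm_integral_le_of_norm_le_const (μ := ν) (f := fun c => gEnt t L (gb c.2)) (C := 2 * L + 1)
      (Filter.Eventually.of_forall fun c => (gEnt_bound (by linarith) ht0 ht1 _).1)
    simpa [Real.norm_eq_abs] using h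
  obtain ⟨iq, iψ⟩ := integrable_value d (t := t) (show 0 ≤ L by linarith) ht0 ht1
  set Ec := ∫ c, (ub c + gVal t L (gb c.2)) ∂ν
  set Eh := ∫ y, hVal t L y ∂ρ
  -- quadratic penalty constants
  set Cb := 16 * C2 / s ^ 2
  set O1 := Cb * (2 * (lam + 2) * (2 * L + 1) ^ 2)
  set C3 := (3 * L + 1) * (1 / δ' + (lam + 1) / δ' ^ 2) + |q * C1|
  have hev : ∀ᶠ N : ℕ in atTop, 24 / ζ + 24 / (r0 * δ) + (log 4 + log 48 / q + O1 + C3 * lam) / δ + 1 ≤ (N:ℝ) :=
    tendsto_natCast_atTop_atTop.eventually (eventually_ge_atTop _)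
  filter_upwards [hev, eventually_gt_atTop 0] with N hN hN0
  have : NeZero N := ⟨hN0.ne'⟩
  have hN' : (0:ℝ) < N := by exact_mod_cast hN0
  have hp1 : 0 ≤ 24 / ζ := by positivity
  have hp2 : 0 ≤ 24 / (r0 * δ) := by positivity
  have hlog48 : 0 ≤ log 48 / q := div_nonneg (log_nonneg (by norm_num)) hq0.le
  have hlog4 : 0 ≤ log 4 := log_nonneg (by norm_num)
  have hO1 : 0 ≤ O1 := by positivity
  have hC30 : 0 ≤ C3 := by positivity
  have hp3 : 0 ≤ (log 4 + log 48 / q + O1 + C3 * lam) / δ := by positivity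
  have hNζ : 24 ≤ ζ * N := by
    have := mul_le_mul_of_nonneg_left (show 24 / ζ ≤ N by linarith) hζ.le
    rwa [mul_div_cancel₀ _ hζ.ne'] at this
  have hNr : 24 ≤ r0 * δ * N := by
    have := mul_le_mul_of_nonneg_left (show 24 / (r0 * δ) ≤ N by linarith) (mul_pos hr0 hδ).le
    rwa [mul_div_cancel₀ _ (mul_pos hr0 hδ).ne'] at this
  have hNc : log 4 + log 48 / q + O1 + C3 * lam ≤ δ * N := by
    have := mul_le_mul_of_nonneg_left (show (log 4 + log 48 / q + O1 + C3 * lam) / δ ≤ N by linarith) hδ.le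
    rwa [mul_div_cancel₀ _ hδ.ne'] at this
  set aη := cL * (1 + 5 / q) + C2 / q with haη
  set Bc := δ * N + log 4 + log 48 / q + O1
  have main := pressure_ge (N := N) (K := K) d (lam := lam) (A := Ec - q * C1)
    (B := N * Eh - Bc - N * (aη * (lam + 1) * θ)) (C := C3 / N) hlam ?_
  · refine le_trans ?_ main
    have hθq : aη * θ ≤ q * (6 * cL + C2) := by
      rw [haη, ← hqq]
      have e : (cL * (1 + 5 / q) + C2 / q) * (q * q) = cL * q * q + (5 * cL + C2) * q := by field_simp; ring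
      rw [e]
      have := mul_le_mul_of_nonneg_left hq1 (mul_nonneg (show 0 ≤ cL by linarith) hq0.le)
      linarith
    have e2 : (Ec - q * C1) * lam + (N * Eh - Bc - N * (aη * (lam + 1) * θ) - C3 / N * (lam * N)) / N =
        lam * Ec + Eh - q * C1 * lam - aη * θ * (lam + 1) - (Bc + C3 * lam) / N := by
      field_simp; ring
    rw [e2]
    have h1 : (Bc + C3 * lam) / N ≤ 2 * δ := by
      rw [div_le_iff₀ hN']; simp only [Bc]; linarith
    have h2 := mul_le_mul_of_nonneg_right hθq (show 0 ≤ lam + 1 by linarith)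
    have h3 : 0 ≤ q * C1 := by positivity
    show lam * Ec + Eh - 2 * δ - C * q ≤ _
    simp only [C]
    linarith
  intro M
  set Lam := clauseLaw ν η K
  set X := fun (h : Fin N → ℝ) (w : Fin M → Clause K) =>
    ∑ x, hVal t L (h x) + ∑ k, (ub (w k).1 + gVal t L (gb (w k).1.2))
  set Hs := fun w : Fin M → Clause K => ∑ k, ∏ j, slotS ε ((w k).2 j)
  set Dv := fun (h : Fin N → ℝ) (w : Fin M → Clause K) =>
    ∑ x, hEnt t L (h x) + ∑ k, gEnt t L (gb (w k).1.2) - ((N:ℝ) * E2 + M * E1)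
  have hHs0 : ∀ w, 0 ≤ Hs w := fun w => sum_nonneg fun k _ => prod_nonneg fun j _ => by
    unfold slotS; split <;> linarith
  have hpmw : ∀ᵐ w ∂Measure.pi (fun _ : Fin M => Lam), ∀ k, PM (w k) := by
    have h1 : ∀ᵐ c ∂Lam, PM c := Measure.quasiMeasurePreserving_snd.ae (ae_all_iff.2 fun j =>
      (Measure.tendsto_eval_ae_ae (μ := fun _ : Fin K => η) (i := j)).eventually hpm)
    exact ae_all_iff.2 fun k => (Measure.tendsto_eval_ae_ae (μ := fun _ : Fin M => Lam) (i := k)).eventually h1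
  -- integrals of the linear parts
  have hq' := d.base (K := K) iq
  have hX1 := integral_sum_eval ρ iψ N
  have hX2 := integral_sum_eval Lam hq'.1 M
  have iX : Integrable (fun p : (Fin N → ℝ) × (Fin M → Clause K) => X p.1 p.2)
      ((Measure.pi fun _ => ρ).prod (Measure.pi fun _ => Lam)) := (hX1.1.comp_fst _).add (hX2.1.comp_snd _)
  have eX : ∫ p, X p.1 p.2 ∂((Measure.pi fun _ : Fin N => ρ).prod (Measure.pi fun _ : Fin M => Lam)) =
      N * Eh + M * Ec := by
    simp only [X]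
    rw [integral_add (hX1.1.comp_fst _) (hX2.1.comp_snd _), integral_fun_fst (fun h : Fin N → ℝ => ∑ x, hVal t L (h x)),
      integral_fun_snd (fun w : Fin M → Clause K => ∑ k, (ub (w k).1 + gVal t L (gb (w k).1.2))), hX1.2, hX2.2, hq'.2]
    simp [Ec, Eh]
  by_cases hwin : |(M:ℝ) - lam * N| ≤ δ' * N
  swap
  · -- atypical number of clauses
    push Not at hwin
    classical
    refine ⟨fun h w => if ∀ k, PM (w k) then X h w - (M + N) * (3 * L + 1)
        else av (fun i => logZ h w i), fun h w hw => ?_, ?_⟩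
    · simp only
      split_ifs with hp
      · exact (parity_pointwise (ε := ε) (δ := δ) (a := q) (by linarith) ht0 ht1 h hw hp).1
      · exact le_rfl
    have hae : (fun p : (Fin N → ℝ) × (Fin M → Clause K) => X p.1 p.2 - ((M:ℝ) + N) * (3 * L + 1))
        =ᵐ[(Measure.pi fun _ => ρ).prod (Measure.pi fun _ => Lam)]
        fun p => if ∀ k, PM (p.2 k) then X p.1 p.2 - (M + N) * (3 * L + 1) else av (fun i => logZ p.1 p.2 i) :=
      (Measure.quasiMeasurePreserving_snd.ae hpmw).mono fun p hp => by simp [hp]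
    refine ⟨(iX.sub (integrable_const _)).congr hae, ?_⟩
    rw [← integral_congr_ae hae, integral_sub iX (integrable_const _), eX]
    simp only [integral_const, probReal_univ, one_smul]
    have hl := mul_le_mul_of_nonneg_right (tail_linear hN' hδ' hlam hwin) (show 0 ≤ 3 * L + 1 by linarith)
    have hC1 : 0 ≤ q * C1 * M := by positivity
    have hBc : 0 ≤ Bc + N * (aη * (lam + 1) * θ) := by
      have : 0 ≤ aη := by rw [haη]; positivity
      positivity
    have e : C3 / N * ((M:ℝ) - lam * N) ^ 2 =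
        ((M:ℝ) - lam * N) ^ 2 / N * (1 / δ' + (lam + 1) / δ' ^ 2) * (3 * L + 1) +
        |q * C1| * (((M:ℝ) - lam * N) ^ 2 / N) := by simp only [C3]; ring
    have : 0 ≤ |q * C1| * (((M:ℝ) - lam * N) ^ 2 / N) := by positivity
    linarith
  -- typical number of clauses
  have hM := abs_le.1 hwin
  have hMN : (M:ℝ) + N ≤ (lam + 2) * N := by
    have := mul_le_mul_of_nonneg_right hδ'1 hN'.le
    linarith
  set bD := Cb / N
  set P := fun (h : Fin N → ℝ) (w : Fin M → Clause K) =>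
    X h w - δ * N - log 4 - log 48 / q - M * q * C1 - aη * Hs w - bD * Dv h w ^ 2
  classical
  refine ⟨fun h w => if ∀ k, PM (w k) then P h w else av (fun i => logZ h w i), fun h w hw => ?_, ?_⟩
  · simp only
    split_ifs with hp
    swap
    · exact le_rfl
    obtain ⟨hcrude, hfine⟩ := parity_pointwise (ε := ε) (δ := δ) (a := q) (L := L) (by linarith) ht0 ht1 h hw hp
    have ha0 : 0 ≤ aη * Hs w := by have := hHs0 w; rw [haη]; positivity
    have hb0 : 0 ≤ bD * Dv h w ^ 2 := by positivity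
    have hMq : 0 ≤ (M:ℝ) * q * C1 := by positivity
    have hcr : ((M:ℝ) + N) * (3 * L + 1) ≤ C2 * N := by
      refine (mul_le_mul_of_nonneg_right hMN (by linarith)).trans (le_of_eq ?_)
      simp only [C2]; ring
    by_cases hH : Hs w ≤ q * N
    swap
    · push Not at hH
      have h1 : C2 * N ≤ aη * Hs w := by
        have h2 : C2 / q * (q * N) ≤ C2 / q * Hs w := mul_le_mul_of_nonneg_left hH.le (by positivity)
        have h3 : C2 / q * (q * N) = C2 * N := by field_simp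
        have h4 : 0 ≤ cL * (1 + 5 / q) * Hs w := by have := hHs0 w; positivity
        rw [haη]; linarith
      simp only [P]
      linarith [show (0:ℝ) ≤ δ * N by positivity]
    by_cases hD : |Dv h w| ≤ s / 4 * N
    swap
    · push Not at hD
      have h1 : C2 * N ≤ bD * Dv h w ^ 2 := by
        have h2 : (s / 4 * N) ^ 2 ≤ Dv h w ^ 2 := by
          rw [← sq_abs (Dv h w)]; exact pow_le_pow_left₀ (by positivity) hD.le 2
        refine le_trans (le_of_eq ?_) (mul_le_mul_of_nonneg_left h2 (by positivity))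
        simp only [bD, Cb]; field_simp; ring
      simp only [P]
      linarith [show (0:ℝ) ≤ δ * N by positivity]
    -- good event
    have hW := window_of_good h hp hL ht0 ht1 hε hε1 hs hs' hδ hδs hεL hr0 hrL hr2 hEb hδ's hwin hMN hqζ hqr
      hNζ hNr hH hD
    refine le_trans ?_ (hfine hδ hq0 hq1 hW)
    have e2 : (5 * (cL * Hs w) + log 48) / q = cL * (5 / q) * Hs w + log 48 / q := by ring
    have : 0 ≤ C2 / q * Hs w := by have := hHs0 w; positivity
    simp only [P]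
    show _ ≤ X h w - δ * N - log 4 - cL * Hs w - (5 * (cL * Hs w) + log 48) / q - M * q * C1
    rw [e2, haη]
    linarith
  have iHs : Integrable (fun c : Clause K => ∏ j, slotS ε (c.2 j)) Lam ∧
      ∫ c, ∏ j, slotS ε (c.2 j) ∂Lam = (∫ p, slotS ε p ∂η) ^ K := by
    refine ⟨?_, d.slots (slotS ε)⟩
    refine Integrable.of_bound (Finset.measurable_prod _ fun j _ => (measurable_slotS ε).comp
      ((measurable_pi_apply j).comp measurable_snd)).aestronglyMeasurable 1 (Filter.Eventually.of_forall fun c => ?_)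
    rw [Real.norm_eq_abs, abs_prod]
    refine prod_le_one (fun j _ => abs_nonneg _) fun j _ => ?_
    unfold slotS; split <;> simp [abs_of_nonneg (by linarith : (0:ℝ) ≤ 1 - ε)] <;> linarith
  have hH2 := integral_sum_eval Lam iHs.1 M
  have hD2 := two_sums_sq ρ Lam (e := hEnt t L) (f := fun c : Clause K => gEnt t L (gb c.1.2)) (by fun_prop)
    (by fun_prop) (C := 2 * L + 1) (fun a => (gEnt_bound (by linarith) ht0 ht1 a).2)
    (fun a => (gEnt_bound (by linarith) ht0 ht1 _).1) N M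
  have eE1 : ∫ c : Clause K, gEnt t L (gb c.1.2) ∂Lam = E1 := by
    refine (d.base (K := K) (e := fun c => gEnt t L (gb c.2)) ?_).2
    exact Integrable.of_bound (Measurable.aestronglyMeasurable (by fun_prop)) (2 * L + 1) (Filter.Eventually.of_forall fun c =>
      (gEnt_bound (by linarith) ht0 ht1 _).1)
  rw [eE1] at hD2
  have iP : Integrable (fun p : (Fin N → ℝ) × (Fin M → Clause K) => P p.1 p.2)
      ((Measure.pi fun _ => ρ).prod (Measure.pi fun _ => Lam)) :=
    ((((iX.sub (integrable_const _)).sub (integrable_const _)).sub (integrable_const _)).sub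
      (integrable_const _)).sub ((hH2.1.comp_snd _).const_mul aη) |>.sub (hD2.1.const_mul bD)
  have hae : (fun p : (Fin N → ℝ) × (Fin M → Clause K) => P p.1 p.2)
      =ᵐ[(Measure.pi fun _ => ρ).prod (Measure.pi fun _ => Lam)]
      fun p => if ∀ k, PM (p.2 k) then P p.1 p.2 else av (fun i => logZ p.1 p.2 i) :=
    (Measure.quasiMeasurePreserving_snd.ae hpmw).mono fun p hp => by simp [hp]
  refine ⟨iP.congr hae, ?_⟩
  rw [← integral_congr_ae hae]
  have iA : Integrable (fun p : (Fin N → ℝ) × (Fin M → Clause K) =>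
      X p.1 p.2 - δ * N - log 4 - log 48 / q - M * q * C1 - aη * Hs p.2)
      ((Measure.pi fun _ => ρ).prod (Measure.pi fun _ => Lam)) :=
    ((((iX.sub (integrable_const _)).sub (integrable_const _)).sub (integrable_const _)).sub
      (integrable_const _)).sub ((hH2.1.comp_snd _).const_mul aη)
  have iB := hD2.1.const_mul bD
  have eP : ∫ p, P p.1 p.2 ∂((Measure.pi fun _ : Fin N => ρ).prod (Measure.pi fun _ : Fin M => Lam)) =
      (∫ p, (X p.1 p.2 - δ * N - log 4 - log 48 / q - M * q * C1 - aη * Hs p.2)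
        ∂((Measure.pi fun _ : Fin N => ρ).prod (Measure.pi fun _ : Fin M => Lam))) -
      ∫ p, bD * Dv p.1 p.2 ^ 2 ∂((Measure.pi fun _ : Fin N => ρ).prod (Measure.pi fun _ : Fin M => Lam)) :=
    integral_sub iA iB
  rw [eP, integral_const_mul]
  have eA : ∫ p, (X p.1 p.2 - δ * N - log 4 - log 48 / q - M * q * C1 - aη * Hs p.2)
      ∂((Measure.pi fun _ : Fin N => ρ).prod (Measure.pi fun _ : Fin M => Lam)) =
      N * Eh + M * Ec - δ * N - log 4 - log 48 / q - M * q * C1 - aη * (M * (∫ p, slotS ε p ∂η) ^ K) := by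
    rw [affine_integral _ _ iX hH2.1 (δ * N) (log 4) (log 48 / q) (M * q * C1) aη, eX, hH2.2, iHs.2]
  rw [eA]
  have haη0 : 0 ≤ aη := by rw [haη]; positivity
  have hM1 : (M:ℝ) ≤ (lam + 1) * N := by
    have := mul_le_mul_of_nonneg_right hδ'1 hN'.le
    linarith
  have hS0 : 0 ≤ ∫ p, slotS ε p ∂η := integral_nonneg fun p => by simp only [Pi.zero_apply]; unfold slotS; split <;> linarith
  have t1 : aη * ((M:ℝ) * (∫ p, slotS ε p ∂η) ^ K) ≤ aη * ((lam + 1) * N * θ) :=
    mul_le_mul_of_nonneg_left (mul_le_mul hM1 hθK (pow_nonneg hS0 K) (by positivity)) haη0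
  have t2 : bD * (∫ p, Dv p.1 p.2 ^ 2 ∂((Measure.pi fun _ : Fin N => ρ).prod (Measure.pi fun _ : Fin M => Lam))) ≤ O1 := by
    refine (mul_le_mul_of_nonneg_left (hD2.2.trans (mul_le_mul_of_nonneg_right
      (mul_le_mul_of_nonneg_left ((add_comm _ _).trans_le hMN) zero_le_two) (sq_nonneg _))) (by positivity)).trans (le_of_eq ?_)
    simp only [bD, O1]; field_simp
  have t3 : 0 ≤ C3 / N * ((M:ℝ) - lam * N) ^ 2 := by positivity
  simp only [Bc]
  linarith

end Vale.Agent.P168
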