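import Vale.Agent.P168.TrialValues
import Vale.Agent.P168.Flat
import Vale.Agent.P168.Typical

open MeasureTheory ProbabilityTheory Real Finset Filter
open scoped Topology

namespace Vale.Agent.P168

variable {K N : ℕ} {ν η : Measure (ℝ × ℝ)} {ρ : Measure ℝ}

/-- unclipped entropy at parameter `t` -/
noncomputable def entLim (ν : Measure (ℝ × ℝ)) (ρ : Measure ℝ) (lam t : ℝ) : ℝ :=
  lam * ∫ c, (log (cosh (t * gb c.2)) - t * (gb c.2 * tanh (t * gb c.2))) ∂ν +
    ∫ y, (log (2 * cosh (t * y)) - t * (y * tanh (t * y))) ∂ρ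

/-- unclipped value at parameter `t` -/
noncomputable def valLim (ν : Measure (ℝ × ℝ)) (ρ : Measure ℝ) (lam t : ℝ) : ℝ :=
  lam * ∫ c, (ub c + (log (cosh (t * gb c.2)) + (1 - t) * (gb c.2 * tanh (t * gb c.2)))) ∂ν +
    ∫ y, (log (2 * cosh (t * y)) + (1 - t) * (y * tanh (t * y))) ∂ρ

lemma test_bound {t : ℝ} (ht0 : 0 ≤ t) (ht1 : t ≤ 1) (x : ℝ) :
    |log (cosh (t * x))| ≤ |x| ∧ |log (2 * cosh (t * x))| ≤ |x| + 1 ∧ |t * (x * tanh (t * x))| ≤ |x| ∧
      |(1 - t) * (x * tanh (t * x))| ≤ |x| := by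
  obtain ⟨a, b⟩ := log_two_cosh_bound (t * x)
  rw [abs_mul, abs_of_nonneg ht0] at b
  have hb : t * |x| ≤ |x| := mul_le_of_le_one_left (abs_nonneg x) ht1
  have hx : |x * tanh (t * x)| ≤ |x| := by
    rw [abs_mul]; exact mul_le_of_le_one_right (abs_nonneg x) (abs_tanh_lt_one _).le
  have l2 := log_le_sub_one_of_pos (two_pos : (0:ℝ) < 2)
  have l0 := log_nonneg (one_le_two : (1:ℝ) ≤ 2)
  refine ⟨?_, ?_, ?_, ?_⟩
  · rw [abs_of_nonneg a]; linarith
  · rw [log_mul two_ne_zero (cosh_pos _).ne', abs_of_nonneg (by linarith)]; linarith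
  · rw [abs_mul, abs_of_nonneg ht0]; exact (mul_le_of_le_one_left (abs_nonneg _) ht1).trans hx
  · rw [abs_mul, abs_of_nonneg (by linarith : (0:ℝ) ≤ 1 - t)]
    exact (mul_le_of_le_one_left (abs_nonneg _) (by linarith)).trans hx

lemma integrable_majorant (d : Disorder ν η ρ) :
    Integrable (fun c : ℝ × ℝ => |ub c| + 4 * |gb c.2| + 1) ν ∧ Integrable (fun y : ℝ => 4 * |y| + 1) ρ := by
  have := d.pν; have := d.pρ
  have ih : Integrable (fun y : ℝ => |y|) ρ := by simpa using d.hh.abs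
  exact ⟨((integrable_ub d).abs.add ((integrable_gb d).abs.const_mul 4)).add (integrable_const 1),
    (ih.const_mul 4).add (integrable_const 1)⟩

lemma integrable_tests (d : Disorder ν η ρ) {t : ℝ} (ht0 : 0 ≤ t) (ht1 : t ≤ 1) :
    Integrable (fun c : ℝ × ℝ => gb c.2 * tanh (t * gb c.2)) ν ∧
    Integrable (fun y : ℝ => y * tanh (t * y)) ρ := by
  have := d.pν; have := d.pρ
  refine ⟨(integrable_majorant d).1.mono' (by fun_prop : Measurable _).aestronglyMeasurable
      (Eventually.of_forall fun c => ?_),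
    (integrable_majorant d).2.mono' (by fun_prop : Measurable _).aestronglyMeasurable
      (Eventually.of_forall fun y => ?_)⟩
  · rw [Real.norm_eq_abs, abs_mul]
    linarith [mul_le_of_le_one_right (abs_nonneg (gb c.2)) (abs_tanh_lt_one (t * gb c.2)).le,
      abs_nonneg (ub c), abs_nonneg (gb c.2)]
  · rw [Real.norm_eq_abs, abs_mul]
    linarith [mul_le_of_le_one_right (abs_nonneg y) (abs_tanh_lt_one (t * y)).le, abs_nonneg y]

lemma continuousOn_lim (d : Disorder ν η ρ) (lam : ℝ) :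
    ContinuousOn (entLim ν ρ lam) (Set.Icc 0 1) ∧ ContinuousOn (valLim ν ρ lam) (Set.Icc 0 1) := by
  obtain ⟨m1, m2⟩ := integrable_majorant d
  have hc : ∀ y : ℝ, Continuous fun t : ℝ => log (cosh (t * y)) := fun y =>
    (Real.continuous_cosh.comp (continuous_id.mul continuous_const)).log fun t => (cosh_pos _).ne'
  have hc2 : ∀ y : ℝ, Continuous fun t : ℝ => log (2 * cosh (t * y)) := fun y =>
    (continuous_const.mul (Real.continuous_cosh.comp (continuous_id.mul continuous_const))).log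
      fun t => (mul_pos two_pos (cosh_pos _)).ne'
  have hmeas : ∀ t, Measurable (fun y : ℝ => log (cosh (t * y))) ∧ Measurable (fun y : ℝ => log (2 * cosh (t * y))) :=
    fun t => ⟨Real.measurable_log.comp (by fun_prop), Real.measurable_log.comp (by fun_prop)⟩
  constructor
  · refine (continuousOn_const.mul ?_).add ?_
    · refine continuousOn_of_dominated (fun t _ => ((((hmeas t).1.comp (measurable_gb.comp measurable_snd)).sub
        (by fun_prop)) : Measurable _).aestronglyMeasurable) (fun t ht => Eventually.of_forall fun c => ?_) m1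
        (Eventually.of_forall fun c => ((hc _).sub (by fun_prop)).continuousOn)
      obtain ⟨a, -, b, -⟩ := test_bound ht.1 ht.2 (gb c.2)
      rw [Real.norm_eq_abs]; refine (abs_sub _ _).trans ?_
      linarith [abs_nonneg (ub c), abs_nonneg (gb c.2)]
    · refine continuousOn_of_dominated (fun t _ => (((hmeas t).2.sub
        (by fun_prop)) : Measurable _).aestronglyMeasurable) (fun t ht => Eventually.of_forall fun y => ?_) m2
        (Eventually.of_forall fun y => ((hc2 _).sub (by fun_prop)).continuousOn)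
      obtain ⟨-, a, b, -⟩ := test_bound ht.1 ht.2 y
      rw [Real.norm_eq_abs]; refine (abs_sub _ _).trans ?_
      linarith [abs_nonneg y]
  · refine (continuousOn_const.mul ?_).add ?_
    · refine continuousOn_of_dominated (fun t _ => ((measurable_ub.add
        (((hmeas t).1.comp (measurable_gb.comp measurable_snd)).add (by fun_prop))) : Measurable _).aestronglyMeasurable)
        (fun t ht => Eventually.of_forall fun c => ?_) m1
        (Eventually.of_forall fun c => (continuous_const.add ((hc _).add (by fun_prop))).continuousOn)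
      obtain ⟨a, -, -, b⟩ := test_bound ht.1 ht.2 (gb c.2)
      rw [Real.norm_eq_abs]; refine (abs_add_le _ _).trans ((add_le_add le_rfl (abs_add_le _ _)).trans ?_)
      linarith [abs_nonneg (gb c.2)]
    · refine continuousOn_of_dominated (fun t _ => (((hmeas t).2.add
        (by fun_prop)) : Measurable _).aestronglyMeasurable) (fun t ht => Eventually.of_forall fun y => ?_) m2
        (Eventually.of_forall fun y => ((hc2 _).add (by fun_prop)).continuousOn)
      obtain ⟨-, a, -, b⟩ := test_bound ht.1 ht.2 y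
      rw [Real.norm_eq_abs]; refine (abs_add_le _ _).trans ?_
      linarith [abs_nonneg y]

/-- one-step value of the sign trial at `m` versus the value at parameter `t` -/
lemma val_gap (d : Disorder ν η ρ) (lam : ℝ) {t : ℝ} (ht : 0 < t) (ht1 : t ≤ 1) :
    (∫ y, log (2 * cosh (t * y)) ∂ρ) / t + lam * (∫ c, ub c ∂ν + (∫ c, log (cosh (t * gb c.2)) ∂ν) / t) -
      valLim ν ρ lam t = (1 - t) / t * entLim ν ρ lam t := by
  obtain ⟨iA', iB'⟩ := integrable_tests d ht.le ht1
  have iA := integrable_log_cosh d t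
  have iB := integrable_log_two_cosh d t
  unfold valLim entLim
  rw [integral_add (g := fun c : ℝ × ℝ => log (cosh (t * gb c.2)) + (1 - t) * (gb c.2 * tanh (t * gb c.2)))
      (integrable_ub d) (iA.add (iA'.const_mul _)), integral_add iA (iA'.const_mul _),
    integral_add iB (iB'.const_mul _), integral_sub iA (iA'.const_mul _), integral_sub iB (iB'.const_mul _),
    integral_const_mul, integral_const_mul, integral_const_mul, integral_const_mul]
  field_simp; ring

/-- choice of the parameters -/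
lemma exists_params (d : Disorder ν η ρ) (lam : ℝ) {e : ℝ} (he : 0 < e) :
    ∃ t m : ℝ, 0 ≤ t ∧ t ≤ 1 ∧ 0 < m ∧ m < 1 ∧ 0 < entLim ν ρ lam t ∧
      (∫ y, log (2 * cosh (m * y)) ∂ρ) / m + lam * (∫ c, ub c ∂ν + (∫ c, log (cosh (m * gb c.2)) ∂ν) / m) ≤
        valLim ν ρ lam t + e := by
  have := d.pρ
  obtain ⟨cS, cT⟩ := continuousOn_lim d lam
  have h0 : 0 < entLim ν ρ lam 0 := by
    unfold entLim; simp; exact log_pos one_lt_two
  set R := fun m : ℝ =>
    (∫ y, log (2 * cosh (m * y)) ∂ρ) / m + lam * (∫ c, ub c ∂ν + (∫ c, log (cosh (m * gb c.2)) ∂ν) / m)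
  by_cases hz : ∃ t ∈ Set.Ico (0:ℝ) 1, entLim ν ρ lam t ≤ 0
  · obtain ⟨t0, ht0, hs0⟩ := hz
    set Z := {t ∈ Set.Icc (0:ℝ) 1 | entLim ν ρ lam t ≤ 0}
    have hne : Z.Nonempty := ⟨t0, ⟨ht0.1, ht0.2.le⟩, hs0⟩
    have hcpt : IsCompact Z := IsCompact.of_isClosed_subset isCompact_Icc
      (cS.preimage_isClosed_of_isClosed isClosed_Icc isClosed_Iic) fun t ht => ht.1
    obtain ⟨ts, hts, hleast⟩ := hcpt.exists_isLeast hne
    have hts1 : ts < 1 := lt_of_le_of_lt (hleast ⟨⟨ht0.1, ht0.2.le⟩, hs0⟩) ht0.2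
    have hts0 : 0 < ts := by
      rcases hts.1.1.eq_or_lt with h | h
      · rw [← h] at hts; linarith [hts.2]
      · exact h
    obtain ⟨δ, hδ, hδ'⟩ := Metric.continuousWithinAt_iff.1 (cT ts hts.1) e he
    set t := max (ts - δ / 2) 0
    have ht : 0 ≤ t ∧ t < ts := ⟨le_max_right _ _, max_lt (by linarith) hts0⟩
    refine ⟨t, ts, ht.1, by linarith [ht.2], hts0, hts1, ?_, ?_⟩
    · by_contra hc
      linarith [hleast ⟨⟨ht.1, by linarith [ht.2]⟩, not_lt.1 hc⟩, ht.2]
    · have hd : dist t ts < δ := by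
        rw [Real.dist_eq, abs_lt]; exact ⟨by linarith [le_max_left (ts - δ / 2) 0], by linarith [ht.2]⟩
      have := (abs_lt.1 (hδ' (x := t) ⟨ht.1, by linarith [ht.2]⟩ hd)).1
      have hg := val_gap d lam hts0 hts1.le
      have : (1 - ts) / ts * entLim ν ρ lam ts ≤ 0 :=
        mul_nonpos_of_nonneg_of_nonpos (div_nonneg (by linarith) hts0.le) hts.2
      show R ts ≤ _
      linarith
  · push Not at hz
    have hcont : ContinuousWithinAt (fun t => (1 - t) / t * entLim ν ρ lam t) (Set.Icc 0 1) 1 :=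
      ((continuousWithinAt_const.sub continuousWithinAt_id).div continuousWithinAt_id one_ne_zero).mul
        (cS 1 ⟨zero_le_one, le_rfl⟩)
    obtain ⟨δ, hδ, hδ'⟩ := Metric.continuousWithinAt_iff.1 hcont e he
    set t := max (1 - δ / 2) (1 / 2)
    have ht : 1 / 2 ≤ t ∧ t < 1 := ⟨le_max_right _ _, max_lt (by linarith) (by norm_num)⟩
    refine ⟨t, t, by linarith [ht.1], ht.2.le, by linarith [ht.1], ht.2, hz t ⟨by linarith [ht.1], ht.2⟩, ?_⟩
    have hd : dist t 1 < δ := by
      rw [Real.dist_eq, abs_lt]; exact ⟨by linarith [le_max_left (1 - δ / 2) (1 / 2)], by linarith [ht.2]⟩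
    have h1 := hδ' (x := t) ⟨by linarith [ht.1], ht.2.le⟩ hd
    rw [Real.dist_eq] at h1
    simp only [sub_self, zero_div, zero_mul, sub_zero] at h1
    have hg := val_gap d lam (t := t) (by linarith [ht.1]) ht.2.le
    linarith [(abs_lt.1 h1).2]

lemma clip_eventually (x : ℝ) : ∀ᶠ n : ℕ in atTop, clip ((n:ℝ) + 1) x = x := by
  filter_upwards [eventually_ge_atTop ⌈|x|⌉₊] with n hn
  exact clip_of_le (by linarith [(Nat.le_ceil |x|).trans (Nat.cast_le.2 hn)])

lemma clipped_limit (d : Disorder ν η ρ) (lam : ℝ) {t : ℝ} (ht0 : 0 ≤ t) (ht1 : t ≤ 1) :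
    Tendsto (fun n : ℕ => entMean ν ρ lam t ((n:ℝ) + 1)) atTop (𝓝 (entLim ν ρ lam t)) ∧
    Tendsto (fun n : ℕ => winValue ν ρ lam t ((n:ℝ) + 1)) atTop (𝓝 (valLim ν ρ lam t)) ∧
    Tendsto (fun n : ℕ => ∫ y, hVal 1 ((n:ℝ) + 1) y ∂ρ) atTop (𝓝 (∫ y, log (2 * cosh y) ∂ρ)) := by
  obtain ⟨m1, m2⟩ := integrable_majorant d
  have hL : ∀ n : ℕ, (0:ℝ) ≤ n + 1 := fun n => by positivity
  have bd : ∀ (s : ℝ), 0 ≤ s → s ≤ 1 → ∀ (n : ℕ) (x : ℝ), |gEnt s ((n:ℝ) + 1) x| ≤ 2 * |x| ∧
      |hEnt s ((n:ℝ) + 1) x| ≤ 2 * |x| + 1 ∧ |gVal s ((n:ℝ) + 1) x| ≤ 4 * |x| ∧ |hVal s ((n:ℝ) + 1) x| ≤ 4 * |x| + 1 := by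
    intro s hs0 hs1 n x
    obtain ⟨a, a2, b, c⟩ := test_bound hs0 hs1 (clip ((n:ℝ) + 1) x)
    have h := abs_clip_le_abs (hL n) x
    have h2 : |x - clip ((n:ℝ) + 1) x| ≤ 2 * |x| := by linarith [abs_sub x (clip ((n:ℝ) + 1) x)]
    unfold gEnt hEnt gVal hVal
    refine ⟨(abs_sub _ _).trans (by linarith), (abs_sub _ _).trans (by linarith),
      (abs_sub _ _).trans ?_, (abs_sub _ _).trans ?_⟩
    · rw [abs_abs]; linarith [abs_add_le (log (cosh (s * clip ((n:ℝ) + 1) x)))
        ((1 - s) * (clip ((n:ℝ) + 1) x * tanh (s * clip ((n:ℝ) + 1) x)))]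
    · rw [abs_abs]; linarith [abs_add_le (log (2 * cosh (s * clip ((n:ℝ) + 1) x)))
        ((1 - s) * (clip ((n:ℝ) + 1) x * tanh (s * clip ((n:ℝ) + 1) x)))]
  refine ⟨(Tendsto.const_mul lam ?_).add ?_, (Tendsto.const_mul lam ?_).add ?_, ?_⟩
  · refine tendsto_integral_of_dominated_convergence _ (fun n => ((measurable_gEnt _ _).comp
      (measurable_gb.comp measurable_snd)).aestronglyMeasurable) m1 (fun n => Eventually.of_forall fun c => ?_)
      (Eventually.of_forall fun c => tendsto_nhds_of_eventually_eq ((clip_eventually (gb c.2)).mono fun n hn => by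
        simp only [gEnt, hn]))
    rw [Real.norm_eq_abs]; linarith [(bd t ht0 ht1 n (gb c.2)).1, abs_nonneg (ub c), abs_nonneg (gb c.2)]
  · refine tendsto_integral_of_dominated_convergence _ (fun n => (measurable_hEnt _ _).aestronglyMeasurable) m2
      (fun n => Eventually.of_forall fun y => ?_)
      (Eventually.of_forall fun y => tendsto_nhds_of_eventually_eq ((clip_eventually y).mono fun n hn => by
        simp only [hEnt, hn]))
    rw [Real.norm_eq_abs]; linarith [(bd t ht0 ht1 n y).2.1, abs_nonneg y]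
  · refine tendsto_integral_of_dominated_convergence _ (fun n => (measurable_ub.add ((measurable_gVal _ _).comp
      (measurable_gb.comp measurable_snd))).aestronglyMeasurable) m1 (fun n => Eventually.of_forall fun c => ?_)
      (Eventually.of_forall fun c => tendsto_nhds_of_eventually_eq ((clip_eventually (gb c.2)).mono fun n hn => by
        simp only [gVal, hn, sub_self, abs_zero, sub_zero]))
    rw [Real.norm_eq_abs]; refine (abs_add_le _ _).trans ?_
    linarith [(bd t ht0 ht1 n (gb c.2)).2.2.1]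
  · refine tendsto_integral_of_dominated_convergence _ (fun n => (measurable_hVal _ _).aestronglyMeasurable) m2
      (fun n => Eventually.of_forall fun y => ?_)
      (Eventually.of_forall fun y => tendsto_nhds_of_eventually_eq ((clip_eventually y).mono fun n hn => by
        simp only [hVal, hn, sub_self, abs_zero, sub_zero]))
    rw [Real.norm_eq_abs]; linarith [(bd t ht0 ht1 n y).2.2.2]
  · refine tendsto_integral_of_dominated_convergence _ (fun n => (measurable_hVal _ _).aestronglyMeasurable) m2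
      (fun n => Eventually.of_forall fun y => ?_)
      (Eventually.of_forall fun y => tendsto_nhds_of_eventually_eq ((clip_eventually y).mono fun n hn => by
        simp only [hVal, hn, sub_self, abs_zero, sub_zero, zero_mul, add_zero, one_mul]))
    rw [Real.norm_eq_abs]; linarith [(bd 1 zero_le_one le_rfl n y).2.2.2]

lemma tendsto_mul_pow_pred {r : ℝ} (hr0 : 0 ≤ r) (hr : r < 1) :
    Tendsto (fun K : ℕ => (K:ℝ) * r ^ (K - 1)) atTop (𝓝 0) := by
  have h := (tendsto_self_mul_const_pow_of_lt_one hr0 hr).add (tendsto_pow_atTop_nhds_zero_of_lt_one hr0 hr)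
  rw [add_zero] at h
  refine (h.comp (tendsto_sub_atTop_nat 1)).congr' ?_
  filter_upwards [eventually_ge_atTop 1] with K hK
  simp only [Function.comp, Nat.cast_sub hK, Nat.cast_one]; ring

lemma abs_fbar_integrable (d : Disorder ν η ρ) :
    Integrable (fun p => |fbar p|) η ∧ 0 ≤ ∫ p, |fbar p| ∂η ∧ ∫ p, |fbar p| ∂η ≤ 1 := by
  have := d.pη
  have ie : Integrable (fun p => |fbar p|) η := by
    refine Integrable.of_bound (by fun_prop) 1 ?_
    filter_upwards [d.hf] with p hp
    simpa [Real.norm_eq_abs] using abs_fbar_le hp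
  refine ⟨ie, integral_nonneg fun _ => abs_nonneg _, ?_⟩
  simpa using integral_mono_ae ie (integrable_const 1) (d.hf.mono fun p hp => abs_fbar_le hp)

lemma parity_case (d : Disorder ν η ρ) (hpm : ∀ᵐ p ∂η, |p.1| = 1 ∧ |p.2| = 1) (hr : ∫ p, |fbar p| ∂η < 1)
    {lam : ℝ} (hlam : 0 ≤ lam) {e : ℝ} (he : 0 < e) :
    ∃ m : ℝ, 0 < m ∧ m < 1 ∧ ∀ᶠ K : ℕ in atTop, ∀ᶠ N : ℕ in atTop,
      depthOne ν η ρ lam K m signTrial - e ≤ pressure ν η ρ lam K N := by
  have := d.pη
  obtain ⟨t, m, ht0, ht1, hm0, hm1, hS, hRT⟩ := exists_params d lam (show 0 < e / 4 by linarith)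
  refine ⟨m, hm0, hm1, ?_⟩
  obtain ⟨hEnt', hVal', -⟩ := clipped_limit d lam ht0 ht1
  obtain ⟨n, hn1, hn2⟩ := ((hEnt'.eventually (lt_mem_nhds (half_lt_self hS))).and
    (hVal'.eventually (lt_mem_nhds (show valLim ν ρ lam t - e / 8 < valLim ν ρ lam t by linarith)))).exists
  set L := (n:ℝ) + 1
  have hL : 1 ≤ L := le_add_of_nonneg_left (Nat.cast_nonneg n)
  set s := entLim ν ρ lam t / 2 with hs
  set δ := min (s / 8) (e / 16)
  set q := min (min (s / 16) (log (1 + exp (-2 * L)) / 4)) (1 / 2)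
  have hq : 0 < q ∧ q ≤ 1 / 2 := ⟨lt_min (lt_min (by linarith) (div_pos (log_pos (by linarith [exp_pos (-2 * L)]))
    (by norm_num))) (by norm_num), min_le_right _ _⟩
  have hsq : √(q ^ 2) = q := sqrt_sq hq.1.le
  have hq2 : q ^ 2 ≤ 1 / 4 := by nlinarith
  have q1 : q ≤ s / 16 := (min_le_left _ _).trans (min_le_left _ _)
  have q2 : q ≤ log (1 + exp (-2 * L)) / 4 := (min_le_left _ _).trans (min_le_right _ _)
  have hδ : 0 < δ := lt_min (by linarith) (by linarith)
  obtain ⟨C, θ₀, hθ₀, hwin⟩ := window_lower (ν := ν) (η := η) (ρ := ρ) (lam := lam) (t := t) (L := L) (ε := q ^ 2)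
    (s := s) (δ := δ) d hpm hlam ht0 ht1 hL (pow_pos hq.1 2) (by linarith) (by linarith) hn1.le hδ
    (by rw [hsq]; linarith [min_le_left (s / 8) (e / 16)]) (by rw [hsq]; linarith)
  obtain ⟨ir, hr0, -⟩ := abs_fbar_integrable d
  set r := ∫ p, |fbar p| ∂η
  have hslot : ∫ p, slotS (q ^ 2) p ∂η = 1 - q ^ 2 * (1 - r) := by
    have : ∀ᵐ p ∂η, slotS (q ^ 2) p = 1 - q ^ 2 * (1 - |fbar p|) := hpm.mono fun p hp => by
      unfold slotS fbar
      rcases pm_mem hp.1 with h1 | h1 <;> rcases pm_mem hp.2 with h2 | h2 <;> norm_num [h1, h2]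
    rw [integral_congr_ae this, integral_sub (integrable_const _) (((integrable_const _).sub' ir).const_mul _),
      integral_const_mul, integral_sub (integrable_const _) ir]
    simp [r]
  set W := ∫ p, slotS (q ^ 2) p ∂η
  have hW : 0 < W ∧ W < 1 := by
    have u1 : 0 < q ^ 2 * (1 - r) := mul_pos (pow_pos hq.1 2) (by linarith)
    have u2 : q ^ 2 * (1 - r) ≤ q ^ 2 := mul_le_of_le_one_right (sq_nonneg _) (by linarith)
    constructor <;> linarith
  have hθ : Tendsto (fun K : ℕ => W ^ K) atTop (𝓝 0) := tendsto_pow_atTop_nhds_zero_of_lt_one hW.1.le hW.2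
  have hC : Tendsto (fun K : ℕ => C * √(W ^ K)) atTop (𝓝 0) := by
    simpa using ((Real.continuous_sqrt.tendsto 0).comp hθ).const_mul C
  have hD := (tendsto_mul_pow_pred hr0 hr).const_mul (lam * (1 / m + 2 * ∫ c, |gb c.2| ∂ν))
  rw [mul_zero] at hD
  filter_upwards [hθ.eventually (gt_mem_nhds hθ₀), hC.eventually (gt_mem_nhds (show 0 < e / 8 by linarith)),
    hD.eventually (gt_mem_nhds (show 0 < e / 8 by linarith)), eventually_ge_atTop 1] with K h1 h2 h3 hK
  have : NeZero K := ⟨by omega⟩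
  filter_upwards [hwin K (W ^ K) (pow_pos hW.1 K) h1.le le_rfl] with N hN
  have hdep := depth_sign_le (K := K) d hpm hlam hm0 hm1.le
  have hδ2 := min_le_right (s / 8) (e / 16)
  linarith

lemma flat_case (d : Disorder ν η ρ) (hp : ∫ p : ℝ × ℝ, (|p.1| + |p.2|) / 2 ∂η < 1)
    {lam : ℝ} (hlam : 0 ≤ lam) {e : ℝ} (he : 0 < e) :
    ∀ᶠ K : ℕ in atTop, ∀ᶠ N : ℕ in atTop,
      depthOne ν η ρ lam K (1 / 2) (fun _ _ => 0) - e ≤ pressure ν η ρ lam K N := by
  have := d.pη; have := d.pρ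
  obtain ⟨ir, hr0, -⟩ := abs_fbar_integrable d
  have i1 : Integrable (fun p : ℝ × ℝ => (|p.1| + |p.2|) / 2) η := by
    refine Integrable.of_bound (by fun_prop) 1 ?_
    filter_upwards [d.hf] with p hp
    rw [Real.norm_eq_abs, abs_of_nonneg (by positivity)]; linarith [hp.1, hp.2]
  set p1 := ∫ p : ℝ × ℝ, (|p.1| + |p.2|) / 2 ∂η
  have hr : ∫ p, |fbar p| ∂η < 1 := lt_of_le_of_lt (integral_mono ir i1 fun p => by
    unfold fbar; rw [abs_div, abs_two]; linarith [abs_add_le p.1 p.2]) hp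
  obtain ⟨n, hn⟩ := ((clipped_limit d lam zero_le_one le_rfl).2.2.eventually (lt_mem_nhds
    (show ∫ y, log (2 * cosh y) ∂ρ - e / 4 < ∫ y, log (2 * cosh y) ∂ρ by linarith))).exists
  set L := (n:ℝ) + 1
  have hL : 0 ≤ L := by positivity
  set ζ := log (1 + exp (-2 * L))
  have hζ : 0 < ζ := log_pos (by linarith [exp_pos (-2 * L)])
  set q := min (ζ / 4) (1 / 2)
  have hq : 0 < q ∧ q ≤ 1 / 2 := ⟨lt_min (by linarith) (by norm_num), min_le_right _ _⟩
  have hsq : √(q ^ 2) = q := sqrt_sq hq.1.le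
  set W := ∫ p, slotW (q ^ 2) p ∂η
  have hW : W = 1 - q ^ 2 * (1 - p1) := by
    have : slotW (q ^ 2) = fun p : ℝ × ℝ => 1 - q ^ 2 * (1 - (|p.1| + |p.2|) / 2) := by
      funext p; unfold slotW; ring
    rw [show W = ∫ p, slotW (q ^ 2) p ∂η from rfl, this,
      integral_sub (integrable_const _) (((integrable_const _).sub' i1).const_mul _),
      integral_const_mul, integral_sub (integrable_const _) i1]
    simp [p1]
  have hW01 : 0 ≤ W ∧ W < 1 := by
    have hp0 : 0 ≤ p1 := integral_nonneg fun p => by positivity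
    have u1 : 0 < q ^ 2 * (1 - p1) := mul_pos (pow_pos hq.1 2) (by linarith)
    have u2 : q ^ 2 * (1 - p1) ≤ q ^ 2 := mul_le_of_le_one_right (sq_nonneg _) (by linarith)
    have u3 : q ^ 2 ≤ 1 := by nlinarith
    constructor <;> linarith
  set EL := ∫ c, lam0 c ∂ν
  have hθ := (tendsto_pow_atTop_nhds_zero_of_lt_one hW01.1 hW01.2).const_mul (lam * EL)
  have hD := (tendsto_mul_pow_pred hr0 hr).const_mul (2 * lam * EL)
  rw [mul_zero] at hθ hD
  have hκ : Tendsto (fun N : ℕ => lam * EL * (2 * exp (N * (2 * √(q ^ 2)) - N * ζ))) atTop (𝓝 0) := by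
    have hb : exp (2 * q - ζ) < 1 := by
      rw [exp_lt_one_iff]; linarith [min_le_left (ζ / 4) (1 / 2)]
    have := ((tendsto_pow_atTop_nhds_zero_of_lt_one (exp_pos _).le hb).const_mul 2).const_mul (lam * EL)
    rw [mul_zero, mul_zero] at this
    refine this.congr fun N => ?_
    rw [← exp_nat_mul, hsq]; ring_nf
  filter_upwards [hθ.eventually (gt_mem_nhds (show 0 < e / 4 by linarith)),
    hD.eventually (gt_mem_nhds (show 0 < e / 4 by linarith)), eventually_ge_atTop 1] with K h1 h2 hK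
  have : NeZero K := ⟨by omega⟩
  filter_upwards [hκ.eventually (gt_mem_nhds (show 0 < e / 4 by linarith)), eventually_ge_atTop 1] with N h3 hN
  have : NeZero N := ⟨by omega⟩
  have hlow := flat_lower (N := N) (K := K) d hlam (pow_pos hq.1 2) (by nlinarith : q ^ 2 ≤ 1) hL
  have hdep := depth_zero_le (K := K) d hlam (show (0:ℝ) < 1 / 2 by norm_num)
  have hB : ∫ y, hVal 1 L y ∂ρ = ∫ y, log (2 * cosh (clip L y)) ∂ρ - ∫ y, |y - clip L y| ∂ρ := by
    rw [← integral_sub]
    · simp [hVal]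
    · refine Integrable.of_bound (Real.measurable_log.comp (by fun_prop)).aestronglyMeasurable (L + 1)
        (Eventually.of_forall fun y => ?_)
      obtain ⟨-, a, -, -⟩ := test_bound zero_le_one le_rfl (clip L y)
      rw [one_mul] at a
      rw [Real.norm_eq_abs]; linarith [abs_clip_le hL y]
    · refine (integrable_majorant d).2.mono' (by fun_prop) (Eventually.of_forall fun y => ?_)
      rw [Real.norm_eq_abs, abs_abs]
      linarith [abs_sub y (clip L y), abs_clip_le_abs hL y, abs_nonneg y]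
  linarith

/-- the main estimate -/
theorem large_arity (d : Disorder ν η ρ) {lam : ℝ} (hlam : 0 ≤ lam) {e : ℝ} (he : 0 < e) :
    ∃ (m : ℝ) (x : ℝ → ℝ → ℝ) (K₀ : ℕ), 0 < m ∧ m < 1 ∧ Measurable (Function.uncurry x) ∧
      (∀ a b, |x a b| ≤ 1) ∧
      ∀ K, K₀ ≤ K → ∀ᶠ N : ℕ in atTop, depthOne ν η ρ lam K m x - e ≤ pressure ν η ρ lam K N := by
  have := d.pη
  have i1 : Integrable (fun p : ℝ × ℝ => (|p.1| + |p.2|) / 2) η := by
    refine Integrable.of_bound (by fun_prop) 1 ?_
    filter_upwards [d.hf] with p hp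
    rw [Real.norm_eq_abs, abs_of_nonneg (by positivity)]; linarith [hp.1, hp.2]
  obtain ⟨ir, -, hr1⟩ := abs_fbar_integrable d
  rcases lt_or_ge (∫ p : ℝ × ℝ, (|p.1| + |p.2|) / 2 ∂η) 1 with hp | hp
  · obtain ⟨K₀, hK₀⟩ := eventually_atTop.1 (flat_case d hp hlam he)
    exact ⟨1 / 2, fun _ _ => 0, K₀, by norm_num, by norm_num, measurable_const, by simp, hK₀⟩
  have hpm : ∀ᵐ p ∂η, |p.1| = 1 ∧ |p.2| = 1 := by
    have hnn : 0 ≤ᵐ[η] fun p : ℝ × ℝ => 1 - (|p.1| + |p.2|) / 2 :=
      d.hf.mono fun p hp => by simp only [Pi.zero_apply]; linarith [hp.1, hp.2]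
    have hz : ∫ p : ℝ × ℝ, (1 - (|p.1| + |p.2|) / 2) ∂η = 0 := by
      refine le_antisymm ?_ (integral_nonneg_of_ae hnn)
      rw [integral_sub (integrable_const _) i1]; simp; linarith
    filter_upwards [(integral_eq_zero_iff_of_nonneg_ae hnn ((integrable_const _).sub' i1)).1 hz, d.hf] with p h hp
    simp only [Pi.zero_apply] at h
    constructor <;> linarith [hp.1, hp.2]
  rcases hr1.lt_or_eq with hr | hr
  · obtain ⟨m, hm0, hm1, hK⟩ := parity_case d hpm hr hlam he
    obtain ⟨K₀, hK₀⟩ := eventually_atTop.1 hK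
    exact ⟨m, signTrial, K₀, hm0, hm1, measurable_signTrial, abs_signTrial, hK₀⟩
  · have hq : ∀ᵐ p ∂η, p.1 = p.2 := by
      have hnn : 0 ≤ᵐ[η] fun p : ℝ × ℝ => 1 - |fbar p| :=
        d.hf.mono fun p hp => by simp only [Pi.zero_apply]; linarith [abs_fbar_le hp]
      have hz : ∫ p : ℝ × ℝ, (1 - |fbar p|) ∂η = 0 := by
        rw [integral_sub (integrable_const _) ir, hr]; simp
      filter_upwards [(integral_eq_zero_iff_of_nonneg_ae hnn ((integrable_const _).sub' ir)).1 hz, hpm] with p h hp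
      simp only [Pi.zero_apply, fbar] at h
      rcases pm_mem hp.1 with h1 | h1 <;> rcases pm_mem hp.2 with h2 | h2 <;> rw [h1, h2] at h ⊢ <;>
        norm_num at h
    refine ⟨1 / 2, fun _ _ => 0, 1, by norm_num, by norm_num, measurable_const, by simp, fun K hK => ?_⟩
    have : NeZero K := ⟨by omega⟩
    filter_upwards [eventually_ge_atTop 1] with N hN
    have : NeZero N := ⟨by omega⟩
    linarith [const_case (K := K) (N := N) d hq hlam (show (0:ℝ) < 1 / 2 by norm_num)]

end Vale.Agent.P168
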