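import Vale.Agent.P168.Parity

open MeasureTheory ProbabilityTheory Real Finset

namespace Vale.Agent.P168

variable {K n : ℕ} {ν η : Measure (ℝ × ℝ)} {ρ : Measure ℝ}

lemma abs_le_one_iff_msg {x : ℝ} (hx : |x| ≤ 1) (s : Bool) : 0 ≤ msgWeight x s := by
  have := abs_le.1 hx
  cases s <;> simp [msgWeight, sg] <;> linarith

lemma sum_msgWeight (x : ℝ) : ∑ s : Bool, msgWeight x s = 1 := by
  simp [msgWeight, sg]; ring

/-- sum over spins with one coordinate fixed -/
lemma sum_fix (ℓ : Fin K) (s : Bool) (F : Fin K → Bool → ℝ) :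
    ∑ σ : Fin K → Bool, (if σ ℓ = s then ∏ j ∈ univ.erase ℓ, F j (σ j) else 0) =
      ∏ j ∈ univ.erase ℓ, ∑ b, F j b := by
  set G := fun j b => if j = ℓ then (if b = s then (1:ℝ) else 0) else F j b
  have e : ∀ σ : Fin K → Bool, (if σ ℓ = s then ∏ j ∈ univ.erase ℓ, F j (σ j) else 0) = ∏ j, G j (σ j) := by
    intro σ
    rw [← mul_prod_erase univ _ (mem_univ ℓ), prod_congr rfl (g := fun j => F j (σ j)) fun j hj => if_neg (ne_of_mem_erase hj)]
    simp [G]
  simp only [e]
  rw [← Fintype.prod_sum G, ← mul_prod_erase univ _ (mem_univ ℓ)]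
  rw [prod_congr rfl (g := fun j => ∑ b, F j b) fun j hj => sum_congr rfl fun b _ => if_neg (ne_of_mem_erase hj)]
  simp [G]

/-- inner factor of `U` -/
noncomputable def clauseU (c : Clause K) (ℓ : Fin K) (s : Bool) (xs : Fin K → ℝ) : ℝ :=
  ∑ σ : Fin K → Bool, if σ ℓ = s then exp (theta c σ) * ∏ j ∈ univ.erase ℓ, msgWeight (xs j) (σ j) else 0

/-- inner factor of `V` -/
noncomputable def clauseV (c : Clause K) (xs : Fin K → ℝ) : ℝ :=
  ∑ σ : Fin K → Bool, exp (theta c σ) * ∏ j, msgWeight (xs j) (σ j)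

/-- one-clause majorant -/
noncomputable def cmax (c : Clause K) : ℝ := |log c.1.1| + lam0 c.1

lemma clauseU_mem {c : Clause K} (hc : Valid c) (ℓ : Fin K) (s : Bool) {xs : Fin K → ℝ}
    (hx : ∀ j, |xs j| ≤ 1) :
    exp (-cmax c) ≤ clauseU c ℓ s xs ∧ clauseU c ℓ s xs ≤ exp (cmax c) := by
  have h1 := sum_fix ℓ s (fun j b => msgWeight (xs j) b)
  simp only [sum_msgWeight, prod_const_one] at h1
  constructor
  · calc exp (-cmax c) = exp (-cmax c) * 1 := (mul_one _).symm
      _ = _ := by rw [← h1, mul_sum]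
      _ ≤ clauseU c ℓ s xs := sum_le_sum fun σ _ => by
        split_ifs
        · exact mul_le_mul_of_nonneg_right (exp_le_exp.2 (abs_le.1 (abs_theta_le hc σ)).1)
            (prod_nonneg fun j _ => abs_le_one_iff_msg (hx j) _)
        · simp
  · calc clauseU c ℓ s xs ≤ _ := sum_le_sum fun σ _ => show _ ≤ exp (cmax c) *
          (if σ ℓ = s then ∏ j ∈ univ.erase ℓ, msgWeight (xs j) (σ j) else 0) by
          split_ifs
          · exact mul_le_mul_of_nonneg_right (exp_le_exp.2 (abs_le.1 (abs_theta_le hc σ)).2)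
              (prod_nonneg fun j _ => abs_le_one_iff_msg (hx j) _)
          · simp
      _ = exp (cmax c) := by rw [← mul_sum, h1, mul_one]

lemma clauseV_mem {c : Clause K} (hc : Valid c) {xs : Fin K → ℝ} (hx : ∀ j, |xs j| ≤ 1) :
    exp (-cmax c) ≤ clauseV c xs ∧ clauseV c xs ≤ exp (cmax c) := by
  have h1 : ∑ σ : Fin K → Bool, ∏ j, msgWeight (xs j) (σ j) = 1 := by
    rw [← Fintype.prod_sum (fun j b => msgWeight (xs j) b)]; simp only [sum_msgWeight, prod_const_one]
  constructor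
  · calc exp (-cmax c) = ∑ σ : Fin K → Bool, exp (-cmax c) * ∏ j, msgWeight (xs j) (σ j) := by rw [← mul_sum, h1, mul_one]
      _ ≤ _ := sum_le_sum fun σ _ => mul_le_mul_of_nonneg_right (exp_le_exp.2 (abs_le.1 (abs_theta_le hc σ)).1)
        (prod_nonneg fun j _ => abs_le_one_iff_msg (hx j) _)
  · calc clauseV c xs ≤ ∑ σ : Fin K → Bool, exp (cmax c) * ∏ j, msgWeight (xs j) (σ j) :=
          sum_le_sum fun σ _ => mul_le_mul_of_nonneg_right (exp_le_exp.2 (abs_le.1 (abs_theta_le hc σ)).2)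
            (prod_nonneg fun j _ => abs_le_one_iff_msg (hx j) _)
      _ = exp (cmax c) := by rw [← mul_sum, h1, mul_one]

lemma cavU_eq (h : ℝ) (w : Fin n → Clause K) (ℓ : Fin n → Fin K) (xs : Fin n → Fin K → ℝ) :
    cavU h w ℓ xs = ∑ s : Bool, exp (h * sg s) * ∏ k, clauseU (w k) (ℓ k) s (xs k) := rfl

lemma cavV_eq (w : Fin n → Clause K) (xs : Fin n → Fin K → ℝ) :
    cavV w xs = ∏ k, clauseV (w k) (xs k) := rfl

lemma cavU_mem {h : ℝ} {w : Fin n → Clause K} (hw : ∀ k, Valid (w k)) (ℓ : Fin n → Fin K)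
    {xs : Fin n → Fin K → ℝ} (hx : ∀ k j, |xs k j| ≤ 1) :
    exp (-(|h| + log 2 + ∑ k, cmax (w k))) ≤ cavU h w ℓ xs ∧
      cavU h w ℓ xs ≤ exp (|h| + log 2 + ∑ k, cmax (w k)) := by
  rw [cavU_eq]
  have hp : ∀ s, exp (-∑ k, cmax (w k)) ≤ ∏ k, clauseU (w k) (ℓ k) s (xs k) ∧
      ∏ k, clauseU (w k) (ℓ k) s (xs k) ≤ exp (∑ k, cmax (w k)) := fun s => by
    constructor
    · rw [← sum_neg_distrib, exp_sum]
      exact prod_le_prod (fun k _ => (exp_pos _).le) fun k _ => (clauseU_mem (hw k) _ _ (hx k)).1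
    · rw [exp_sum]
      exact prod_le_prod (fun k _ => (exp_pos _).le.trans (clauseU_mem (hw k) _ _ (hx k)).1)
        fun k _ => (clauseU_mem (hw k) _ _ (hx k)).2
  constructor
  · have hle : exp (-(|h| + log 2 + ∑ k, cmax (w k))) ≤ exp (-|h| + -∑ k, cmax (w k)) :=
      exp_le_exp.2 (by linarith [log_nonneg (one_le_two : (1:ℝ) ≤ 2)])
    refine hle.trans ?_
    rw [exp_add]
    refine le_trans ?_ (single_le_sum (fun s _ => ?_) (mem_univ true))
    · exact mul_le_mul (exp_le_exp.2 (by simpa [sg] using neg_abs_le h)) (hp true).1 (exp_pos _).le (exp_pos _).le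
    · exact mul_nonneg (exp_pos _).le ((exp_pos _).le.trans (hp s).1)
  · rw [add_right_comm, exp_add, exp_log (by norm_num : (0:ℝ) < 2), exp_add]
    refine (sum_le_sum (g := fun _ => exp |h| * exp (∑ k, cmax (w k))) fun s _ => ?_).trans (le_of_eq ?_)
    · refine mul_le_mul (exp_le_exp.2 ?_) (hp s).2 ((exp_pos _).le.trans (hp s).1) (exp_pos _).le
      exact (le_abs_self _).trans (by simp [abs_mul])
    · simp; ring

lemma cavV_mem {w : Fin n → Clause K} (hw : ∀ k, Valid (w k)) {xs : Fin n → Fin K → ℝ}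
    (hx : ∀ k j, |xs k j| ≤ 1) :
    exp (-∑ k, cmax (w k)) ≤ cavV w xs ∧ cavV w xs ≤ exp (∑ k, cmax (w k)) := by
  rw [cavV_eq]
  constructor
  · rw [← sum_neg_distrib, exp_sum]
    exact prod_le_prod (fun k _ => (exp_pos _).le) fun k _ => (clauseV_mem (hw k) (hx k)).1
  · rw [exp_sum]
    exact prod_le_prod (fun k _ => (exp_pos _).le.trans (clauseV_mem (hw k) (hx k)).1)
      fun k _ => (clauseV_mem (hw k) (hx k)).2

variable {m : ℝ} {x : ℝ → ℝ → ℝ}

lemma inner_level_mem (hxm : Measurable (Function.uncurry x))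
    {Y : (Fin n → Fin K → ℝ) → ℝ} (hY : Measurable Y) {C : ℝ} (hb : ∀ xs, (∀ k j, |xs k j| ≤ 1) → exp (-C) ≤ Y xs ∧ Y xs ≤ exp C)
    (hx : ∀ a b, |x a b| ≤ 1) (hm : 0 < m) (ω₀ : Fin n → Fin K → ℝ) :
    Integrable (fun ω₁ : Fin n → Fin K → ℝ => Y (fun k j => x (ω₀ k j) (ω₁ k j)) ^ m) (msgLaw n K) ∧
    exp (-(m * C)) ≤ ∫ ω₁, Y (fun k j => x (ω₀ k j) (ω₁ k j)) ^ m ∂msgLaw n K ∧
    ∫ ω₁, Y (fun k j => x (ω₀ k j) (ω₁ k j)) ^ m ∂msgLaw n K ≤ exp (m * C) := by
  have hmx : Measurable fun ω₁ : Fin n → Fin K → ℝ => fun k j => x (ω₀ k j) (ω₁ k j) :=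
    measurable_pi_lambda _ fun k => measurable_pi_lambda _ fun j => hxm.comp
      (measurable_const.prodMk ((measurable_pi_apply j).comp (measurable_pi_apply k)))
  have hp : ∀ ω₁ : Fin n → Fin K → ℝ, exp (-(m * C)) ≤ Y (fun k j => x (ω₀ k j) (ω₁ k j)) ^ m ∧
      Y (fun k j => x (ω₀ k j) (ω₁ k j)) ^ m ≤ exp (m * C) := fun ω₁ => by
    obtain ⟨a, b⟩ := hb _ fun k j => hx (ω₀ k j) (ω₁ k j)
    constructor
    · rw [show -(m * C) = -C * m by ring, exp_mul]; exact rpow_le_rpow (exp_pos _).le a hm.le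
    · rw [mul_comm m, exp_mul]; exact rpow_le_rpow ((exp_pos _).le.trans a) b hm.le
  have hi : Integrable (fun ω₁ => Y (fun k j => x (ω₀ k j) (ω₁ k j)) ^ m) (msgLaw n K) :=
    Integrable.of_bound ((hY.comp hmx).pow_const m).aestronglyMeasurable (exp (m * C))
      (Filter.Eventually.of_forall fun ω => by
        rw [Real.norm_eq_abs, abs_of_nonneg ((exp_pos _).le.trans (hp ω).1)]; exact (hp ω).2)
  refine ⟨hi, ?_, ?_⟩
  · simpa using integral_mono (integrable_const (exp (-(m * C)))) hi fun ω => (hp ω).1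
  · simpa using integral_mono hi (integrable_const (exp (m * C))) fun ω => (hp ω).2

lemma abs_levelOne_le (hxm : Measurable (Function.uncurry x))
    {Y : (Fin n → Fin K → ℝ) → ℝ} (hY : Measurable Y) {C : ℝ} (hb : ∀ xs, (∀ k j, |xs k j| ≤ 1) → exp (-C) ≤ Y xs ∧ Y xs ≤ exp C)
    (hx : ∀ a b, |x a b| ≤ 1) (hm : 0 < m) : |levelOne m x Y| ≤ C := by
  have hbd : ∀ ω₀ : Fin n → Fin K → ℝ,
      ‖log ((∫ ω₁, Y (fun k j => x (ω₀ k j) (ω₁ k j)) ^ m ∂msgLaw n K) ^ (1 / m))‖ ≤ C := by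
    intro ω₀
    obtain ⟨-, a, b⟩ := inner_level_mem hxm hY hb hx hm ω₀
    have hI : 0 < ∫ ω₁, Y (fun k j => x (ω₀ k j) (ω₁ k j)) ^ m ∂msgLaw n K := lt_of_lt_of_le (exp_pos _) a
    rw [log_rpow hI, Real.norm_eq_abs, abs_mul, abs_of_pos (one_div_pos.2 hm), one_div, inv_mul_le_iff₀ hm, abs_le]
    exact ⟨(le_log_iff_exp_le hI).2 a, (log_le_iff_le_exp hI).2 b⟩
  have := norm_integral_le_of_norm_le_const (μ := msgLaw n K) (Filter.Eventually.of_forall hbd)
  simpa [levelOne, Real.norm_eq_abs] using this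

lemma measurable_levelOne {Ω : Type*} [MeasurableSpace Ω] (hxm : Measurable (Function.uncurry x))
    {Y : Ω → (Fin n → Fin K → ℝ) → ℝ} (hY : Measurable (Function.uncurry Y)) :
    Measurable fun o => levelOne m x (Y o) := by
  have h1 : Measurable fun q : (Ω × (Fin n → Fin K → ℝ)) × (Fin n → Fin K → ℝ) =>
      Y q.1.1 (fun k j => x (q.1.2 k j) (q.2 k j)) ^ m := by
    have hg : Measurable fun q : (Ω × (Fin n → Fin K → ℝ)) × (Fin n → Fin K → ℝ) =>
        fun k j => x (q.1.2 k j) (q.2 k j) :=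
      measurable_pi_lambda _ fun k => measurable_pi_lambda _ fun j => by
        have ha : Measurable fun q : (Ω × (Fin n → Fin K → ℝ)) × (Fin n → Fin K → ℝ) => (q.1.2 k j, q.2 k j) := by
          fun_prop
        exact hxm.comp ha
    exact (hY.comp ((measurable_fst.comp measurable_fst).prodMk hg)).pow_const m
  have h2 : Measurable fun q : Ω × (Fin n → Fin K → ℝ) =>
      log ((∫ ω₁, Y q.1 (fun k j => x (q.2 k j) (ω₁ k j)) ^ m ∂msgLaw n K) ^ (1 / m)) :=
    Real.measurable_log.comp ((h1.stronglyMeasurable.integral_prod_right').measurable.pow_const _)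
  exact h2.stronglyMeasurable.integral_prod_right'.measurable

lemma measurable_msgWeight (s : Bool) : Measurable fun a : ℝ => msgWeight a s := by
  unfold msgWeight; fun_prop

lemma measurable_cavU (ℓ : Fin n → Fin K) :
    Measurable fun q : (ℝ × (Fin n → Clause K)) × (Fin n → Fin K → ℝ) => cavU q.1.1 q.1.2 ℓ q.2 := by
  simp only [cavU_eq]
  refine Finset.measurable_sum _ fun s _ => (by fun_prop : Measurable _).mul (Finset.measurable_prod _ fun k _ => ?_)
  unfold clauseU
  refine Finset.measurable_sum _ fun σ _ => ?_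
  split_ifs
  swap
  · exact measurable_const
  refine (Real.measurable_exp.comp ((measurable_theta σ).comp
    ((measurable_pi_apply k).comp (measurable_snd.comp measurable_fst)))).mul (Finset.measurable_prod _ fun j _ => ?_)
  exact (measurable_msgWeight _).comp ((measurable_pi_apply j).comp ((measurable_pi_apply k).comp measurable_snd))

lemma measurable_cavV :
    Measurable fun q : (Fin n → Clause K) × (Fin n → Fin K → ℝ) => cavV q.1 q.2 := by
  simp only [cavV_eq]
  refine Finset.measurable_prod _ fun k _ => ?_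
  unfold clauseV
  refine Finset.measurable_sum _ fun σ _ => ?_
  refine (Real.measurable_exp.comp ((measurable_theta σ).comp
    ((measurable_pi_apply k).comp measurable_fst))).mul (Finset.measurable_prod _ fun j _ => ?_)
  exact (measurable_msgWeight _).comp ((measurable_pi_apply j).comp ((measurable_pi_apply k).comp measurable_snd))

lemma av_eval [NeZero K] (β : Fin n → Fin K → ℝ) :
    av (fun ℓ : Fin n → Fin K => ∑ k, β k (ℓ k)) = ∑ k, av (β k) := by
  rw [av_sum]
  refine sum_congr rfl fun k _ => ?_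
  have e : ∀ ℓ : Fin n → Fin K, β k (ℓ k) = ∏ l, if l = k then β l (ℓ l) else 1 := fun ℓ => by
    rw [prod_ite_eq' univ k (fun l => β l (ℓ l))]; simp
  simp only [e]
  rw [av_pi (fun l j => if l = k then β l j else 1),
    prod_eq_single k (fun l _ hl => by simp only [if_neg hl]; exact av_const 1) (by simp)]
  simp

/-- linear upper bound on `funU` -/
lemma funU_le [NeZero K] (d : Disorder ν η ρ) {lam : ℝ} (hlam : 0 ≤ lam) (hxm : Measurable (Function.uncurry x))
    (hx : ∀ a b, |x a b| ≤ 1) (hm : 0 < m) {Q : Clause K → Prop} (hQ : ∀ᵐ c ∂clauseLaw ν η K, Q c)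
    {α : ℝ → ℝ} (hα : Integrable α ρ) {β : Clause K → Fin K → ℝ} (hβ : ∀ j, Integrable (fun c => β c j) (clauseLaw ν η K))
    (H : ∀ (n : ℕ) (h : ℝ) (w : Fin n → Clause K) (ℓ : Fin n → Fin K), (∀ k, Valid (w k)) → (∀ k, Q (w k)) →
      levelOne m x (cavU h w ℓ) ≤ α h + ∑ k, β (w k) (ℓ k)) :
    funU ν η ρ lam K m x ≤ ∫ y, α y ∂ρ + K * lam * ∫ c, av (β c) ∂clauseLaw ν η K := by
  have := d.pν; have := d.pη; have := d.pρ
  set Λ := clauseLaw ν η K
  set B := ∫ c, av (β c) ∂Λ
  have iB : Integrable (fun c => av (β c)) Λ := by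
    unfold av; exact (integrable_finsetSum _ fun j _ => hβ j).div_const _
  have hcm := d.base (K := K) (d.hla.abs.add d.hlb)
  set Cc := ∫ c, (|log c.1| + lam0 c) ∂ν
  have ih : Integrable (fun y : ℝ => |y|) ρ := by simpa using d.hh.abs
  have key : ∀ n : ℕ,
      (∫ h₀, ∫ w : Fin n → Clause K, av (fun ℓ : Fin n → Fin K => levelOne m x (cavU h₀ w ℓ))
        ∂Measure.pi (fun _ => Λ) ∂ρ) ≤ B * n + ∫ y, α y ∂ρ ∧
      |∫ h₀, ∫ w : Fin n → Clause K, av (fun ℓ : Fin n → Fin K => levelOne m x (cavU h₀ w ℓ))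
        ∂Measure.pi (fun _ => Λ) ∂ρ| ≤ Cc * n + (∫ y, |y| ∂ρ + log 2) := by
    intro n
    set F := fun q : ℝ × (Fin n → Clause K) => av (fun ℓ : Fin n → Fin K => levelOne m x (cavU q.1 q.2 ℓ))
    have hs := integral_sum_eval Λ hcm.1 n
    simp only [Pi.add_apply] at hcm hs
    have hmaj : Integrable (fun q : ℝ × (Fin n → Clause K) => |q.1| + log 2 + ∑ k, cmax (q.2 k))
        (ρ.prod (Measure.pi fun _ => Λ)) :=
      ((ih.comp_fst _).add (integrable_const _)).add (hs.1.comp_snd _)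
    have hae : ∀ᵐ q ∂(ρ.prod (Measure.pi fun _ : Fin n => Λ)), |F q| ≤ |q.1| + log 2 + ∑ k, cmax (q.2 k) :=
      (Measure.quasiMeasurePreserving_snd.ae (d.valid_pi n)).mono fun q hq => abs_av_le fun ℓ =>
        abs_levelOne_le hxm ((measurable_cavU ℓ).comp (measurable_const.prodMk measurable_id))
          (fun xs hxs => cavU_mem hq ℓ hxs) hx hm
    have hFm : Measurable F := by
      simp only [F, av]
      exact (Finset.measurable_sum _ fun ℓ _ => measurable_levelOne hxm
        (Y := fun q : ℝ × (Fin n → Clause K) => cavU q.1 q.2 ℓ) (measurable_cavU ℓ)).div_const _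
    have hF : Integrable F (ρ.prod (Measure.pi fun _ => Λ)) := hmaj.mono' hFm.aestronglyMeasurable hae
    rw [← integral_prod _ hF]
    constructor
    · have hu := (hα.comp_fst (Measure.pi fun _ : Fin n => Λ)).add ((integral_sum_eval Λ iB n).1.comp_snd ρ)
      have hQn : ∀ᵐ w ∂Measure.pi (fun _ : Fin n => Λ), ∀ k, Q (w k) :=
        ae_all_iff.2 fun k => (Measure.tendsto_eval_ae_ae (μ := fun _ : Fin n => Λ) (i := k)).eventually hQ
      refine (integral_mono_ae hF hu ((Measure.quasiMeasurePreserving_snd.ae ((d.valid_pi n).and hQn)).mono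
        fun q hq => ?_)).trans (le_of_eq ?_)
      · simp only [Pi.add_apply, F]
        refine (av_mono fun ℓ => H n q.1 q.2 ℓ hq.1 hq.2).trans (le_of_eq ?_)
        rw [av_add, av_const, av_eval (fun k => β (q.2 k))]
      · simp only [Pi.add_apply]
        rw [integral_add (hα.comp_fst _) ((integral_sum_eval Λ iB n).1.comp_snd ρ), integral_fun_fst α,
          integral_fun_snd (fun w : Fin n → Clause K => ∑ k, av (β (w k))), (integral_sum_eval Λ iB n).2]
        simp [B]; ring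
    · rw [← Real.norm_eq_abs]
      refine (norm_integral_le_of_norm_le hmaj hae).trans (le_of_eq ?_)
      rw [integral_add (f := fun q : ℝ × (Fin n → Clause K) => |q.1| + log 2)
          (g := fun q : ℝ × (Fin n → Clause K) => ∑ k, cmax (q.2 k))
          ((ih.comp_fst _).add (integrable_const _)) (hs.1.comp_snd _),
        integral_add (ih.comp_fst _) (integrable_const _),
        integral_fun_fst (fun y : ℝ => |y|), integral_fun_snd (fun w : Fin n → Clause K => ∑ k, cmax (w k))]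
      simp only [cmax, hs.2, show ∫ (a : Clause K), (|log a.1.1| + lam0 a.1) ∂Λ = Cc from hcm.2]
      simp [Cc]; ring
  have hr : 0 ≤ (K:ℝ) * lam := by positivity
  have h1 := summable_pois_mul hr fun n => (key n).2
  have h2 := (hasSum_pois_affine ((K:ℝ) * lam) B (∫ y, α y ∂ρ))
  refine (h1.tsum_le_tsum (fun n => mul_le_mul_of_nonneg_left (key n).1 (pois_nonneg hr n)) h2.summable).trans
    (le_of_eq ?_)
  rw [h2.tsum_eq]; ring

/-- linear lower bound on `funV` -/
lemma funV_ge (d : Disorder ν η ρ) {lam : ℝ} (hlam : 0 ≤ lam) (hK : 1 ≤ K) (hxm : Measurable (Function.uncurry x))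
    (hx : ∀ a b, |x a b| ≤ 1) (hm : 0 < m) {Q : Clause K → Prop} (hQ : ∀ᵐ c ∂clauseLaw ν η K, Q c)
    {β : Clause K → ℝ} (hβ : Integrable β (clauseLaw ν η K))
    (H : ∀ (n : ℕ) (w : Fin n → Clause K), (∀ k, Valid (w k)) → (∀ k, Q (w k)) →
      ∑ k, β (w k) ≤ levelOne m x (cavV w)) :
    ((K:ℝ) - 1) * lam * ∫ c, β c ∂clauseLaw ν η K ≤ funV ν η lam K m x := by
  have := d.pν; have := d.pη; have := d.pρ
  set Λ := clauseLaw ν η K
  have hcm := d.base (K := K) (d.hla.abs.add d.hlb)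
  set Cc := ∫ c, (|log c.1| + lam0 c) ∂ν
  have key : ∀ n : ℕ,
      (∫ c, β c ∂Λ) * n + 0 ≤ ∫ w : Fin n → Clause K, levelOne m x (cavV w) ∂Measure.pi (fun _ => Λ) ∧
      |∫ w : Fin n → Clause K, levelOne m x (cavV w) ∂Measure.pi (fun _ => Λ)| ≤ Cc * n + 0 := by
    intro n
    have hs := integral_sum_eval Λ hcm.1 n
    simp only [Pi.add_apply] at hcm hs
    have hae : ∀ᵐ w ∂(Measure.pi fun _ : Fin n => Λ), |levelOne m x (cavV w)| ≤ ∑ k, cmax (w k) :=
      (d.valid_pi n).mono fun w hw => abs_levelOne_le hxm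
        (measurable_cavV.comp (measurable_const.prodMk measurable_id)) (fun xs hxs => cavV_mem hw hxs) hx hm
    have hFm : Measurable fun w : Fin n → Clause K => levelOne m x (cavV w) :=
      measurable_levelOne hxm (Y := fun w : Fin n → Clause K => cavV w) measurable_cavV
    have hF : Integrable (fun w : Fin n → Clause K => levelOne m x (cavV w)) (Measure.pi fun _ => Λ) :=
      hs.1.mono' hFm.aestronglyMeasurable hae
    constructor
    · have hQn : ∀ᵐ w ∂Measure.pi (fun _ : Fin n => Λ), ∀ k, Q (w k) :=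
        ae_all_iff.2 fun k => (Measure.tendsto_eval_ae_ae (μ := fun _ : Fin n => Λ) (i := k)).eventually hQ
      have := integral_mono_ae (integral_sum_eval Λ hβ n).1 hF (((d.valid_pi n).and hQn).mono fun w hw => H n w hw.1 hw.2)
      rw [(integral_sum_eval Λ hβ n).2] at this
      linarith
    · rw [← Real.norm_eq_abs]
      refine (norm_integral_le_of_norm_le hs.1 hae).trans (le_of_eq ?_)
      rw [hs.2, hcm.2]; ring
  have hK' : (1:ℝ) ≤ K := by exact_mod_cast hK
  have hr : 0 ≤ ((K:ℝ) - 1) * lam := mul_nonneg (by linarith) hlam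
  have h1 := summable_pois_mul hr fun n => (key n).2
  have h2 := (hasSum_pois_affine (((K:ℝ) - 1) * lam) (∫ c, β c ∂Λ) 0)
  refine le_trans (le_of_eq ?_) (h2.summable.tsum_le_tsum (fun n => mul_le_mul_of_nonneg_left (key n).1 (pois_nonneg hr n)) h1)
  rw [h2.tsum_eq]; ring

end Vale.Agent.P168
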