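import Vale.Agent.P168.Pressure

open MeasureTheory ProbabilityTheory Real Finset

namespace Vale.Agent.P168

variable {N K M : ℕ}

/-- effective coupling -/
noncomputable def gb (b : ℝ) : ℝ := (log (1 + b) - log (1 - b)) / 2

/-- effective constant -/
noncomputable def ub (c : ℝ × ℝ) : ℝ := log c.1 + (log (1 + c.2) + log (1 - c.2)) / 2

/-- active slots -/
noncomputable def act (c : Clause K) (j : Fin K) : Bool := decide ((c.2 j).1 ≠ (c.2 j).2)

/-- all values are `±1` -/
def PM (c : Clause K) : Prop := ∀ j, |(c.2 j).1| = 1 ∧ |(c.2 j).2| = 1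

/-- signed coupling -/
noncomputable def cpl (c : Clause K) : ℝ := gb c.1.2 * ∏ j, (c.2 j).1

/-- per-slot slack -/
noncomputable def slotS (ε : ℝ) (p : ℝ × ℝ) : ℝ := if p.1 = p.2 then 1 else 1 - ε

lemma slack_act (ε : ℝ) (c : Clause K) : slack ε (act c) = ∏ j, slotS ε (c.2 j) := by
  refine prod_congr rfl fun j _ => ?_
  unfold act slotS
  by_cases h : (c.2 j).1 = (c.2 j).2 <;> simp [h]

@[fun_prop]
lemma measurable_slotS (ε : ℝ) : Measurable (slotS ε) :=
  Measurable.ite (measurableSet_eq_fun measurable_fst measurable_snd) measurable_const measurable_const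

@[fun_prop]
lemma measurable_gb : Measurable gb := by unfold gb; fun_prop

@[fun_prop]
lemma measurable_ub : Measurable ub := by unfold ub; fun_prop

lemma abs_gb_le {c : ℝ × ℝ} (h : |c.2| < 1) : |gb c.2| ≤ lam0 c := by
  have h1 := log_one_add_mem (y := 1) h (by simp)
  have h2 := log_one_add_mem (y := -1) h (by simp)
  simp only [mul_one, mul_neg, abs_one, abs_neg, ← sub_eq_add_neg] at h1 h2
  unfold gb lam0
  rw [abs_div, abs_of_pos (two_pos : (0:ℝ) < 2)]
  linarith [abs_sub (log (1 + c.2)) (log (1 - c.2))]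

lemma abs_ub_le {c : ℝ × ℝ} (h : |c.2| < 1) : |ub c| ≤ |log c.1| + lam0 c := by
  have h1 := log_one_add_mem (y := 1) h (by simp)
  have h2 := log_one_add_mem (y := -1) h (by simp)
  simp only [mul_one, mul_neg, abs_one, abs_neg, ← sub_eq_add_neg] at h1 h2
  unfold ub lam0
  have := abs_add_le (log (1 + c.2)) (log (1 - c.2))
  refine (abs_add_le _ _).trans ?_
  rw [abs_div, abs_of_pos (two_pos : (0:ℝ) < 2)]
  linarith

lemma pm_mem {x : ℝ} (h : |x| = 1) : x = 1 ∨ x = -1 := (abs_eq (zero_le_one (α := ℝ))).1 h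

lemma abs_prod_fst {c : Clause K} (hp : PM c) : |∏ j, (c.2 j).1| = 1 := by
  rw [abs_prod]; exact prod_eq_one fun j _ => (hp j).1

lemma abs_cpl {c : Clause K} (hp : PM c) : |cpl c| = |gb c.1.2| := by
  rw [cpl, abs_mul, abs_prod_fst hp, mul_one]

lemma clip_cpl {L : ℝ} (hL : 0 ≤ L) {c : Clause K} (hp : PM c) :
    |clip L (cpl c)| = |clip L (gb c.1.2)| ∧ |cpl c - clip L (cpl c)| = |gb c.1.2 - clip L (gb c.1.2)| := by
  rcases pm_mem (abs_prod_fst hp) with h | h <;> rw [cpl, h]
  · simp
  · rw [mul_neg_one, clip_neg hL]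
    exact ⟨abs_neg _, by rw [neg_sub_neg, abs_sub_comm]⟩

lemma theta_parity {c : Clause K} (hv : Valid c) (hp : PM c) (σ : Fin K → Bool) :
    theta c σ = ub c.1 + cpl c * ∏ j, (if act c j then sg (σ j) else 1) := by
  have hj : ∀ j, fval (c.2 j) (σ j) = (c.2 j).1 * (if act c j then sg (σ j) else 1) := by
    intro j
    unfold act fval
    rcases pm_mem (hp j).1 with h1 | h1 <;> rcases pm_mem (hp j).2 with h2 | h2 <;>
      cases σ j <;> simp [h1, h2, sg] <;> norm_num
  have e : ∏ j, fval (c.2 j) (σ j) = (∏ j, (c.2 j).1) * ∏ j, (if act c j then sg (σ j) else 1) := by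
    rw [← prod_mul_distrib]; exact prod_congr rfl fun j _ => hj j
  set P := ∏ j, (if act c j then sg (σ j) else 1)
  have hP : P = 1 ∨ P = -1 := by
    refine pm_mem ?_
    rw [abs_prod]; refine prod_eq_one fun j _ => ?_; split <;> simp
  have hb := abs_lt.1 hv.2.1
  have l1 : ∀ y, (y = 1 ∨ y = -1) → log (c.1.1 * (1 + c.1.2 * y)) = ub c.1 + gb c.1.2 * y := by
    intro y hy
    rcases hy with rfl | rfl
    · rw [mul_one, log_mul hv.1.ne' (by linarith)]; unfold ub gb; ring
    · rw [show 1 + c.1.2 * -1 = 1 - c.1.2 by ring, log_mul hv.1.ne' (by linarith)]; unfold ub gb; ring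
  rw [theta, e, l1 _ ?_, cpl, mul_assoc]
  rcases pm_mem (abs_prod_fst hp) with h | h <;> rcases hP with h' | h' <;> simp [h, h']

/-- even test functions of the effective coupling -/
noncomputable def gVal (t L x : ℝ) : ℝ :=
  log (cosh (t * clip L x)) + (1 - t) * (clip L x * tanh (t * clip L x)) - |x - clip L x|

/-- site analogue -/
noncomputable def hVal (t L x : ℝ) : ℝ :=
  log (2 * cosh (t * clip L x)) + (1 - t) * (clip L x * tanh (t * clip L x)) - |x - clip L x|

/-- entropy contribution of a coupling -/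
noncomputable def gEnt (t L x : ℝ) : ℝ :=
  log (cosh (t * clip L x)) - t * (clip L x * tanh (t * clip L x))

/-- entropy contribution of a field -/
noncomputable def hEnt (t L x : ℝ) : ℝ :=
  log (2 * cosh (t * clip L x)) - t * (clip L x * tanh (t * clip L x))

lemma logcosh_bound {L x t : ℝ} (ht : |t| ≤ 1) (hx : |x| ≤ L) :
    0 ≤ log (cosh (t * x)) ∧ log (cosh (t * x)) ≤ L ∧ |x * tanh (t * x)| ≤ L := by
  refine ⟨log_nonneg (one_le_cosh _), ?_, ?_⟩
  · rw [log_le_iff_le_exp (cosh_pos _)]
    refine le_trans ?_ (exp_le_exp.2 hx)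
    rw [← cosh_abs]
    have h : |t * x| ≤ |x| := by rw [abs_mul]; exact mul_le_of_le_one_left (abs_nonneg x) ht
    rw [Real.cosh_eq]
    have := exp_le_exp.2 (show -|t * x| ≤ |t * x| by linarith [abs_nonneg (t * x)])
    linarith [exp_le_exp.2 h]
  · rw [abs_mul]
    exact (mul_le_of_le_one_right (abs_nonneg x) (abs_tanh_lt_one _).le).trans hx

lemma gEnt_bound {L t : ℝ} (hL : 0 ≤ L) (ht0 : 0 ≤ t) (ht1 : t ≤ 1) (x : ℝ) :
    |gEnt t L x| ≤ 2 * L + 1 ∧ |hEnt t L x| ≤ 2 * L + 1 := by
  obtain ⟨a, b, c⟩ := logcosh_bound (abs_le.2 ⟨by linarith, ht1⟩) (abs_clip_le hL x)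
  have c' : |t * (clip L x * tanh (t * clip L x))| ≤ L := by
    rw [abs_mul, abs_of_nonneg ht0]; exact (mul_le_of_le_one_left (abs_nonneg _) ht1).trans c
  have := abs_le.1 c'
  have l2 := log_le_sub_one_of_pos (two_pos : (0:ℝ) < 2)
  have l0 := log_nonneg (one_le_two : (1:ℝ) ≤ 2)
  unfold gEnt hEnt
  rw [log_mul two_ne_zero (cosh_pos _).ne']
  constructor <;> rw [abs_le] <;> constructor <;> linarith

@[fun_prop]
lemma measurable_gVal (t L : ℝ) : Measurable (gVal t L) := by unfold gVal; fun_prop

@[fun_prop]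
lemma measurable_hVal (t L : ℝ) : Measurable (hVal t L) := by unfold hVal; fun_prop

@[fun_prop]
lemma measurable_gEnt (t L : ℝ) : Measurable (gEnt t L) := by unfold gEnt; fun_prop

@[fun_prop]
lemma measurable_hEnt (t L : ℝ) : Measurable (hEnt t L) := by unfold hEnt; fun_prop

lemma even_tests {L t : ℝ} (hL : 0 ≤ L) {c : Clause K} (hp : PM c) :
    log (cosh (t * clip L (cpl c))) = log (cosh (t * clip L (gb c.1.2))) ∧
    clip L (cpl c) * tanh (t * clip L (cpl c)) = clip L (gb c.1.2) * tanh (t * clip L (gb c.1.2)) := by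
  rcases pm_mem (abs_prod_fst hp) with h | h <;> rw [cpl, h]
  · simp
  · rw [mul_neg_one, clip_neg hL, mul_neg, cosh_neg, tanh_neg, neg_mul_neg]
    exact ⟨rfl, rfl⟩

variable [NeZero N]

/-- Deterministic lower bound at fixed fields and clauses, crude and windowed. -/
lemma parity_pointwise {t ε L δ a : ℝ} (hL : 0 ≤ L) (ht0 : 0 ≤ t) (ht1 : t ≤ 1) (h : Fin N → ℝ)
    {w : Fin M → Clause K} (hv : ∀ k, Valid (w k)) (hp : ∀ k, PM (w k)) :
    let X := ∑ x, hVal t L (h x) + ∑ k, (ub (w k).1 + gVal t L (gb (w k).1.2))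
    X - (M + N) * (3 * L + 1) ≤ av (fun i => logZ h w i) ∧
    (0 < δ → 0 < a → a ≤ 1 →
      Window (fun k => clip L (cpl (w k))) (fun k => act (w k)) (fun x => clip L (h x)) t ε L (δ * N) →
      X - δ * N - log 4 - exp (2 * L) * (∑ k, ∏ j, slotS ε ((w k).2 j))
        - (5 * (exp (2 * L) * ∑ k, ∏ j, slotS ε ((w k).2 j)) + log 48) / a
        - M * a * ((2 * L) ^ 2 * exp (2 * L)) ≤ av (fun i => logZ h w i)) := by
  intro X
  set g := fun k => clip L (cpl (w k)) with hg
  set S := fun k => act (w k)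
  set hc := fun x => clip L (h x)
  set R := ∑ k, ub (w k).1 - ∑ k, |gb (w k).1.2 - clip L (gb (w k).1.2)| - ∑ x, |h x - clip L (h x)|
  have hred : ∀ i, logPart g S hc i + R ≤ logZ h w i := by
    intro i
    have hd : ∀ σ : Fin N → Bool, ham g S hc σ i + R ≤
        ∑ k, theta (w k) (fun j => σ (i k j)) + ∑ x, h x * sg (σ x) := by
      intro σ
      have h1 : ∀ k, g k * par (S k) σ (i k) + (ub (w k).1 - |gb (w k).1.2 - clip L (gb (w k).1.2)|) ≤
          theta (w k) (fun j => σ (i k j)) := by
        intro k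
        rw [theta_parity (hv k) (hp k), ← (clip_cpl hL (hp k)).2]
        have hb := neg_abs_le ((cpl (w k) - clip L (cpl (w k))) * par (S k) σ (i k))
        have : |par (S k) σ (i k)| = 1 := by rcases par_pm (S k) σ (i k) with e | e <;> simp [e]
        rw [abs_mul, this, mul_one] at hb
        show _ ≤ ub (w k).1 + cpl (w k) * par (S k) σ (i k)
        simp only [hg]; linarith
      have h2 : ∀ x, hc x * sg (σ x) - |h x - clip L (h x)| ≤ h x * sg (σ x) := by
        intro x
        have hb := neg_abs_le ((h x - clip L (h x)) * sg (σ x))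
        rw [abs_mul, abs_sg, mul_one] at hb
        simp only [hc]; linarith
      have s1 := sum_le_sum (s := univ) fun k (_ : k ∈ univ) => h1 k
      have s2 := sum_le_sum (s := univ) fun x (_ : x ∈ univ) => h2 x
      simp only [sum_add_distrib, sum_sub_distrib] at s1 s2
      simp only [ham, fieldSum, R]; linarith
    have := log_sum_diff (c := -R) (x := fun σ => ham g S hc σ i)
      (y := fun σ => ∑ k, theta (w k) (fun j => σ (i k j)) + ∑ x, h x * sg (σ x)) fun σ => by linarith [hd σ]
    unfold logPart logZ; linarith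
  have hav := av_mono hred
  rw [av_add, av_const] at hav
  have hX : X = ann g hc t + (1 - t) * ener g hc t + R := by
    have e1 : ∀ k, ub (w k).1 + gVal t L (gb (w k).1.2) = log (cosh (t * g k)) +
        (1 - t) * (g k * tanh (t * g k)) + (ub (w k).1 - |gb (w k).1.2 - clip L (gb (w k).1.2)|) := fun k => by
      simp only [gVal, hg, (even_tests hL (hp k)).1, (even_tests hL (hp k)).2]; ring
    have e2 : ∀ x, hVal t L (h x) = log (2 * cosh (t * hc x)) + (1 - t) * (hc x * tanh (t * hc x)) -
        |h x - clip L (h x)| := fun x => rfl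
    simp only [X, e1, e2, sum_add_distrib, sum_sub_distrib, ← mul_sum, ann, ener, R]
    ring
  constructor
  · have ha : ann g hc t + (1 - t) * ener g hc t ≤ (M + N) * (2 * L + 1) := by
      have b1 : ∀ k, log (cosh (t * g k)) + (1 - t) * (g k * tanh (t * g k)) ≤ 2 * L + 1 := fun k => by
        obtain ⟨u1, u2, u3⟩ := logcosh_bound (abs_le.2 ⟨by linarith, ht1⟩) (abs_clip_le hL (cpl (w k)))
        have := mul_le_mul_of_nonneg_left (abs_le.1 u3).2 (show 0 ≤ 1 - t by linarith)
        have := mul_le_of_le_one_left hL (show 1 - t ≤ 1 by linarith)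
        simp only [hg]; linarith
      have b2 : ∀ x, log (2 * cosh (t * hc x)) + (1 - t) * (hc x * tanh (t * hc x)) ≤ 2 * L + 1 := fun x => by
        obtain ⟨u1, u2, u3⟩ := logcosh_bound (abs_le.2 ⟨by linarith, ht1⟩) (abs_clip_le hL (h x))
        have := mul_le_mul_of_nonneg_left (abs_le.1 u3).2 (show 0 ≤ 1 - t by linarith)
        have := mul_le_of_le_one_left hL (show 1 - t ≤ 1 by linarith)
        have := log_le_sub_one_of_pos (two_pos : (0:ℝ) < 2)
        simp only [hc]; rw [log_mul two_ne_zero (cosh_pos _).ne']; linarith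
      have s1 := sum_le_sum (s := univ) fun k (_ : k ∈ univ) => b1 k
      have s2 := sum_le_sum (s := univ) fun x (_ : x ∈ univ) => b2 x
      simp only [sum_add_distrib, ← mul_sum, sum_const, card_univ, Fintype.card_fin, nsmul_eq_mul] at s1 s2
      simp only [ann, ener]; linarith
    have hlow : -((M + N) * L) ≤ av (logPart g S hc) := by
      rw [← av_const (α := Fin M → Fin K → Fin N) (-((M + N) * L))]
      refine av_mono fun i => ?_
      have hb : ∀ σ, -((M + N) * L) ≤ ham g S hc σ i := by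
        intro σ
        have t1 : ∀ k, -L ≤ g k * par (S k) σ (i k) := fun k => by
          have := abs_clip_le hL (cpl (w k))
          rcases par_pm (S k) σ (i k) with e | e <;> rw [e] <;> simp only [hg] <;>
            linarith [(abs_le.1 this).1, (abs_le.1 this).2]
        have t2 : ∀ x, -L ≤ hc x * sg (σ x) := fun x => by
          have := abs_clip_le hL (h x)
          cases σ x <;> simp [sg, hc] <;> linarith [(abs_le.1 this).1, (abs_le.1 this).2]
        have s1 := sum_le_sum (s := univ) fun k (_ : k ∈ univ) => t1 k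
        have s2 := sum_le_sum (s := univ) fun x (_ : x ∈ univ) => t2 x
        simp only [sum_const, card_univ, Fintype.card_fin, nsmul_eq_mul] at s1 s2
        simp only [ham, fieldSum]; linarith
      obtain ⟨σ⟩ : Nonempty (Fin N → Bool) := ⟨fun _ => true⟩
      refine le_trans (hb σ) ?_
      rw [← log_exp (ham g S hc σ i)]
      exact log_le_log (exp_pos _) (single_le_sum (f := fun σ => exp (ham g S hc σ i)) (fun σ _ => (exp_pos _).le) (mem_univ σ))
    have hlow' : -((M + N) * L) ≤ av (fun i => logPart g S hc i) := hlow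
    linarith
  · intro hδ ha0 ha1 w'
    have hw := windowed_lower w' ha0 ha1
    simp only [S, slack_act] at hw
    have : (1 - t) * (δ * N) ≤ δ * N := mul_le_of_le_one_left (by positivity) (by linarith)
    have hlow' : _ ≤ av (fun i => logPart g S hc i) := hw
    linarith

end Vale.Agent.P168
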