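import Vale.Agent.P168.Trial

open MeasureTheory ProbabilityTheory Real Finset

namespace Vale.Agent.P168

variable {K n N : ℕ} {ν η : Measure (ℝ × ℝ)} {ρ : Measure ℝ}

/-- mean of the two values -/
noncomputable def fbar (p : ℝ × ℝ) : ℝ := (p.1 + p.2) / 2

/-- mean under a message -/
noncomputable def fmean (p : ℝ × ℝ) (x : ℝ) : ℝ := p.1 * ((1 + x) / 2) + p.2 * ((1 - x) / 2)

lemma sum_fval_msg (p : ℝ × ℝ) (x : ℝ) : ∑ b : Bool, fval p b * msgWeight x b = fmean p x := by
  simp only [Fintype.sum_bool, fval, msgWeight, sg, if_true, Bool.false_eq_true, if_false, fmean]; ring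

lemma abs_fmean_le {p : ℝ × ℝ} (h : |p.1| ≤ 1 ∧ |p.2| ≤ 1) {x : ℝ} (hx : |x| ≤ 1) : |fmean p x| ≤ 1 := by
  have hx' := abs_le.1 hx
  unfold fmean
  refine (abs_add_le _ _).trans ?_
  rw [abs_mul, abs_mul, abs_of_nonneg (show 0 ≤ (1 + x) / 2 by linarith),
    abs_of_nonneg (show 0 ≤ (1 - x) / 2 by linarith)]
  have h1 := mul_le_mul_of_nonneg_right h.1 (show 0 ≤ (1 + x) / 2 by linarith)
  have h2 := mul_le_mul_of_nonneg_right h.2 (show 0 ≤ (1 - x) / 2 by linarith)
  linarith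

lemma fmean_zero (p : ℝ × ℝ) : fmean p 0 = fbar p := by unfold fmean fbar; ring

lemma abs_fbar_le {p : ℝ × ℝ} (h : |p.1| ≤ 1 ∧ |p.2| ≤ 1) : |fbar p| ≤ 1 := by
  rw [← fmean_zero]; exact abs_fmean_le h (by simp)

@[fun_prop]
lemma measurable_fbar : Measurable fbar := by unfold fbar; fun_prop

lemma prod_skip (ℓ : Fin K) (g : Fin K → ℝ) :
    ∏ j, (if j = ℓ then (1:ℝ) else g j) = ∏ j ∈ univ.erase ℓ, g j := by
  rw [← mul_prod_erase univ _ (mem_univ ℓ), if_pos rfl, one_mul]
  exact prod_congr rfl fun j hj => if_neg (ne_of_mem_erase hj)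

lemma clauseU_eq {c : Clause K} (hc : Valid c) (ℓ : Fin K) (s : Bool) (xs : Fin K → ℝ) :
    clauseU c ℓ s xs = c.1.1 * (1 + c.1.2 * (fval (c.2 ℓ) s * ∏ j ∈ univ.erase ℓ, fmean (c.2 j) (xs j))) := by
  have h1 := sum_fix ℓ s (fun j b => msgWeight (xs j) b)
  simp only [sum_msgWeight, prod_const_one] at h1
  have h2 := sum_fix ℓ s (fun j b => fval (c.2 j) b * msgWeight (xs j) b)
  simp only [sum_fval_msg] at h2
  unfold clauseU
  have e : ∀ σ : Fin K → Bool,
      (if σ ℓ = s then exp (theta c σ) * ∏ j ∈ univ.erase ℓ, msgWeight (xs j) (σ j) else 0) =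
      c.1.1 * (if σ ℓ = s then ∏ j ∈ univ.erase ℓ, msgWeight (xs j) (σ j) else 0) +
      c.1.1 * c.1.2 * fval (c.2 ℓ) s *
        (if σ ℓ = s then ∏ j ∈ univ.erase ℓ, fval (c.2 j) (σ j) * msgWeight (xs j) (σ j) else 0) := by
    intro σ
    split_ifs with h
    · rw [exp_theta hc, ← mul_prod_erase univ _ (mem_univ ℓ), h, prod_mul_distrib]; ring
    · simp
  simp only [e]
  rw [sum_add_distrib, ← mul_sum, ← mul_sum, h1, h2]; ring

lemma clauseV_eq {c : Clause K} (hc : Valid c) (xs : Fin K → ℝ) :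
    clauseV c xs = c.1.1 * (1 + c.1.2 * ∏ j, fmean (c.2 j) (xs j)) := by
  have h1 : ∑ σ : Fin K → Bool, ∏ j, msgWeight (xs j) (σ j) = 1 := by
    rw [← Fintype.prod_sum (fun j b => msgWeight (xs j) b)]; simp only [sum_msgWeight, prod_const_one]
  have h2 : ∑ σ : Fin K → Bool, ∏ j, (fval (c.2 j) (σ j) * msgWeight (xs j) (σ j)) = ∏ j, fmean (c.2 j) (xs j) := by
    rw [← Fintype.prod_sum (fun j b => fval (c.2 j) b * msgWeight (xs j) b)]; simp only [sum_fval_msg]
  unfold clauseV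
  have e : ∀ σ : Fin K → Bool, exp (theta c σ) * ∏ j, msgWeight (xs j) (σ j) =
      c.1.1 * (∏ j, msgWeight (xs j) (σ j)) +
      c.1.1 * c.1.2 * ∏ j, (fval (c.2 j) (σ j) * msgWeight (xs j) (σ j)) := fun σ => by
    rw [exp_theta hc, prod_mul_distrib]; ring
  simp only [e]
  rw [sum_add_distrib, ← mul_sum, ← mul_sum, h1, h2]; ring

lemma log_affine {a b y p : ℝ} (ha : 0 < a) (hb : |b| < 1) (hy : |y| ≤ p) (hp : p ≤ 1) :
    |log (a * (1 + b * y)) - log a| ≤ -log (1 - |b|) * p := by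
  have hy1 := hy.trans hp
  have hpos : 0 < 1 + b * y := by
    have h := abs_mul b y
    have h2 := mul_le_of_le_one_right (abs_nonneg b) hy1
    linarith [neg_abs_le (b * y)]
  rw [log_mul ha.ne' hpos.ne', add_sub_cancel_left]
  refine (log_one_add_mem hb hy1).trans (mul_le_mul_of_nonneg_left hy ?_)
  have := log_nonpos (show 0 ≤ 1 - |b| by linarith) (by linarith [abs_nonneg b])
  linarith

lemma abs_prod_fbar {c : Clause K} (hc : Valid c) (S : Finset (Fin K)) :
    0 ≤ ∏ j ∈ S, |fbar (c.2 j)| ∧ ∏ j ∈ S, |fbar (c.2 j)| ≤ 1 :=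
  ⟨prod_nonneg fun _ _ => abs_nonneg _, prod_le_one (fun _ _ => abs_nonneg _) fun j _ => abs_fbar_le (hc.2.2 j)⟩

/-- mean over the disorder of products of `|fbar|` -/
lemma iso_erase (d : Disorder ν η ρ) (u : ℝ × ℝ → ℝ) (hu : Integrable u ν) (ℓ : Fin K) :
    Integrable (fun c : Clause K => u c.1 * ∏ j ∈ univ.erase ℓ, |fbar (c.2 j)|) (clauseLaw ν η K) ∧
    ∫ c : Clause K, u c.1 * ∏ j ∈ univ.erase ℓ, |fbar (c.2 j)| ∂clauseLaw ν η K =
      (∫ c, u c ∂ν) * (∫ p, |fbar p| ∂η) ^ (K - 1) := by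
  have := d.pν; have := d.pη
  set e : Fin K → ℝ × ℝ → ℝ := fun j p => if j = ℓ then 1 else |fbar p|
  have he : ∀ c : Clause K, ∏ j ∈ univ.erase ℓ, |fbar (c.2 j)| = ∏ j, e j (c.2 j) := fun c =>
    (prod_skip ℓ fun j => |fbar (c.2 j)|).symm
  simp only [he]
  have ie : ∀ j, Integrable (e j) η := fun j => by
    by_cases h : j = ℓ
    · simp [e, h]
    · simp only [e, if_neg h]
      refine Integrable.of_bound (by fun_prop) 1 ?_
      filter_upwards [d.hf] with p hp
      simpa [Real.norm_eq_abs] using abs_fbar_le hp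
  refine ⟨hu.mul_prod (Integrable.fintype_prod ie), ?_⟩
  rw [d.mixed u e]
  congr 1
  have : ∀ j, ∫ p, e j p ∂η = if j = ℓ then 1 else ∫ p, |fbar p| ∂η := fun j => by
    by_cases h : j = ℓ <;> simp [e, h]
  rw [prod_congr rfl fun j _ => this j, prod_skip ℓ fun _ => ∫ p, |fbar p| ∂η]
  simp [prod_const]

lemma iso_all (d : Disorder ν η ρ) (u : ℝ × ℝ → ℝ) (hu : Integrable u ν) :
    Integrable (fun c : Clause K => u c.1 * ∏ j, |fbar (c.2 j)|) (clauseLaw ν η K) ∧
    ∫ c : Clause K, u c.1 * ∏ j, |fbar (c.2 j)| ∂clauseLaw ν η K =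
      (∫ c, u c ∂ν) * (∫ p, |fbar p| ∂η) ^ K := by
  have := d.pν; have := d.pη
  have ie : Integrable (fun p => |fbar p|) η := by
    refine Integrable.of_bound (by fun_prop) 1 ?_
    filter_upwards [d.hf] with p hp
    simpa [Real.norm_eq_abs] using abs_fbar_le hp
  refine ⟨hu.mul_prod (Integrable.fintype_prod fun _ => ie), ?_⟩
  rw [d.mixed u fun _ p => |fbar p|]; simp [prod_const]

lemma log_two_cosh_bound (y : ℝ) : 0 ≤ log (cosh y) ∧ log (cosh y) ≤ |y| := by
  refine ⟨log_nonneg (one_le_cosh _), ?_⟩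
  rw [log_le_iff_le_exp (cosh_pos _), Real.cosh_eq]
  linarith [exp_le_exp.2 (le_abs_self y), exp_le_exp.2 (neg_le_abs y)]

lemma integrable_log_two_cosh (d : Disorder ν η ρ) (m : ℝ) :
    Integrable (fun y => log (2 * cosh (m * y))) ρ := by
  have := d.pρ
  refine ((d.hh.abs.const_mul |m|).add (integrable_const (log 2))).mono'
    (Real.measurable_log.comp (by fun_prop)).aestronglyMeasurable (Filter.Eventually.of_forall fun y => ?_)
  obtain ⟨h1, h2⟩ := log_two_cosh_bound (m * y)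
  rw [abs_mul] at h2
  have l0 := log_nonneg (one_le_two : (1:ℝ) ≤ 2)
  rw [Real.norm_eq_abs, log_mul two_ne_zero (cosh_pos _).ne', abs_of_nonneg (by linarith)]
  simp only [Pi.add_apply, id_eq]; linarith

lemma integrable_gb (d : Disorder ν η ρ) : Integrable (fun c : ℝ × ℝ => gb c.2) ν :=
  d.hlb.mono' (measurable_gb.comp measurable_snd).aestronglyMeasurable (d.hab.mono fun _ hc => by simpa [Real.norm_eq_abs] using abs_gb_le hc.2)

lemma integrable_ub (d : Disorder ν η ρ) : Integrable ub ν :=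
  (d.hla.abs.add d.hlb).mono' (by fun_prop) (d.hab.mono fun _ hc => by simpa [Real.norm_eq_abs] using abs_ub_le hc.2)

lemma integrable_log_cosh (d : Disorder ν η ρ) (m : ℝ) :
    Integrable (fun c : ℝ × ℝ => log (cosh (m * gb c.2))) ν := by
  refine ((integrable_gb d).abs.const_mul |m|).mono'
    (Real.measurable_log.comp (by fun_prop)).aestronglyMeasurable (Filter.Eventually.of_forall fun c => ?_)
  obtain ⟨h1, h2⟩ := log_two_cosh_bound (m * gb c.2)
  rw [Real.norm_eq_abs, abs_of_nonneg h1]; rwa [abs_mul] at h2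

/-! ### the zero trial -/

lemma levelOne_zero {Y : (Fin n → Fin K → ℝ) → ℝ} {m : ℝ} (hm : 0 < m) (hY : 0 < Y fun _ _ => 0) :
    levelOne m (fun _ _ => 0) Y = log (Y fun _ _ => 0) := by
  simp [levelOne, ← rpow_mul hY.le, mul_inv_cancel₀ hm.ne']

lemma depth_zero_le [NeZero K] (d : Disorder ν η ρ) {lam m : ℝ} (hlam : 0 ≤ lam) (hm : 0 < m) :
    depthOne ν η ρ lam K m (fun _ _ => 0) ≤ ∫ y, log (2 * cosh y) ∂ρ + lam * ∫ c, log c.1 ∂ν +
      2 * K * lam * (∫ c, lam0 c ∂ν) * (∫ p, |fbar p| ∂η) ^ (K - 1) := by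
  have := d.pν; have := d.pη; have := d.pρ
  set r := ∫ p, |fbar p| ∂η with hr
  set EL := ∫ c, lam0 c ∂ν
  set Ea := ∫ c, log c.1 ∂ν
  have hx : ∀ a b : ℝ, |(fun _ _ => (0:ℝ)) a b| ≤ 1 := by simp
  set βU := fun (c : Clause K) (ℓ : Fin K) => log c.1.1 + lam0 c.1 * ∏ j ∈ univ.erase ℓ, |fbar (c.2 j)|
  have ia := d.base (K := K) d.hla
  have iU : ∀ ℓ, Integrable (fun c => βU c ℓ) (clauseLaw ν η K) ∧ ∫ c, βU c ℓ ∂clauseLaw ν η K = Ea + EL * r ^ (K - 1) := fun ℓ => by
    refine ⟨ia.1.add (iso_erase d lam0 d.hlb ℓ).1, ?_⟩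
    rw [integral_add ia.1 (iso_erase d lam0 d.hlb ℓ).1, ia.2, (iso_erase d lam0 d.hlb ℓ).2]
  have hU := funU_le (K := K) d hlam (x := fun _ _ => 0) measurable_const hx hm (Q := fun _ => True)
    (Filter.Eventually.of_forall fun _ => trivial) (α := fun y => log (2 * cosh y))
    (by simpa using integrable_log_two_cosh d 1) (β := βU) (fun ℓ => (iU ℓ).1) ?_
  swap
  · intro n h w ℓ hw _
    have hpos : 0 < cavU h w ℓ fun _ _ => 0 :=
      lt_of_lt_of_le (exp_pos _) (cavU_mem hw ℓ (xs := fun _ _ => 0) (by simp)).1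
    rw [levelOne_zero hm hpos, log_le_iff_le_exp hpos, cavU_eq, exp_add, exp_log (by positivity), exp_sum]
    calc _ ≤ ∑ s : Bool, exp (h * sg s) * ∏ k, exp (βU (w k) (ℓ k)) := by
          refine sum_le_sum fun s _ => mul_le_mul_of_nonneg_left (prod_le_prod (fun k _ => ?_) fun k _ => ?_) (exp_pos _).le
          · exact (exp_pos _).le.trans (clauseU_mem (hw k) _ _ (by simp)).1
          · have hp := clauseU_mem (hw k) (ℓ k) s (xs := fun _ => 0) (by simp)
            rw [← log_le_iff_le_exp (lt_of_lt_of_le (exp_pos _) hp.1), clauseU_eq (hw k)]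
            have hy : |fval ((w k).2 (ℓ k)) s * ∏ j ∈ univ.erase (ℓ k), fmean ((w k).2 j) 0| ≤
                ∏ j ∈ univ.erase (ℓ k), |fbar ((w k).2 j)| := by
              simp only [fmean_zero]; rw [abs_mul, abs_prod]
              exact mul_le_of_le_one_left (prod_nonneg fun _ _ => abs_nonneg _) (abs_fval_le ((hw k).2.2 _) _)
            have := (abs_le.1 (log_affine (hw k).1 (hw k).2.1 hy (abs_prod_fbar (hw k) _).2)).2
            simp only [βU, lam0]; linarith
      _ = _ := by rw [← sum_mul, Real.cosh_eq]; simp only [Fintype.sum_bool, sg, if_true, Bool.false_eq_true, if_false]; ring_nf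
  set βV := fun c : Clause K => log c.1.1 - lam0 c.1 * ∏ j, |fbar (c.2 j)|
  have iV := iso_all (K := K) d lam0 d.hlb
  have hV := funV_ge (K := K) d hlam NeZero.one_le (x := fun _ _ => 0) measurable_const hx hm (Q := fun _ => True)
    (Filter.Eventually.of_forall fun _ => trivial) (β := βV) (ia.1.sub iV.1) ?_
  swap
  · intro n w hw _
    have hpos : 0 < cavV w fun _ _ => 0 :=
      lt_of_lt_of_le (exp_pos _) (cavV_mem hw (xs := fun _ _ => 0) (by simp)).1
    rw [levelOne_zero hm hpos, le_log_iff_exp_le hpos, cavV_eq, exp_sum]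
    refine prod_le_prod (fun k _ => (exp_pos _).le) fun k _ => ?_
    have hp := clauseV_mem (hw k) (xs := fun _ => 0) (by simp)
    rw [← le_log_iff_exp_le (lt_of_lt_of_le (exp_pos _) hp.1), clauseV_eq (hw k)]
    have hy : |∏ j, fmean ((w k).2 j) 0| ≤ ∏ j, |fbar ((w k).2 j)| := by simp only [fmean_zero, abs_prod]; rfl
    have := (abs_le.1 (log_affine (hw k).1 (hw k).2.1 hy (abs_prod_fbar (hw k) _).2)).1
    simp only [βV, lam0]; linarith
  have eU : ∫ c, av (βU c) ∂clauseLaw ν η K = Ea + EL * r ^ (K - 1) := by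
    unfold av
    rw [integral_div, integral_finsetSum _ fun ℓ _ => (iU ℓ).1, sum_congr rfl fun ℓ _ => (iU ℓ).2]
    have : (K:ℝ) ≠ 0 := by exact_mod_cast (NeZero.ne K)
    simp; field_simp
  have eV : ∫ c, βV c ∂clauseLaw ν η K = Ea - EL * r ^ K := by
    rw [integral_sub ia.1 iV.1, ia.2, iV.2]
  rw [eU] at hU; rw [eV] at hV
  have hr0 : 0 ≤ r := integral_nonneg fun _ => abs_nonneg _
  have hr1 : r ≤ 1 := by
    have h := norm_integral_le_of_norm_le_const (μ := η) (f := fun p => |fbar p|) (C := 1)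
      (d.hf.mono fun p hp => by simpa [Real.norm_eq_abs] using abs_fbar_le hp)
    rw [Real.norm_eq_abs, abs_of_nonneg (show (0:ℝ) ≤ ∫ p, |fbar p| ∂η from hr0)] at h
    simpa [hr] using h
  have hEL : 0 ≤ EL := integral_nonneg_of_ae (d.hab.mono fun _ hc => lam0_nonneg hc.2)
  have hp : r ^ K ≤ r ^ (K - 1) := pow_le_pow_of_le_one hr0 hr1 (Nat.sub_le _ _)
  have h1 := mul_le_mul_of_nonneg_left hp (show 0 ≤ (K:ℝ) * lam * EL by positivity)
  have h2 : 0 ≤ lam * EL * r ^ K := by positivity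
  unfold depthOne; linarith

lemma clauseU_const {c : Clause K} (hc : Valid c) (hq : ∀ j, (c.2 j).1 = (c.2 j).2) (ℓ : Fin K) (s : Bool) :
    clauseU c ℓ s (fun _ => 0) = exp (theta c fun _ => true) ∧
    clauseV c (fun _ => 0) = exp (theta c fun _ => true) := by
  have hm : ∀ j, fmean (c.2 j) 0 = (c.2 j).1 := fun j => by rw [fmean_zero, fbar, hq j]; ring
  have hv : fval (c.2 ℓ) s = (c.2 ℓ).1 := by cases s <;> simp [fval, hq ℓ]
  rw [clauseU_eq hc, clauseV_eq hc, exp_theta hc]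
  simp only [hm, hv]
  rw [mul_prod_erase univ (fun j => (c.2 j).1) (mem_univ ℓ)]
  simp [fval]

lemma integrable_theta (d : Disorder ν η ρ) (σ : Fin K → Bool) :
    Integrable (fun c : Clause K => theta c σ) (clauseLaw ν η K) :=
  (d.base (K := K) (d.hla.abs.add d.hlb)).1.mono' (measurable_theta σ).aestronglyMeasurable
    (d.valid.mono fun c hc => by simpa [Real.norm_eq_abs] using abs_theta_le hc σ)

/-- spin-independent interactions: exact comparison -/
lemma const_case [NeZero K] [NeZero N] (d : Disorder ν η ρ) (hq : ∀ᵐ p ∂η, p.1 = p.2) {lam m : ℝ}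
    (hlam : 0 ≤ lam) (hm : 0 < m) :
    depthOne ν η ρ lam K m (fun _ _ => 0) ≤ pressure ν η ρ lam K N := by
  have := d.pν; have := d.pη; have := d.pρ
  set Λ := clauseLaw ν η K with hΛ
  set κ := fun c : Clause K => theta c fun _ => true
  set Eκ := ∫ c, κ c ∂Λ
  set B := ∫ y, log (2 * cosh y) ∂ρ
  set Q := fun c : Clause K => ∀ j, (c.2 j).1 = (c.2 j).2
  have hQ : ∀ᵐ c ∂Λ, Q c := Measure.quasiMeasurePreserving_snd.ae (ae_all_iff.2 fun j =>
      (Measure.tendsto_eval_ae_ae (μ := fun _ : Fin K => η) (i := j)).eventually hq)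
  have iκ : Integrable κ Λ := integrable_theta d _
  have ilc : Integrable (fun y => log (2 * cosh y)) ρ := by simpa using integrable_log_two_cosh d 1
  have hx : ∀ a b : ℝ, |(fun _ _ => (0:ℝ)) a b| ≤ 1 := by simp
  have hU := funU_le (K := K) d hlam (x := fun _ _ => 0) measurable_const hx hm hQ
    (α := fun y => log (2 * cosh y)) ilc (β := fun c _ => κ c) (fun _ => iκ) ?_
  swap
  · intro n h w ℓ hw hQw
    have hpos : 0 < cavU h w ℓ fun _ _ => 0 :=
      lt_of_lt_of_le (exp_pos _) (cavU_mem hw ℓ (xs := fun _ _ => 0) (by simp)).1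
    rw [levelOne_zero hm hpos]
    refine le_of_eq ?_
    have e : cavU h w ℓ (fun _ _ => 0) = 2 * cosh h * exp (∑ k, κ (w k)) := by
      rw [cavU_eq, exp_sum]
      simp only [fun s k => (clauseU_const (hw k) (hQw k) (ℓ k) s).1, κ]
      rw [← sum_mul, Real.cosh_eq]; simp only [Fintype.sum_bool, sg, if_true, Bool.false_eq_true, if_false]; ring_nf
    rw [e, log_mul (by positivity) (exp_pos _).ne', log_exp]
  have hV := funV_ge (K := K) d hlam NeZero.one_le (x := fun _ _ => 0) measurable_const hx hm hQ (β := κ) iκ ?_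
  swap
  · intro n w hw hQw
    have hpos : 0 < cavV w fun _ _ => 0 :=
      lt_of_lt_of_le (exp_pos _) (cavV_mem hw (xs := fun _ _ => 0) (by simp)).1
    rw [levelOne_zero hm hpos]
    refine le_of_eq ?_
    rw [cavV_eq]
    simp only [fun k => (clauseU_const (hw k) (hQw k) 0 true).2, κ]
    rw [← exp_sum, log_exp]
  have eU : ∫ c, av (fun _ : Fin K => κ c) ∂Λ = Eκ := by simp only [av_const]; rfl
  rw [← hΛ, eU] at hU
  have hP := pressure_ge (N := N) (K := K) d (lam := lam) (A := Eκ) (B := N * B) (C := 0) hlam ?_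
  · have hN : (0:ℝ) < N := by exact_mod_cast NeZero.pos N
    have e : (↑N * B - 0 * (lam * ↑N)) / ↑N = B := by field_simp; ring
    rw [e] at hP
    unfold depthOne; linarith
  intro M
  classical
  set E := fun (h : Fin N → ℝ) (w : Fin M → Clause K) => ∑ x, log (2 * cosh (h x)) + ∑ k, κ (w k)
  refine ⟨fun h w => if ∀ k, Q (w k) then E h w else -crude h w, fun h w hw => ?_, ?_⟩
  · dsimp only
    split_ifs with hQw
    · rw [← av_const (α := Fin M → Fin K → Fin N) (E h w)]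
      refine av_mono fun i => le_of_eq ?_
      have ht : ∀ k (τ : Fin K → Bool), theta (w k) τ = κ (w k) := fun k τ => by
        simp only [theta, κ]
        congr 4
        refine prod_congr rfl fun j _ => ?_
        cases τ j <;> simp [fval, hQw k j]
      have hs : ∑ σ : Fin N → Bool, exp (∑ x, h x * sg (σ x)) = ∏ x, (2 * cosh (h x)) := sum_exp_field h
      simp only [logZ, ht, exp_add, ← mul_sum, hs, E]
      rw [log_mul (exp_pos _).ne' (prod_ne_zero_iff.2 fun x _ => by positivity), log_exp,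
        log_prod (fun x _ => by positivity)]
      ring
    · exact (abs_le.1 (abs_av_logZ hw)).1
  have h1 := integral_sum_eval ρ ilc N
  have h2 := integral_sum_eval Λ iκ M
  have hae : (fun p : (Fin N → ℝ) × (Fin M → Clause K) => E p.1 p.2) =ᵐ[(Measure.pi fun _ => ρ).prod
      (Measure.pi fun _ => Λ)] fun p => if ∀ k, Q (p.2 k) then E p.1 p.2 else -crude p.1 p.2 := by
    have hQn : ∀ᵐ w ∂Measure.pi (fun _ : Fin M => Λ), ∀ k, Q (w k) :=
      ae_all_iff.2 fun k => (Measure.tendsto_eval_ae_ae (μ := fun _ : Fin M => Λ) (i := k)).eventually hQ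
    exact (Measure.quasiMeasurePreserving_snd.ae hQn).mono fun p hp => by simp [hp]
  have hE : Integrable (fun p : (Fin N → ℝ) × (Fin M → Clause K) => E p.1 p.2)
      ((Measure.pi fun _ => ρ).prod (Measure.pi fun _ => Λ)) := (h1.1.comp_fst _).add (h2.1.comp_snd _)
  refine ⟨hE.congr hae, le_of_eq ?_⟩
  rw [← integral_congr_ae hae, integral_add (h1.1.comp_fst _) (h2.1.comp_snd _),
    integral_fun_fst (fun h : Fin N → ℝ => ∑ x, log (2 * cosh (h x))),
    integral_fun_snd (fun w : Fin M → Clause K => ∑ k, κ (w k)), h1.2, h2.2]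
  simp [Eκ, B]; ring

/-! ### the sign trial -/

/-- one-step trial with messages `±1` of equal weight -/
noncomputable def signTrial : ℝ → ℝ → ℝ := fun _ ω => if ω < 1 / 2 then 1 else -1

lemma measurable_signTrial : Measurable (Function.uncurry signTrial) :=
  Measurable.ite (measurableSet_lt measurable_snd measurable_const) measurable_const measurable_const

lemma abs_signTrial (a b : ℝ) : |signTrial a b| ≤ 1 := by unfold signTrial; split <;> simp

lemma integral_fmean_sign (p : ℝ × ℝ) (a : ℝ) :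
    Integrable (fun ω => fmean p (signTrial a ω)) unif01 ∧ ∫ ω, fmean p (signTrial a ω) ∂unif01 = fbar p := by
  have e : (fun ω => fmean p (signTrial a ω)) =
      fun ω => p.2 + (Set.Iio (1 / 2 : ℝ)).indicator (fun _ => p.1 - p.2) ω := by
    funext ω
    by_cases h : ω < 1 / 2
    · rw [Set.indicator_of_mem (Set.mem_Iio.2 h), fmean, signTrial, if_pos h]; ring
    · rw [Set.indicator_of_notMem (by simpa using h), fmean, signTrial, if_neg h]; ring
  rw [e]
  have hi : Integrable ((Set.Iio (1 / 2 : ℝ)).indicator (fun _ => p.1 - p.2)) unif01 :=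
    (integrable_const _).indicator measurableSet_Iio
  refine ⟨(integrable_const _).add hi, ?_⟩
  rw [integral_add (integrable_const _) hi, integral_indicator_const _ measurableSet_Iio]
  have hs : Set.Iio (1 / 2 : ℝ) ∩ Set.Icc 0 1 = Set.Ico 0 (1 / 2) := by
    ext z; simp only [Set.mem_inter_iff, Set.mem_Iio, Set.mem_Icc, Set.mem_Ico]
    constructor <;> intro h <;> refine ⟨?_, ?_⟩ <;> (try constructor) <;> linarith [h.1, h.2]
  rw [unif01, measureReal_restrict_apply measurableSet_Iio, hs]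
  simp [fbar]; ring

lemma cosh_add_sinh_mul {u y p : ℝ} (hy : |y| ≤ p) (hp : p ≤ 1) :
    cosh u + sinh u * y ≤ cosh u * exp p ∧ cosh u * exp (-(2 * |u| * p)) ≤ cosh u + sinh u * y := by
  have hτ := abs_tanh_lt_one u
  have hy1 := hy.trans hp
  have e : cosh u + sinh u * y = cosh u * (1 + tanh u * y) := by
    rw [tanh_eq_sinh_div_cosh]; field_simp [(cosh_pos u).ne']
  have h1 : |tanh u * y| ≤ p := by rw [abs_mul]; exact (mul_le_of_le_one_left (abs_nonneg _) hτ.le).trans hy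
  constructor
  · rw [e]; exact mul_le_mul_of_nonneg_left (by linarith [add_one_le_exp p, (abs_le.1 h1).2]) (cosh_pos u).le
  · rw [e]; refine mul_le_mul_of_nonneg_left ?_ (cosh_pos u).le
    have hpos : 0 < 1 + tanh u * y := by
      have h := abs_mul (tanh u) y
      have h2 := mul_le_of_le_one_right (abs_nonneg (tanh u)) hy1
      linarith [neg_abs_le (tanh u * y)]
    rw [← le_log_iff_exp_le hpos]
    have h2 := log_one_add_mem (y := y) hτ hy1
    have h3 : -log (1 - |tanh u|) ≤ 2 * |u| := by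
      have e2 : 1 - |tanh u| = exp (-|u|) / cosh u := by
        rw [tanh_eq_sinh_div_cosh, abs_div, abs_of_pos (cosh_pos u), abs_sinh, ← cosh_abs u, ← cosh_sub_sinh]
        field_simp [(cosh_pos |u|).ne']
      rw [e2, log_div (exp_pos _).ne' (cosh_pos _).ne', log_exp]
      linarith [(log_two_cosh_bound u).2]
    have h0 : 0 ≤ -log (1 - |tanh u|) := by
      have := log_nonpos (show 0 ≤ 1 - |tanh u| by linarith) (by linarith [abs_nonneg (tanh u)])
      linarith
    have h4 := mul_le_mul h3 hy (abs_nonneg y) (by positivity)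
    linarith [(abs_le.1 h2).1]

lemma fmean_sign_pm {p : ℝ × ℝ} (h : |p.1| = 1 ∧ |p.2| = 1) (a ω : ℝ) :
    |fmean p (signTrial a ω)| = 1 := by
  unfold fmean signTrial
  split <;> norm_num [h.1, h.2]

lemma sign_pow {c : Clause K} (hc : Valid c) (hp : PM c) (S : Finset (Fin K)) {A : ℝ} (hA : |A| = 1)
    (m : ℝ) (a : Fin K → ℝ) :
    Integrable (fun ω : Fin K → ℝ => (c.1.1 * (1 + c.1.2 * (A * ∏ j ∈ S, fmean (c.2 j) (signTrial (a j) (ω j))))) ^ m)
      (Measure.pi fun _ => unif01) ∧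
    ∫ ω : Fin K → ℝ, (c.1.1 * (1 + c.1.2 * (A * ∏ j ∈ S, fmean (c.2 j) (signTrial (a j) (ω j))))) ^ m
        ∂Measure.pi (fun _ => unif01) =
      exp (m * ub c.1) * (cosh (m * gb c.1.2) + sinh (m * gb c.1.2) * (A * ∏ j ∈ S, fbar (c.2 j))) := by
  set e : Fin K → ℝ → ℝ := fun j ω => if j ∈ S then fmean (c.2 j) (signTrial (a j) ω) else 1
  have he : ∀ ω : Fin K → ℝ, ∏ j ∈ S, fmean (c.2 j) (signTrial (a j) (ω j)) = ∏ j, e j (ω j) := fun ω => by
    simp [e, prod_ite_mem]
  have hpt : ∀ ω : Fin K → ℝ, (c.1.1 * (1 + c.1.2 * (A * ∏ j, e j (ω j)))) ^ m =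
      exp (m * ub c.1) * cosh (m * gb c.1.2) + exp (m * ub c.1) * sinh (m * gb c.1.2) * A * ∏ j, e j (ω j) := by
    intro ω
    have hy : |A * ∏ j, e j (ω j)| = 1 := by
      rw [abs_mul, hA, one_mul, abs_prod]
      exact prod_eq_one fun j _ => by by_cases h : j ∈ S <;> simp [e, h, fmean_sign_pm (hp j)]
    have hb := abs_lt.1 hc.2.1
    generalize hP : ∏ j, e j (ω j) = P at hy ⊢
    rw [mul_assoc _ A P]
    rcases pm_mem hy with h | h <;> rw [h]
    · rw [mul_one, mul_one, ← mul_add, cosh_add_sinh, ← exp_add, rpow_def_of_pos (mul_pos hc.1 (by linarith)),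
        log_mul hc.1.ne' (by linarith)]
      congr 1; unfold ub gb; ring
    · rw [mul_neg_one, mul_neg_one, ← sub_eq_add_neg, ← sub_eq_add_neg, ← mul_sub, cosh_sub_sinh, ← exp_add,
        rpow_def_of_pos (mul_pos hc.1 (by linarith)), log_mul hc.1.ne' (by linarith)]
      congr 1; unfold ub gb; ring
  have ie : ∀ j, Integrable (e j) unif01 := fun j => by
    by_cases h : j ∈ S
    · simp only [e, if_pos h]; exact (integral_fmean_sign _ _).1
    · simp only [e, if_neg h]; exact integrable_const _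
  have hi : Integrable (fun ω : Fin K → ℝ => ∏ j, e j (ω j)) (Measure.pi fun _ => unif01) :=
    Integrable.fintype_prod ie
  simp only [he, hpt]
  refine ⟨(integrable_const _).add (hi.const_mul _), ?_⟩
  rw [integral_add (integrable_const _) (hi.const_mul _), integral_const_mul (exp (m * ub c.1) * sinh (m * gb c.1.2) * A),
    integral_fintype_prod_eq_prod]
  have : ∀ j, ∫ ω, e j ω ∂unif01 = if j ∈ S then fbar (c.2 j) else 1 := fun j => by
    by_cases h : j ∈ S <;> simp [e, h, integral_fmean_sign]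
  rw [prod_congr rfl fun j _ => this j, prod_ite_mem, univ_inter]
  simp; ring

lemma levelOne_le_const {Y : (Fin n → Fin K → ℝ) → ℝ} {m C : ℝ} {x : ℝ → ℝ → ℝ}
    (hxm : Measurable (Function.uncurry x)) (hY : Measurable Y)
    {D : ℝ} (hb : ∀ xs, (∀ k j, |xs k j| ≤ 1) → exp (-D) ≤ Y xs ∧ Y xs ≤ exp D)
    (hx : ∀ a b, |x a b| ≤ 1) (hm : 0 < m) :
    Integrable (fun ω₀ : Fin n → Fin K → ℝ =>
      log ((∫ ω₁, Y (fun k j => x (ω₀ k j) (ω₁ k j)) ^ m ∂msgLaw n K) ^ (1 / m))) (msgLaw n K) ∧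
    ((∀ ω₀ : Fin n → Fin K → ℝ,
      log ((∫ ω₁, Y (fun k j => x (ω₀ k j) (ω₁ k j)) ^ m ∂msgLaw n K) ^ (1 / m)) ≤ C) → levelOne m x Y ≤ C) ∧
    ((∀ ω₀ : Fin n → Fin K → ℝ,
      C ≤ log ((∫ ω₁, Y (fun k j => x (ω₀ k j) (ω₁ k j)) ^ m ∂msgLaw n K) ^ (1 / m))) → C ≤ levelOne m x Y) := by
  have hmeas : Measurable fun ω₀ : Fin n → Fin K → ℝ =>
      log ((∫ ω₁, Y (fun k j => x (ω₀ k j) (ω₁ k j)) ^ m ∂msgLaw n K) ^ (1 / m)) := by
    have h1 : Measurable fun q : (Fin n → Fin K → ℝ) × (Fin n → Fin K → ℝ) =>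
        Y (fun k j => x (q.1 k j) (q.2 k j)) ^ m := by
      refine (hY.comp (measurable_pi_lambda _ fun k => measurable_pi_lambda _ fun j => ?_)).pow_const m
      have ha : Measurable fun q : (Fin n → Fin K → ℝ) × (Fin n → Fin K → ℝ) => (q.1 k j, q.2 k j) := by fun_prop
      exact hxm.comp ha
    exact Real.measurable_log.comp ((h1.stronglyMeasurable.integral_prod_right').measurable.pow_const _)
  have hi : Integrable (fun ω₀ : Fin n → Fin K → ℝ =>
      log ((∫ ω₁, Y (fun k j => x (ω₀ k j) (ω₁ k j)) ^ m ∂msgLaw n K) ^ (1 / m))) (msgLaw n K) := by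
    refine Integrable.of_bound hmeas.aestronglyMeasurable D (Filter.Eventually.of_forall fun ω₀ => ?_)
    obtain ⟨-, a, b⟩ := inner_level_mem hxm hY hb hx hm ω₀
    have hI : 0 < ∫ ω₁, Y (fun k j => x (ω₀ k j) (ω₁ k j)) ^ m ∂msgLaw n K := lt_of_lt_of_le (exp_pos _) a
    rw [log_rpow hI, Real.norm_eq_abs, abs_mul, abs_of_pos (one_div_pos.2 hm), one_div, inv_mul_le_iff₀ hm, abs_le]
    exact ⟨(le_log_iff_exp_le hI).2 a, (log_le_iff_le_exp hI).2 b⟩
  refine ⟨hi, fun h => ?_, fun h => ?_⟩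
  · simpa [levelOne] using integral_mono hi (integrable_const C) h
  · simpa [levelOne] using integral_mono (integrable_const C) hi h

lemma sign_U_le {m h : ℝ} (hm : 0 < m) (hm1 : m ≤ 1) {w : Fin n → Clause K} (ℓ : Fin n → Fin K)
    (hw : ∀ k, Valid (w k)) (hQw : ∀ k, PM (w k)) :
    levelOne m signTrial (cavU h w ℓ) ≤ log (2 * cosh (m * h)) / m +
      ∑ k, (ub (w k).1 + log (cosh (m * gb (w k).1.2)) / m + 1 / m * ∏ j ∈ univ.erase (ℓ k), |fbar ((w k).2 j)|) := by
  set βU := fun (c : Clause K) (l : Fin K) =>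
    ub c.1 + log (cosh (m * gb c.1.2)) / m + 1 / m * ∏ j ∈ univ.erase l, |fbar (c.2 j)|
  show _ ≤ _ + ∑ k, βU (w k) (ℓ k)
  have hYm : Measurable fun xs : Fin n → Fin K → ℝ => cavU h w ℓ xs :=
    (measurable_cavU ℓ).comp ((measurable_const (a := (h, w))).prodMk measurable_id)
  refine (levelOne_le_const measurable_signTrial hYm (fun xs hxs => cavU_mem hw ℓ hxs) abs_signTrial hm).2.1 ?_
  intro ω₀
  obtain ⟨hI, hIl, -⟩ := inner_level_mem measurable_signTrial hYm
    (fun xs hxs => cavU_mem hw ℓ hxs) abs_signTrial hm ω₀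
  have hIpos : 0 < ∫ ω₁, cavU h w ℓ (fun k j => signTrial (ω₀ k j) (ω₁ k j)) ^ m ∂msgLaw n K :=
    lt_of_lt_of_le (exp_pos _) hIl
  set G := fun (s : Bool) (k : Fin n) (y : Fin K → ℝ) =>
    clauseU (w k) (ℓ k) s (fun j => signTrial (ω₀ k j) (y j)) ^ m
  have hG : ∀ s k, Integrable (G s k) (Measure.pi fun _ => unif01) ∧
      ∫ y, G s k y ∂Measure.pi (fun _ => unif01) ≤ exp (m * βU (w k) (ℓ k)) := by
    intro s k
    have hA : |fval ((w k).2 (ℓ k)) s| = 1 := by cases s <;> simp [fval, hQw k (ℓ k)]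
    have := sign_pow (hw k) (hQw k) (univ.erase (ℓ k)) hA m (ω₀ k)
    simp only [G, clauseU_eq (hw k)]
    refine ⟨this.1, ?_⟩
    rw [this.2]
    set p := ∏ j ∈ univ.erase (ℓ k), |fbar ((w k).2 j)| with hpdef
    have hy : |fval ((w k).2 (ℓ k)) s * ∏ j ∈ univ.erase (ℓ k), fbar ((w k).2 j)| ≤ p := by
      rw [abs_mul, hA, one_mul, abs_prod]
    refine (mul_le_mul_of_nonneg_left (cosh_add_sinh_mul hy (abs_prod_fbar (hw k) _).2).1 (exp_pos _).le).trans (le_of_eq ?_)
    rw [← exp_log (cosh_pos (m * gb (w k).1.2)), ← exp_add, ← exp_add]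
    congr 1
    simp only [βU, ← hpdef]; field_simp; ring
  have hterm : ∀ s, Integrable (fun ω₁ : Fin n → Fin K → ℝ => exp (m * (h * sg s)) * ∏ k, G s k (ω₁ k)) (msgLaw n K) :=
    fun s => by unfold msgLaw; exact (Integrable.fintype_prod fun k => (hG s k).1).const_mul _
  have hle : ∫ ω₁, cavU h w ℓ (fun k j => signTrial (ω₀ k j) (ω₁ k j)) ^ m ∂msgLaw n K ≤
      2 * cosh (m * h) * exp (∑ k, m * βU (w k) (ℓ k)) := by
    refine (integral_mono hI ((hterm true).add (hterm false)) fun ω₁ => ?_).trans ?_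
    · have hp : ∀ s k, 0 ≤ clauseU (w k) (ℓ k) s (fun j => signTrial (ω₀ k j) (ω₁ k j)) := fun s k =>
        (exp_pos _).le.trans (clauseU_mem (hw k) _ _ fun j => abs_signTrial _ _).1
      simp only [Pi.add_apply, G, cavU_eq, Fintype.sum_bool]
      refine (rpow_add_le_add_rpow (mul_nonneg (exp_pos _).le (prod_nonneg fun k _ => hp true k))
        (mul_nonneg (exp_pos _).le (prod_nonneg fun k _ => hp false k)) hm.le hm1).trans (le_of_eq ?_)
      rw [mul_rpow (exp_pos _).le (prod_nonneg fun k _ => hp true k), mul_rpow (exp_pos _).le (prod_nonneg fun k _ => hp false k),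
        ← finsetProd_rpow _ _ (fun k _ => hp true k), ← finsetProd_rpow _ _ (fun k _ => hp false k),
        ← exp_mul, ← exp_mul, mul_comm _ m, mul_comm _ m]
    · simp only [Pi.add_apply]
      rw [integral_add (hterm true) (hterm false), integral_const_mul, integral_const_mul,
        integral_msg_prod (G true), integral_msg_prod (G false), exp_sum]
      have hb : ∀ s, ∏ k, ∫ y, G s k y ∂Measure.pi (fun _ => unif01) ≤ ∏ k, exp (m * βU (w k) (ℓ k)) := fun s =>
        prod_le_prod (fun k _ => integral_nonneg fun y => rpow_nonneg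
          ((exp_pos _).le.trans (clauseU_mem (hw k) _ _ fun j => abs_signTrial _ _).1) _) fun k _ => (hG s k).2
      refine (add_le_add (mul_le_mul_of_nonneg_left (hb true) (exp_pos _).le)
        (mul_le_mul_of_nonneg_left (hb false) (exp_pos _).le)).trans (le_of_eq ?_)
      rw [Real.cosh_eq]; simp [sg]; ring
  have hlog := log_le_log hIpos hle
  rw [log_mul (by positivity) (exp_pos _).ne', log_exp, ← mul_sum] at hlog
  rw [log_rpow hIpos, one_div, inv_mul_le_iff₀ hm, mul_add, mul_div_cancel₀ _ hm.ne']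
  exact hlog

lemma sign_V_ge {m : ℝ} (hm : 0 < m) {w : Fin n → Clause K}
    (hw : ∀ k, Valid (w k)) (hQw : ∀ k, PM (w k)) :
    ∑ k, (ub (w k).1 + log (cosh (m * gb (w k).1.2)) / m - 2 * |gb (w k).1.2| * ∏ j, |fbar ((w k).2 j)|) ≤
      levelOne m signTrial (cavV w) := by
  set βV := fun c : Clause K =>
    ub c.1 + log (cosh (m * gb c.1.2)) / m - 2 * |gb c.1.2| * ∏ j, |fbar (c.2 j)|
  show ∑ k, βV (w k) ≤ _
  have hYm : Measurable fun xs : Fin n → Fin K → ℝ => cavV w xs := by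
    simp only [cavV_eq, clauseV_eq (hw _)]
    unfold fmean
    fun_prop
  refine (levelOne_le_const measurable_signTrial hYm (fun xs hxs => cavV_mem hw hxs) abs_signTrial hm).2.2 ?_
  intro ω₀
  obtain ⟨hI, hIl, -⟩ := inner_level_mem measurable_signTrial hYm
    (fun xs hxs => cavV_mem hw hxs) abs_signTrial hm ω₀
  have hIpos : 0 < ∫ ω₁, cavV w (fun k j => signTrial (ω₀ k j) (ω₁ k j)) ^ m ∂msgLaw n K :=
    lt_of_lt_of_le (exp_pos _) hIl
  have hle : exp (∑ k, m * βV (w k)) ≤ ∫ ω₁, cavV w (fun k j => signTrial (ω₀ k j) (ω₁ k j)) ^ m ∂msgLaw n K := by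
    have e : ∀ ω₁ : Fin n → Fin K → ℝ, cavV w (fun k j => signTrial (ω₀ k j) (ω₁ k j)) ^ m =
        ∏ k, clauseV (w k) (fun j => signTrial (ω₀ k j) (ω₁ k j)) ^ m := fun ω₁ => by
      rw [cavV_eq, finsetProd_rpow _ _ fun k _ =>
        (exp_pos _).le.trans (clauseV_mem (hw k) fun j => abs_signTrial _ _).1]
    simp only [e]
    rw [integral_msg_prod (fun k y => clauseV (w k) (fun j => signTrial (ω₀ k j) (y j)) ^ m), exp_sum]
    refine prod_le_prod (fun k _ => (exp_pos _).le) fun k _ => ?_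
    have := (sign_pow (hw k) (hQw k) univ (abs_one) m (ω₀ k)).2
    simp only [one_mul] at this
    simp only [clauseV_eq (hw k)]
    rw [this]
    refine le_trans (le_of_eq ?_) (mul_le_mul_of_nonneg_left
      (cosh_add_sinh_mul (le_of_eq (abs_prod univ _)) (abs_prod_fbar (hw k) _).2).2 (exp_pos _).le)
    rw [← exp_log (cosh_pos (m * gb (w k).1.2)), ← exp_add, ← exp_add, abs_mul, abs_of_pos hm]
    congr 1
    simp only [βV]; field_simp; ring
  have hlog := (le_log_iff_exp_le hIpos).2 hle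
  rw [← mul_sum] at hlog
  rw [log_rpow hIpos, one_div, le_inv_mul_iff₀ hm]
  exact hlog

lemma depth_sign_le [NeZero K] (d : Disorder ν η ρ) (hpm : ∀ᵐ p ∂η, |p.1| = 1 ∧ |p.2| = 1) {lam m : ℝ}
    (hlam : 0 ≤ lam) (hm : 0 < m) (hm1 : m ≤ 1) :
    depthOne ν η ρ lam K m signTrial ≤ (∫ y, log (2 * cosh (m * y)) ∂ρ) / m +
      lam * (∫ c, ub c ∂ν + (∫ c, log (cosh (m * gb c.2)) ∂ν) / m) +
      K * lam * (∫ p, |fbar p| ∂η) ^ (K - 1) * (1 / m + 2 * ∫ c, |gb c.2| ∂ν) := by
  have := d.pν; have := d.pη; have := d.pρ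
  set r := ∫ p, |fbar p| ∂η with hr
  set Eu := ∫ c, ub c ∂ν
  set EA := ∫ c, log (cosh (m * gb c.2)) ∂ν
  set Eg := ∫ c, |gb c.2| ∂ν
  have hQ : ∀ᵐ c ∂clauseLaw ν η K, PM c := Measure.quasiMeasurePreserving_snd.ae (ae_all_iff.2 fun j =>
      (Measure.tendsto_eval_ae_ae (μ := fun _ : Fin K => η) (i := j)).eventually hpm)
  have iu := d.base (K := K) (integrable_ub d)
  have iA := d.base (K := K) ((integrable_log_cosh d m).div_const m)
  set βU := fun (c : Clause K) (ℓ : Fin K) =>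
    ub c.1 + log (cosh (m * gb c.1.2)) / m + 1 / m * ∏ j ∈ univ.erase ℓ, |fbar (c.2 j)|
  have iU : ∀ ℓ, Integrable (fun c => βU c ℓ) (clauseLaw ν η K) ∧
      ∫ c, βU c ℓ ∂clauseLaw ν η K = Eu + EA / m + 1 / m * r ^ (K - 1) := fun ℓ => by
    have ii := iso_erase d (fun _ => 1 / m) (integrable_const _) ℓ
    refine ⟨(iu.1.add iA.1).add ii.1, ?_⟩
    rw [integral_add (f := fun c : Clause K => ub c.1 + log (cosh (m * gb c.1.2)) / m) (iu.1.add iA.1) ii.1,
      integral_add iu.1 iA.1, iu.2, iA.2, ii.2, integral_div]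
    simp [Eu, EA, r]
  have hU := funU_le (K := K) d hlam measurable_signTrial abs_signTrial hm hQ
    (α := fun y => log (2 * cosh (m * y)) / m) ((integrable_log_two_cosh d m).div_const m)
    (β := βU) (fun ℓ => (iU ℓ).1) ?_
  swap
  · exact fun n h w ℓ hw hQw => sign_U_le hm hm1 ℓ hw hQw
  set βV := fun c : Clause K =>
    ub c.1 + log (cosh (m * gb c.1.2)) / m - 2 * |gb c.1.2| * ∏ j, |fbar (c.2 j)|
  have iV := iso_all (K := K) d (fun c => 2 * |gb c.2|) ((integrable_gb d).abs.const_mul 2)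
  have hV := funV_ge (K := K) d hlam NeZero.one_le measurable_signTrial abs_signTrial hm hQ
    (β := βV) ((iu.1.add iA.1).sub iV.1) ?_
  swap
  · exact fun n w hw hQw => sign_V_ge hm hw hQw
  have eU : ∫ c, av (βU c) ∂clauseLaw ν η K = Eu + EA / m + 1 / m * r ^ (K - 1) := by
    unfold av
    rw [integral_div, integral_finsetSum _ fun ℓ _ => (iU ℓ).1, sum_congr rfl fun ℓ _ => (iU ℓ).2]
    have : (K:ℝ) ≠ 0 := by exact_mod_cast (NeZero.ne K)
    simp; field_simp
  have eV : ∫ c, βV c ∂clauseLaw ν η K = Eu + EA / m - 2 * Eg * r ^ K := by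
    rw [integral_sub (f := fun c : Clause K => ub c.1 + log (cosh (m * gb c.1.2)) / m) (iu.1.add iA.1) iV.1,
      integral_add iu.1 iA.1, iu.2, iA.2, iV.2, integral_div, integral_const_mul]
  rw [eU] at hU; rw [eV] at hV; rw [integral_div] at hU
  have hr0 : 0 ≤ r := integral_nonneg fun _ => abs_nonneg _
  have hr1 : r ≤ 1 := by
    have h := norm_integral_le_of_norm_le_const (μ := η) (f := fun p => |fbar p|) (C := 1)
      (d.hf.mono fun p hp => by simpa [Real.norm_eq_abs] using abs_fbar_le hp)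
    rw [Real.norm_eq_abs, abs_of_nonneg (show (0:ℝ) ≤ ∫ p, |fbar p| ∂η from hr0)] at h
    simpa [hr] using h
  have hEg : 0 ≤ Eg := integral_nonneg fun _ => abs_nonneg _
  have hp : r ^ K ≤ r ^ (K - 1) := pow_le_pow_of_le_one hr0 hr1 (Nat.sub_le _ _)
  have h1 := mul_le_mul_of_nonneg_left hp (show 0 ≤ 2 * (K:ℝ) * lam * Eg by positivity)
  have h2 : 0 ≤ 2 * lam * Eg * r ^ K := by positivity
  unfold depthOne; linarith

end Vale.Agent.P168
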